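import Vale.Agent.P095.Basic
import Vale.Agent.P101.Stage1
import Vale.Agent.P101.Stage2
import Vale.Agent.P101.Stage3
import Vale.Agent.P101.Stage4
import Vale.Agent.P101.Colour
import Vale.Agent.P101.Regroup
import Vale.Agent.P101.Central

/-! A central sequence algebra without characters gives the uniform McDuff property for every set
of tracial states. -/

noncomputable section

open Filter Topology
open scoped BoundedContinuousFunction

namespace Vale.Agent.P095.Link

open Vale.Agent.P101 (Full Copies HasNil CQ centralAlg proj)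
open Vale.Agent.P101.CombineN (IsOrderZero supp)

universe u

section Family

variable {D : Type*} [Ring D]

/-- The product of two commuting families. -/
def tens {M : ℕ} (E : Fin M → Fin M → D) (E' : Fin 2 → Fin 2 → D) (i j : Fin (M * 2)) : D :=
  E (finProdFinEquiv.symm i).1 (finProdFinEquiv.symm j).1 *
    E' (finProdFinEquiv.symm i).2 (finProdFinEquiv.symm j).2

theorem supp_tens {M : ℕ} (E : Fin M → Fin M → D) (E' : Fin 2 → Fin 2 → D) :
    supp (tens E E') = supp E * supp E' := by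
  unfold supp
  rw [Finset.sum_mul_sum, ← Fintype.sum_prod_type',
    ← finProdFinEquiv.sum_comp fun i => tens E E' i i]
  simp [tens]

theorem tens_oz {M : ℕ} {E : Fin M → Fin M → D} {E' : Fin 2 → Fin 2 → D} (hE : IsOrderZero E)
    (hE' : IsOrderZero E') (hc : ∀ i j k l, Commute (E i j) (E' k l)) :
    IsOrderZero (tens E E') := by
  refine ⟨fun i j k l => ?_⟩
  obtain ⟨⟨i1, i2⟩, rfl⟩ := finProdFinEquiv.surjective i
  obtain ⟨⟨j1, j2⟩, rfl⟩ := finProdFinEquiv.surjective j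
  obtain ⟨⟨k1, k2⟩, rfl⟩ := finProdFinEquiv.surjective k
  obtain ⟨⟨l1, l2⟩, rfl⟩ := finProdFinEquiv.surjective l
  rw [supp_tens]
  simp only [tens, Equiv.symm_apply_apply]
  rw [Commute.mul_mul_mul_comm (hc k1 l1 i2 j2).symm, hE.mul_eq, hE'.mul_eq]
  simp only [EmbeddingLike.apply_eq_iff_eq, Prod.mk.injEq]
  have hx : Commute (E i1 l1) (supp E') := Commute.sum_right _ _ _ fun i _ => hc i1 l1 i i
  by_cases h1 : j1 = k1 <;> by_cases h2 : j2 = k2 <;>
    simp [h1, h2, hx.mul_mul_mul_comm]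

end Family

/-- Products of commuting copies of the family of a square-zero element. -/
theorem exists_family {B D : Type*} [CStarAlgebra B] [CStarAlgebra D] {j : ℕ}
    (c : Copies B D (Fin j)) {x : B} (hx : x * x = 0) (hfull : Full ({x} : Set B)) :
    ∀ k, k ≤ j → ∃ (M : ℕ) (E : Fin M → Fin M → D) (z : Fin M), M = 2 ^ k ∧ IsOrderZero E ∧
      (∀ a b, star (E a b) = E b a) ∧ Full ({E z z} : Set D) ∧
      ∀ i : Fin j, k ≤ i.1 → ∀ y a b, Commute (c.hom i y) (E a b) := by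
  intro k
  induction k with
  | zero =>
    intro _
    refine ⟨1, fun _ _ => 1, 0, rfl, ⟨fun a b c d => ?_⟩, fun _ _ => star_one D,
      TwoSidedIdeal.subset_span rfl, fun i _ y a b => Commute.one_right _⟩
    simp [supp, Subsingleton.elim b c]
  | succ k ih =>
    intro hk
    obtain ⟨M, E, z, rfl, hE, hs, hf, hcm⟩ := ih (Nat.le_of_succ_le hk)
    set ψ := c.hom ⟨k, hk⟩ with hψ
    set E' : Fin 2 → Fin 2 → D := fun a b => ψ (P101.Stage4.ofNil x a b) with hE'
    have hoz := P101.Stage4.ofNil_oz hx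
    have hE'oz : IsOrderZero E' := ⟨fun a b a' b' => by
      simp only [hE', ← map_mul, hoz.mul_eq]
      split <;> simp [supp, add_mul]⟩
    have hE's : ∀ a b, star (E' a b) = E' b a := fun a b => by
      simp only [hE', ← map_star, P101.Stage4.ofNil_star hx]
    have hc : ∀ a b a' b', Commute (E a b) (E' a' b') := fun a b a' b' =>
      (hcm ⟨k, hk⟩ le_rfl _ a b).symm
    refine ⟨2 ^ k * 2, tens E E', finProdFinEquiv (z, 0), (pow_succ 2 k).symm,
      tens_oz hE hE'oz hc, fun a b => ?_, ?_, fun i hi y a b => ?_⟩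
    · simp only [tens, star_mul, hs, hE's, (hc _ _ _ _).eq]
    · have e : tens E E' (finProdFinEquiv (z, 0)) (finProdFinEquiv (z, 0)) =
          E z z * E' 0 0 := by simp [tens]
      rw [e]
      obtain ⟨n, p, w, q, hw, h1⟩ :=
        P101.full_exists_sum (P101.Stage4.ofNil_full hx hfull)
      refine P101.full_mono hf (Set.singleton_subset_iff.2 ?_)
      have e2 : E z z = ∑ l, ψ (p l) * (E z z * E' 0 0) * ψ (q l) := by
        conv_lhs => rw [← mul_one (E z z), ← map_one ψ, ← h1, map_sum, Finset.mul_sum]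
        refine Finset.sum_congr rfl fun l _ => ?_
        have hc2 : Commute (ψ (p l)) (E z z) := hcm ⟨k, hk⟩ le_rfl (p l) z z
        rw [show w l = P101.Stage4.ofNil x 0 0 from hw l, map_mul, map_mul,
          ← mul_assoc (ψ (p l)) (E z z), hc2.eq]
        simp only [hE', mul_assoc]
      show E z z ∈ TwoSidedIdeal.span ({E z z * E' 0 0} : Set D)
      refine (congrArg (· ∈ TwoSidedIdeal.span ({E z z * E' 0 0} : Set D)) e2).mpr ?_
      exact sum_mem fun l _ => TwoSidedIdeal.mul_mem_right _ _ _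
        (TwoSidedIdeal.mul_mem_left _ _ _ (TwoSidedIdeal.subset_span rfl))
    · exact (hcm i (Nat.le_of_succ_le hi) y _ _).mul_right
        (c.comm i _ (fun he => by rw [he] at hi; exact Nat.not_succ_le_self k hi) _ _)

section Traces

variable {A : Type u} [CStarAlgebra A] (ω : Ultrafilter ℕ) (t : ℕ → A →ₗ[ℂ] ℂ)
  (ht : ∀ n, IsTr (t n))

/-- The limit of the real parts of a sequence of traces along a sequence. -/
def limTr (a : ℕ →ᵇ A) : ℝ := limUnder (ω : Filter ℕ) fun n => (t n (a n)).re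

include ht in
theorem tendsto_limTr (a : ℕ →ᵇ A) :
    Tendsto (fun n => (t n (a n)).re) (ω : Filter ℕ) (𝓝 (limTr ω t a)) := by
  obtain ⟨x, -, hx⟩ := (isCompact_Icc (a := -‖a‖) (b := ‖a‖)).ultrafilter_le_nhds
    (ω.map fun n => (t n (a n)).re) (by
      rw [le_principal_iff, Ultrafilter.coe_map, mem_map]
      exact Filter.univ_mem' fun n => abs_le.1
        ((Complex.abs_re_le_norm _).trans (((ht n).norm_map_le _).trans (a.norm_coe_le_norm n))))
  have h : Tendsto (fun n => (t n (a n)).re) (ω : Filter ℕ) (𝓝 x) := hx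
  unfold limTr
  rwa [h.limUnder_eq]

/-- The induced functional on the central sequence algebra. -/
def qTr (x : CQ ω A) : ℝ :=
  limTr ω t ((Function.surjInv (P101.proj_surjective ω) x : ↥(centralAlg ω A)) : ℕ →ᵇ A)

include ht in
theorem tendsto_qTr (a : ↥(centralAlg ω A)) :
    Tendsto (fun n => (t n ((a : ℕ →ᵇ A) n)).re) (ω : Filter ℕ)
      (𝓝 (qTr ω t (proj ω a))) := by
  set b : ↥(centralAlg ω A) := Function.surjInv (P101.proj_surjective ω) (proj ω a) with hb
  have hn : P101.IsNull ω ((a : ℕ →ᵇ A) - (b : ℕ →ᵇ A)) :=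
    (P101.proj_eq_iff ω a b).1 (Function.surjInv_eq (P101.proj_surjective ω) _).symm
  have h0 : Tendsto (fun n => (t n (((a : ℕ →ᵇ A) - (b : ℕ →ᵇ A)) n)).re) (ω : Filter ℕ)
      (𝓝 0) :=
    squeeze_zero_norm (fun n => (Complex.abs_re_le_norm _).trans ((ht n).norm_map_le _)) hn
  have := h0.add (tendsto_limTr ω t ht (b : ℕ →ᵇ A))
  simpa [qTr, ← hb] using this

include ht in
theorem qTr_add (x y : CQ ω A) : qTr ω t (x + y) = qTr ω t x + qTr ω t y := by
  obtain ⟨a, rfl⟩ := P101.proj_surjective ω x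
  obtain ⟨b, rfl⟩ := P101.proj_surjective ω y
  rw [← map_add]
  refine tendsto_nhds_unique (tendsto_qTr ω t ht (a + b))
    (((tendsto_qTr ω t ht a).add (tendsto_qTr ω t ht b)).congr fun n => ?_)
  simp

include ht in
theorem qTr_comm (x y : CQ ω A) : qTr ω t (x * y) = qTr ω t (y * x) := by
  obtain ⟨a, rfl⟩ := P101.proj_surjective ω x
  obtain ⟨b, rfl⟩ := P101.proj_surjective ω y
  rw [← map_mul, ← map_mul]
  refine tendsto_nhds_unique (tendsto_qTr ω t ht (a * b))
    ((tendsto_qTr ω t ht (b * a)).congr fun n => ?_)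
  simp [(ht n).comm]

include ht in
theorem qTr_one : qTr ω t (1 : CQ ω A) = 1 := by
  rw [← map_one (proj ω (A := A))]
  refine tendsto_nhds_unique (tendsto_qTr ω t ht 1) (tendsto_const_nhds.congr fun n => ?_)
  simp [(ht n).map_one]

include ht in
theorem qTr_sub (x y : CQ ω A) : qTr ω t (x - y) = qTr ω t x - qTr ω t y := by
  have := qTr_add ω t ht (x - y) y
  rw [sub_add_cancel] at this
  linarith

include ht in
theorem qTr_sum {ι : Type*} [Fintype ι] (f : ι → CQ ω A) :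
    qTr ω t (∑ i, f i) = ∑ i, qTr ω t (f i) :=
  map_sum (AddMonoidHom.mk' (qTr ω t) (qTr_add ω t ht)) f Finset.univ

include ht in
theorem qTr_nonneg (w : CQ ω A) : 0 ≤ qTr ω t (star w * w) := by
  obtain ⟨a, rfl⟩ := P101.proj_surjective ω w
  rw [← map_star, ← map_mul]
  exact ge_of_tendsto' (tendsto_qTr ω t ht (star a * a)) fun n => by
    simpa using (ht n).re_nonneg _

end Traces

section Order

variable {D : Type*} [CStarAlgebra D] [PartialOrder D] [StarOrderedRing D]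

theorem mul_self_le_of_le_one {x : D} (h0 : 0 ≤ x) (h1 : x ≤ 1) : x * x ≤ x := by
  obtain ⟨r, rfl⟩ := CStarAlgebra.nonneg_iff_eq_star_mul_self.1 h0
  have hn : ‖r * star r‖ ≤ 1 := by
    rw [CStarRing.norm_self_mul_star, ← CStarRing.norm_star_mul_self]
    rcases subsingleton_or_nontrivial D with _ | _
    · rw [Subsingleton.elim (star r * r) 0, norm_zero]; exact zero_le_one
    · exact (CStarAlgebra.norm_le_norm_of_nonneg_of_le h0 h1).trans norm_one.le
  have h2 : r * star r ≤ 1 := (CStarAlgebra.norm_le_one_iff_of_nonneg _ (mul_star_self_nonneg r)).1 hn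
  calc star r * r * (star r * r) = star r * (r * star r) * r := by noncomm_ring
    _ ≤ star r * 1 * r := star_left_conjugate_le_conjugate h2 r
    _ = star r * r := by rw [mul_one]

end Order

/-- The pair of elements and their relations in a C*-algebra with the relations. -/
theorem pair_of_relations {D : Type*} [CStarAlgebra D] [PartialOrder D] [StarOrderedRing D]
    (L : D → ℝ) (hadd : ∀ {ι : Type} [Fintype ι] (f : ι → D), L (∑ i, f i) = ∑ i, L (f i))
    (hsub : ∀ x y, L (x - y) = L x - L y) (hone : L 1 = 1) (hcomm : ∀ x y, L (x * y) = L (y * x))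
    (hpos : ∀ x, 0 ≤ L (star x * x)) {N : ℕ} {G : Fin N → Fin N → D} {z : Fin N} {v : D}
    (hG : IsOrderZero G) (hs : ∀ i j, star (G i j) = G j i)
    (hr : ∀ i, ∃ r, star r * r = G i i) (hv : star v * v = 1 - supp G) (hfix : G z z * v = v) :
    L ((1 - supp G * supp G) * (1 - supp G * supp G)) * (N + 1) ≤ 2 := by
  have hmono : ∀ {x y}, x ≤ y → L x ≤ L y := fun {x y} h => by
    obtain ⟨w, hw⟩ := CStarAlgebra.nonneg_iff_eq_star_mul_self.1 (sub_nonneg.2 h)
    have h0 := hpos w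
    rw [← hw, hsub] at h0
    linarith
  have hadd2 : ∀ x y, L (x + y) = L x + L y := fun x y => by
    have := hsub (x + y) y
    rw [add_sub_cancel_right] at this
    linarith
  set H := supp G with hH
  have hG0 : ∀ i, 0 ≤ G i i := fun i => by
    obtain ⟨r, hr⟩ := hr i
    rw [← hr]; exact star_mul_self_nonneg r
  have hH0 : 0 ≤ H := Finset.sum_nonneg fun i _ => hG0 i
  have hH1 : H ≤ 1 := sub_nonneg.1 (by rw [← hv]; exact star_mul_self_nonneg v)
  have hG1 : ∀ i, G i i ≤ 1 := fun i =>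
    (Finset.single_le_sum (fun k _ => hG0 k) (Finset.mem_univ i)).trans hH1
  have hvv : v * star v ≤ 1 := by
    refine (CStarAlgebra.norm_le_one_iff_of_nonneg _ (mul_star_self_nonneg v)).1 ?_
    rw [CStarRing.norm_self_mul_star, ← CStarRing.norm_star_mul_self, hv]
    exact (CStarAlgebra.norm_le_one_iff_of_nonneg _ (sub_nonneg.2 hH1)).2 (sub_le_self _ hH0)
  have hmm : ∀ a b, G a b * G b a = H * G a a := fun a b => by rw [hG.mul_eq, if_pos rfl]
  have hR : ∀ a, L (1 - H) ≤ L (G a a) := fun a => by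
    have e1 : G z z * (v * star v) * G z z = v * star v := by
      have hfix' : star v * G z z = star v := by
        simpa [star_mul, hs] using congrArg star hfix
      rw [← mul_assoc, hfix, mul_assoc, hfix']
    calc L (1 - H) = L (v * star v) := by rw [← hv, hcomm]
      _ ≤ L (G z z * G z z) := by
          rw [← e1]
          refine hmono ?_
          have := star_left_conjugate_le_conjugate hvv (G z z)
          simpa [hs] using this
      _ = L (H * G z z) := by rw [hmm]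
      _ = L (G a z * G z a) := by rw [← hmm z a, hcomm]
      _ = L (G a a * G a a) := by rw [hmm, hmm]
      _ ≤ L (G a a) := hmono (mul_self_le_of_le_one (hG0 a) (hG1 a))
  have hsum : (N : ℝ) * L (1 - H) ≤ 1 - L (1 - H) := by
    have := Finset.sum_le_sum (s := Finset.univ) fun a _ => hR a
    rw [Finset.sum_const, Finset.card_univ, Fintype.card_fin, nsmul_eq_mul, ← hadd] at this
    refine this.trans (le_of_eq ?_)
    rw [hsub, hone, show supp G = ∑ i, G i i from rfl] at *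
    simp [hH]
  have hH2 : H * H ≤ H := mul_self_le_of_le_one hH0 hH1
  have hP : 1 - H * H ≤ (1 - H) + (1 - H) := by
    rw [← sub_nonneg, show (1 - H) + (1 - H) - (1 - H * H) = star (1 - H) * (1 - H) by
      rw [(IsSelfAdjoint.of_nonneg (sub_nonneg.2 hH1)).star_eq]; noncomm_ring]
    exact star_mul_self_nonneg _
  have h1 : L ((1 - H * H) * (1 - H * H)) ≤ 2 * L (1 - H) := by
    refine (hmono ((mul_self_le_of_le_one (sub_nonneg.2 (hH2.trans hH1)) ?_).trans hP)).trans
      (le_of_eq ?_)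
    · have : 0 ≤ H * H := by
        have := star_mul_self_nonneg H
        rwa [(IsSelfAdjoint.of_nonneg hH0).star_eq] at this
      exact sub_le_self _ this
    · rw [hadd2]; ring
  nlinarith

/-- A self-adjoint element of norm at most one has self-adjoint contractive representatives. -/
theorem exists_rep_sa {A : Type u} [CStarAlgebra A] (ω : Ultrafilter ℕ) {x : CQ ω A}
    (hsa : IsSelfAdjoint x) (hn : ‖x‖ ≤ 1) :
    ∃ a : ↥(centralAlg ω A), proj ω a = x ∧
      ∀ n, IsSelfAdjoint ((a : ℕ →ᵇ A) n) ∧ ‖(a : ℕ →ᵇ A) n‖ ≤ 1 := by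
  obtain ⟨a₀, ha₀⟩ := P101.proj_surjective ω x
  set a : ↥(centralAlg ω A) := (2⁻¹ : ℂ) • (a₀ + star a₀) with ha
  have hpa : proj ω a = x := by
    rw [ha, map_smul, map_add, map_star, ha₀, hsa.star_eq, ← two_smul ℂ, smul_smul]
    norm_num
  have hasa : ∀ n, IsSelfAdjoint ((a : ℕ →ᵇ A) n) := fun n => by
    simp [ha, isSelfAdjoint_iff, add_comm]
  set f : ℕ → A := fun n => (max 1 ‖(a : ℕ →ᵇ A) n‖)⁻¹ • (a : ℕ →ᵇ A) n with hf
  have hm : ∀ n, 0 < max 1 ‖(a : ℕ →ᵇ A) n‖ := fun n => lt_max_of_lt_left one_pos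
  have hf1 : ∀ n, ‖f n‖ ≤ 1 := fun n => by
    rw [hf, norm_smul, norm_inv, Real.norm_eq_abs, abs_of_pos (hm n), inv_mul_le_iff₀ (hm n),
      mul_one]
    exact le_max_right _ _
  set b : ℕ →ᵇ A := BoundedContinuousFunction.ofNormedAddCommGroupDiscrete f 1 hf1
  have hnull : P101.IsNull ω (b - (a : ℕ →ᵇ A)) := by
    have h1 : Tendsto (fun n => max 1 ‖(a : ℕ →ᵇ A) n‖ - 1) (ω : Filter ℕ) (𝓝 0) := by
      have h2 := P101.tendsto_nrm (ω := ω) (a : ℕ →ᵇ A)
      rw [← P101.norm_proj, hpa] at h2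
      have := (tendsto_const_nhds (x := (1 : ℝ))).max h2
      rw [max_eq_left hn] at this
      simpa using this.sub_const 1
    refine squeeze_zero (fun n => norm_nonneg _) (fun n => ?_) h1
    have e : (b - (a : ℕ →ᵇ A)) n = ((max 1 ‖(a : ℕ →ᵇ A) n‖)⁻¹ - 1) • (a : ℕ →ᵇ A) n := by
      rw [sub_smul, one_smul]; rfl
    rw [e, norm_smul, Real.norm_eq_abs, abs_of_nonpos (by
      rw [sub_nonpos]; exact inv_le_one_of_one_le₀ (le_max_left _ _))]
    have h3 := mul_inv_cancel₀ (hm n).ne'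
    have h4 := le_max_right 1 ‖(a : ℕ →ᵇ A) n‖
    have h5 := inv_le_one_of_one_le₀ (le_max_left 1 ‖(a : ℕ →ᵇ A) n‖)
    nlinarith
  refine ⟨⟨b, P101.IsCentral.of_null_sub a.2 hnull⟩, ?_, fun n => ⟨?_, hf1 n⟩⟩
  · rw [← hpa]
    exact (P101.proj_eq_iff ω _ _).2 hnull
  · exact (IsSelfAdjoint.all ((max 1 ‖(a : ℕ →ᵇ A) n‖)⁻¹ : ℝ)).smul (hasa n)

/-- Uniform smallness of representatives from all limit traces. -/
theorem eventually_small {A : Type u} [CStarAlgebra A] (ω : Ultrafilter ℕ)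
    {T : Set (A →ₗ[ℂ] ℂ)} (hT : ∀ τ ∈ T, IsTr τ) (a : ↥(centralAlg ω A)) {δ : ℝ} (hδ : 0 ≤ δ)
    (h : ∀ t : ℕ → A →ₗ[ℂ] ℂ, (∀ n, t n ∈ T) →
      qTr ω t (star (proj ω a) * proj ω a) < δ ^ 2) :
    ∀ᶠ n in (ω : Filter ℕ), Small T ((a : ℕ →ᵇ A) n) δ := by
  classical
  by_contra hcon
  rw [← Ultrafilter.eventually_not] at hcon
  obtain ⟨n₀, hn₀⟩ := hcon.exists
  simp only [Small, not_forall, not_le] at hn₀
  obtain ⟨τ₀, hτ₀, -⟩ := hn₀
  set t : ℕ → A →ₗ[ℂ] ℂ := fun n =>
    if hb : ∃ τ ∈ T, δ < sn τ ((a : ℕ →ᵇ A) n) then hb.choose else τ₀ with ht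
  have htT : ∀ n, t n ∈ T := fun n => by
    by_cases hb : ∃ τ ∈ T, δ < sn τ ((a : ℕ →ᵇ A) n)
    · simp only [ht, dif_pos hb]; exact hb.choose_spec.1
    · simpa only [ht, dif_neg hb] using hτ₀
  refine absurd (h t htT) (not_lt.2 ?_)
  rw [← map_star, ← map_mul]
  refine ge_of_tendsto (tendsto_qTr ω t (fun n => hT _ (htT n)) (star a * a)) ?_
  filter_upwards [hcon] with n hn
  have hb : ∃ τ ∈ T, δ < sn τ ((a : ℕ →ᵇ A) n) := by
    simpa only [Small, not_forall, not_le, exists_prop] using hn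
  have h2 : δ < sn (t n) ((a : ℕ →ᵇ A) n) := by
    simp only [ht, dif_pos hb]; exact hb.choose_spec.2
  have h3 : δ ^ 2 ≤ sn (t n) ((a : ℕ →ᵇ A) n) ^ 2 := pow_le_pow_left₀ hδ h2.le 2
  rw [(hT _ (htT n)).sq_sn] at h3
  simpa using h3

/-- The relations of a family in the central sequence algebra give an almost anticommuting pair. -/
theorem exists_pair {A : Type u} [CStarAlgebra A] (ω : Ultrafilter ℕ) {M : ℕ}
    {G : Fin (M * 2) → Fin (M * 2) → CQ ω A} {v : CQ ω A}
    (hG : IsOrderZero G) (hs : ∀ i j, star (G i j) = G j i)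
    (hr : ∀ i, ∃ r, star r * r = G i i) (hv : star v * v = 1 - supp G) :
    ∃ x y : CQ ω A, IsSelfAdjoint x ∧ IsSelfAdjoint y ∧ ‖x‖ ≤ 1 ∧ ‖y‖ ≤ 1 ∧
      x * y + y * x = 0 ∧ x * x = supp G * supp G ∧ y * y = supp G * supp G := by
  let := CStarAlgebra.spectralOrder (CQ ω A)
  have := CStarAlgebra.spectralOrderedRing (CQ ω A)
  set e : Fin (M * 2) ≃ Fin M × Fin 2 := finProdFinEquiv.symm with he
  set σ : Fin (M * 2) → Fin (M * 2) := fun i => e.symm ((e i).1, (e i).2.rev) with hσ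
  set sg : Fin (M * 2) → ℂ := fun i => if (e i).2 = 0 then 1 else -1 with hsg
  have hsgs : ∀ i, star (sg i) = sg i := fun i => by simp only [hsg]; split <;> simp
  have hσσ : ∀ i, σ (σ i) = i := fun i => by simp [hσ]
  have hsgσ : ∀ i, sg (σ i) = -sg i := fun i => by
    simp only [hsg, hσ, Equiv.apply_symm_apply]
    rcases (e i).2.eq_zero_or_eq_succ with h | ⟨k, h⟩
    · simp [h]
    · obtain rfl : k = 0 := Subsingleton.elim _ _
      simp [h]
  have hsq : ∀ i, sg i * sg i = 1 := fun i => by simp only [hsg]; split <;> norm_num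
  set H := supp G with hH
  set x := ∑ i, sg i • G i i with hx
  set y := ∑ i, G i (σ i) with hy
  have hxs : IsSelfAdjoint x := isSelfAdjoint_sum _ fun i _ => by
    rw [isSelfAdjoint_iff, star_smul, hsgs, hs]
  have hys : IsSelfAdjoint y := by
    rw [isSelfAdjoint_iff, hy, star_sum]
    simp only [hs]
    refine Fintype.sum_equiv ⟨σ, σ, hσσ, hσσ⟩ _ _ fun i => ?_
    show G (σ i) i = G (σ i) (σ (σ i))
    rw [hσσ]
  have hxx : x * x = H * H := by
    rw [hx, Finset.sum_mul_sum]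
    simp [hG.mul_eq, smul_smul, hsq, hH, supp, Finset.mul_sum]
  have hyy : y * y = H * H := by
    rw [hy, Finset.sum_mul_sum]
    simp only [hG.mul_eq, Finset.sum_ite_eq, Finset.mem_univ, if_true, hσσ]
    rw [← Finset.mul_sum, hH, supp]
  have hxy : x * y + y * x = 0 := by
    rw [hx, hy, Finset.sum_mul_sum, Finset.sum_mul_sum, ← Finset.sum_add_distrib]
    simp [hG.mul_eq, hsgσ]
  have hH0 : 0 ≤ H := Finset.sum_nonneg fun i _ => by
    obtain ⟨r, hr⟩ := hr i
    rw [← hr]; exact star_mul_self_nonneg r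
  have hH1 : H ≤ 1 := sub_nonneg.1 (by rw [← hv]; exact star_mul_self_nonneg v)
  have hHn : ‖H‖ ≤ 1 := (CStarAlgebra.norm_le_one_iff_of_nonneg H hH0).2 hH1
  have hn : ∀ w : CQ ω A, IsSelfAdjoint w → w * w = H * H → ‖w‖ ≤ 1 := fun w hw e => by
    have h1 : ‖w‖ * ‖w‖ ≤ 1 := by
      rw [← CStarRing.norm_star_mul_self, hw.star_eq, e]
      exact (norm_mul_le H H).trans (mul_le_one₀ hHn (norm_nonneg _) hHn)
    nlinarith [norm_nonneg w]
  exact ⟨x, y, hxs, hys, hn x hxs hxx, hn y hys hyy, hxy, hxx, hyy⟩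

/-- Without characters on the central sequence algebra every set of tracial states has the
uniform McDuff property. -/
theorem uniformMcDuff_of_isEmpty_char {A : Type u} [CStarAlgebra A]
    [TopologicalSpace.SeparableSpace A] (ω : Ultrafilter ℕ) (hω : (ω : Filter ℕ) ≤ cofinite)
    (h : IsEmpty (P101.CentralChar ω A)) (T : Set (A →ₗ[ℂ] ℂ)) (hT : ∀ τ ∈ T, IsTr τ) :
    UniformMcDuff T := by
  intro S δ hδ
  obtain ⟨G₀, hG₀⟩ := P101.exists_finite_witness (show Full {x : CQ ω A | ∃ a b, a * b - b * a = x} by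
    by_contra hn
    exact (P101.isEmpty_char h).false (P101.exists_char_of_not_full hn).some)
  obtain ⟨S₁, hS₁, hGS, ⟨c₁⟩⟩ := P101.exists_copies hω G₀
  obtain ⟨n1, k1⟩ := P101.stage1_ok S₁ (hG₀ S₁ hGS)
  obtain ⟨B1, _, ⟨d1⟩, ⟨e1⟩⟩ := P101.regroup_ok S₁ (CQ ω A) n1 c₁
  obtain ⟨n2, k2⟩ := P101.stage2_ok B1 (k1 B1 d1)
  obtain ⟨B2, _, ⟨d2⟩, ⟨e2⟩⟩ := P101.regroup_ok B1 (CQ ω A) n2 e1
  obtain ⟨n3, k3⟩ := P101.stage3_ok B2 (k2 B2 d2)
  obtain ⟨B3, _, ⟨d3⟩, ⟨e3⟩⟩ := P101.regroup_ok B2 (CQ ω A) n3 e2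
  obtain ⟨x₀, hx₀, hx₀f⟩ := k3 B3 d3
  obtain ⟨k, hk⟩ := pow_unbounded_of_one_lt (2 / δ ^ 2) (one_lt_two (α := ℝ))
  obtain ⟨B4, _, ⟨d4⟩, ⟨e4⟩⟩ := P101.regroup_ok B3 (CQ ω A) (k + 1) e3
  obtain ⟨M, E, z₀, hM, hE, hEs, hEf, -⟩ := exists_family d4 hx₀ hx₀f (k + 1) le_rfl
  rw [pow_succ] at hM
  subst hM
  obtain ⟨m, hm⟩ := P101.Stage4.stage4N.{u, u} hE hEs hEf P101.colour_ok
  obtain ⟨G, v, hG, hs, hr, hv, hfix⟩ := hm (CQ ω A)
    ⟨fun i => e4.hom i.1, fun i j hij => e4.comm _ _ fun e => hij (Fin.ext e)⟩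
  obtain ⟨x, y, hxs, hys, hxn, hyn, hxy, hxx, hyy⟩ := exists_pair ω hG hs hr hv
  obtain ⟨a, ha, ha'⟩ := exists_rep_sa ω hxs hxn
  obtain ⟨b, hb, hb'⟩ := exists_rep_sa ω hys hyn
  let := CStarAlgebra.spectralOrder (CQ ω A)
  have := CStarAlgebra.spectralOrderedRing (CQ ω A)
  have hsmall : ∀ (w : CQ ω A), IsSelfAdjoint w → w * w = supp G * supp G →
      ∀ t : ℕ → A →ₗ[ℂ] ℂ, (∀ n, t n ∈ T) →
        qTr ω t (star (w * w - 1) * (w * w - 1)) < δ ^ 2 := by
    intro w hw hww t ht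
    have ht' : ∀ n, IsTr (t n) := fun n => hT _ (ht n)
    have h2 := pair_of_relations (qTr ω t) (fun f => qTr_sum ω t ht' f) (qTr_sub ω t ht')
      (qTr_one ω t ht') (qTr_comm ω t ht') (qTr_nonneg ω t ht') hG hs hr hv hfix
    have e : star (w * w - 1) * (w * w - 1) =
        (1 - supp G * supp G) * (1 - supp G * supp G) := by
      rw [star_sub, star_mul, hw.star_eq, star_one, hww]; noncomm_ring
    rw [e]
    push_cast at h2
    have hd : 0 < δ ^ 2 := pow_pos hδ 2
    rw [div_lt_iff₀ hd] at hk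
    have hp : (0 : ℝ) < 2 ^ k := by positivity
    by_contra hge
    nlinarith [not_lt.1 hge]
  have hA : ∀ᶠ n in (ω : Filter ℕ), Small T ((a * a - 1 : ↥(centralAlg ω A)).1 n) δ :=
    eventually_small ω hT _ hδ.le fun t ht => by
      simpa [ha] using hsmall x hxs hxx t ht
  have hB' : ∀ᶠ n in (ω : Filter ℕ), Small T ((b * b - 1 : ↥(centralAlg ω A)).1 n) δ :=
    eventually_small ω hT _ hδ.le fun t ht => by
      simpa [hb] using hsmall y hys hyy t ht
  have hAB : ∀ᶠ n in (ω : Filter ℕ), Small T ((a * b + b * a : ↥(centralAlg ω A)).1 n) δ :=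
    eventually_small ω hT _ hδ.le fun t ht => by
      have hz : proj ω (a * b + b * a) = 0 := by simp [ha, hb, hxy]
      rw [hz, star_zero, zero_mul]
      have := qTr_sub ω t (fun n => hT _ (ht n)) 0 0
      rw [sub_zero, sub_self] at this
      rw [this]
      exact pow_pos hδ 2
  have hcomm : ∀ w : ↥(centralAlg ω A), ∀ᶠ n in (ω : Filter ℕ),
      ∀ s ∈ S, Small T (br ((w : ℕ →ᵇ A) n) s) δ := fun w => by
    refine S.eventually_all.2 fun s _ => ?_
    filter_upwards [((w.2) s).eventually_le_const hδ] with n hn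
    exact fun τ hτ => ((hT τ hτ).sn_le_norm _).trans hn
  obtain ⟨n, h1, h2, h3, h4, h5⟩ :=
    (hA.and (hB'.and (hAB.and ((hcomm a).and (hcomm b))))).exists
  exact ⟨(a : ℕ →ᵇ A) n, (b : ℕ →ᵇ A) n, (ha' n).1, (hb' n).1, (ha' n).2, (hb' n).2, h1, h2, h3,
    fun s hs => ⟨h4 s hs, h5 s hs⟩⟩

end Vale.Agent.P095.Link
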