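import Mathlib

/-!
Shared definitions and module interfaces for P095 (equivariant uniform McDuff property of
amenable actions).
-/

noncomputable section

open Filter Topology

namespace Vale.Agent.P095

universe u v

section Traces

variable {A : Type u} [CStarAlgebra A]

/-- A tracial state. -/
structure IsTr (τ : A →ₗ[ℂ] ℂ) : Prop where
  map_one : τ 1 = 1
  comm : ∀ x y, τ (x * y) = τ (y * x)
  pos : ∀ x, ∃ r : ℝ, 0 ≤ r ∧ τ (star x * x) = (r : ℂ)

/-- The trace two-norm. -/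
def sn (τ : A →ₗ[ℂ] ℂ) (x : A) : ℝ := Real.sqrt (τ (star x * x)).re

/-- All trace two-norms are at most ε. -/
def Small (T : Set (A →ₗ[ℂ] ℂ)) (x : A) (ε : ℝ) : Prop := ∀ τ ∈ T, sn τ x ≤ ε

/-- The two-norms tend to zero uniformly on T. -/
def TendsSmall (T : Set (A →ₗ[ℂ] ℂ)) (w : ℕ → A) : Prop :=
  ∀ η : ℝ, 0 < η → ∀ᶠ i in atTop, Small T (w i) η

/-- The commutator. -/
def br (x y : A) : A := x * y - y * x

end Traces

/-- The Folner condition. -/
def Folner (G : Type v) [Group G] : Prop :=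
  ∀ E : Finset G, ∀ ε : ℝ, 0 < ε → ∃ P : Finset G, P.Nonempty ∧
    ∀ h ∈ E, (Set.ncard (((h * ·) '' (P : Set G)) \ (P : Set G)) : ℝ) ≤ ε * P.card

/-- Approximate pairs: an almost invariant almost symmetry U commuting with S and fair over the
finite set S', and a unitary b such that the conjugate of U by b is almost orthogonal to U over
S'. -/
structure ApproxPair {G : Type v} {A : Type u} [CStarAlgebra A] (T : Set (A →ₗ[ℂ] ℂ))
    (act : G → A ≃⋆ₐ[ℂ] A) (S : Set A) (S' : Finset A) (E : Finset G) (ε : ℝ) (U b : A) : Prop where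
  sa : IsSelfAdjoint U
  norm_le : ‖U‖ ≤ 1
  unit_left : star b * b = 1
  unit_right : b * star b = 1
  comm_U : ∀ s ∈ S, Commute U s
  comm_b : ∀ s ∈ S, Commute b s
  sq : Small T (U * U - 1) ε
  inv : ∀ h ∈ E, Small T (act h U - U) ε
  fair : ∀ τ ∈ T, ∀ s ∈ S', ‖τ (s * U)‖ ≤ ε
  orth : ∀ τ ∈ T, ∀ s ∈ S', ‖τ (s * (U * b * U * star b))‖ ≤ ε

/-- Exact pairs. -/
structure ExactPair {G : Type v} {A : Type u} [CStarAlgebra A] (T : Set (A →ₗ[ℂ] ℂ))
    (act : G → A ≃⋆ₐ[ℂ] A) (S : Set A) (U b : A) : Prop where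
  sa : IsSelfAdjoint U
  sq : U * U = 1
  unit_left : star b * b = 1
  unit_right : b * star b = 1
  comm_U : ∀ s ∈ S, Commute U s
  comm_b : ∀ s ∈ S, Commute b s
  inv : ∀ h, act h U = U
  fair : ∀ τ ∈ T, ∀ s ∈ S, τ (s * U) = 0
  orth : ∀ τ ∈ T, ∀ s ∈ S, τ (s * (U * b * U * star b)) = 0

/-- The working setting: an action on a C*-algebra with an invariant separating set of tracial
states, fresh pairs of anticommuting symmetries and saturation for pairs. -/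
structure Cfg (G : Type v) [Group G] (A : Type u) [CStarAlgebra A] where
  T : Set (A →ₗ[ℂ] ℂ)
  tr : ∀ τ ∈ T, IsTr τ
  act : G → A ≃⋆ₐ[ℂ] A
  act_mul : ∀ g h x, act (g * h) x = act g (act h x)
  act_one : ∀ x, act 1 x = x
  inv : ∀ τ ∈ T, ∀ g, ∃ σ ∈ T, ∀ x, σ x = τ (act g x)
  faithful : ∀ x, Small T x 0 → x = 0
  units : ∀ S : Set A, S.Countable → ∃ x z : A, IsSelfAdjoint x ∧ IsSelfAdjoint z ∧ x * x = 1 ∧
    z * z = 1 ∧ x * z = -(z * x) ∧ ∀ s ∈ S, Commute x s ∧ Commute z s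
  saturate : ∀ S : Set A, S.Countable →
    (∀ S' : Finset A, (S' : Set A) ⊆ S → ∀ E : Finset G, ∀ ε : ℝ, 0 < ε →
      ∃ U b, ApproxPair T act S S' E ε U b) →
      ∃ U b, ExactPair T act S U b

/-- An invariant symmetry with an odd self-adjoint element, fair over S. -/
structure OddPair {G : Type v} [Group G] {A : Type u} [CStarAlgebra A] (c : Cfg G A) (S : Set A)
    (U o : A) : Prop where
  saU : IsSelfAdjoint U
  sao : IsSelfAdjoint o
  sq : U * U = 1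
  norm_le : ‖o‖ ≤ 2
  odd : U * o = -(o * U)
  inv : ∀ h, c.act h U = U
  comm_U : ∀ s ∈ S, Commute U s
  comm_o : ∀ s ∈ S, Commute o s
  fairU : ∀ τ ∈ c.T, ∀ y ∈ S, τ (y * U) = 0
  fairo : ∀ τ ∈ c.T, ∀ y ∈ S, τ (y * (o * o)) = τ y / 2

/-! ## Polynomials in matrix entries -/

/-- Polynomials in noncommuting entries indexed by pairs. -/
abbrev Poly (ι : Type v) : Type v := FreeAlgebra ℝ (ι × ι)

variable {ι : Type v}

/-- Evaluation of a polynomial at a real matrix. -/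
def evR (K : ι → ι → ℝ) : Poly ι →ₐ[ℝ] ℝ := FreeAlgebra.lift ℝ fun ab => K ab.1 ab.2

/-- Evaluation of a polynomial at a matrix with entries in an algebra. -/
def evA {A : Type u} [CStarAlgebra A] (K : ι → ι → A) : Poly ι →ₐ[ℝ] A :=
  FreeAlgebra.lift ℝ fun ab => K ab.1 ab.2

/-- The domain: nonnegative positive semidefinite symmetric matrices with unit diagonal. -/
def Dom (ι : Type v) [Fintype ι] : Set (ι → ι → ℝ) :=
  {K | (∀ a b, K a b = K b a) ∧ (∀ a b, 0 ≤ K a b) ∧ (∀ a, K a a = 1) ∧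
    ∀ t : ι → ℝ, 0 ≤ ∑ a, ∑ b, t a * t b * K a b}

/-- The quadratic form. -/
def quad [Fintype ι] (K : ι → ι → ℝ) (t : ι → ℝ) : ℝ := ∑ a, ∑ b, t a * t b * K a b

/-- The pushforward of a weight vector along a map. -/
def push [DecidableEq ι] {P : Type v} [Fintype P] (j : P → ι) (t : P → ℝ) (k : ι) : ℝ :=
  ∑ a, if j a = k then t a else 0

/-! ## Module interfaces -/

/-- Module Weights: polynomial approximate weights, with almost invariance. -/
def WeightsStatement : Prop :=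
  ∀ (P : Type v) [Fintype P] [DecidableEq P] [Nonempty P] (ε : ℝ), 0 < ε →
    ∃ p : P → Poly P,
      (∀ K ∈ Dom P, |quad K (fun a => evR K (p a)) - 1| ≤ ε) ∧
      ∀ (ι : Type v) [Fintype ι] [DecidableEq ι] (j₁ j₂ : P → ι),
        Function.Injective j₁ → Function.Injective j₂ → ∀ K ∈ Dom ι,
          quad K (fun k => push j₁ (fun a => evR (fun s t => K (j₁ s) (j₁ t)) (p a)) k
              - push j₂ (fun a => evR (fun s t => K (j₂ s) (j₂ t)) (p a)) k)
            ≤ (Set.ncard (symmDiff (Set.range j₁) (Set.range j₂)) : ℝ) / Fintype.card P + ε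

/-- Module Gelfand: a commuting matrix over a C*-algebra satisfies what the points of the domain
satisfy. -/
def GelfandStatement : Prop :=
  ∀ (A : Type u) [CStarAlgebra A] (ι : Type v) [Fintype ι] (K : ι → ι → A),
    (∀ a b a' b', Commute (K a b) (K a' b')) → (∀ a b, IsSelfAdjoint (K a b)) →
    (∀ a b, K a b = K b a) → (∀ a, K a a = 1) →
    (∀ a b, ∃ B, star B * B = K a b) →
    (∀ t : ι → ℝ, ∃ B, star B * B = ∑ a, ∑ b, (t a * t b) • K a b) →
    ∀ (p : Poly ι) (ε : ℝ), 0 ≤ ε → (∀ x ∈ Dom ι, |evR x p| ≤ ε) → ‖evA K p‖ ≤ ε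

/-- Module Asymp: the asymptotic version of `GelfandStatement`. -/
def AsympStatement : Prop :=
  ∀ (A : Type u) [CStarAlgebra A] (T : Set (A →ₗ[ℂ] ℂ)), (∀ τ ∈ T, IsTr τ) →
    ∀ (ι : Type v) [Fintype ι] (K : ℕ → ι → ι → A) (C : ℝ),
    (∀ i a b, ‖K i a b‖ ≤ C) → (∀ i a b, star (K i a b) = K i b a) →
    (∀ a b a' b', TendsSmall T fun i => br (K i a b) (K i a' b')) →
    (∀ a b, TendsSmall T fun i => K i a b - K i b a) →
    (∀ a, TendsSmall T fun i => K i a a - 1) →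
    (∀ a b, ∃ B : ℕ → A, (∀ i, ‖B i‖ ≤ C) ∧ TendsSmall T fun i => K i a b - star (B i) * B i) →
    (∀ i (t : ι → ℝ), ∃ B, star B * B = ∑ a, ∑ b, (t a * t b) • K i a b) →
    ∀ (p : Poly ι) (ε : ℝ), 0 ≤ ε → (∀ x ∈ Dom ι, |evR x p| ≤ ε) →
      ∀ η : ℝ, 0 < η → ∀ᶠ i in atTop, Small T (evA (K i) p) (ε + η)

/-- Blocks of almost Gaussian summands: elements v of norm at most C, with flips z anticommuting
with single summands and separating different summands of one block. -/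
structure Blocks (A : Type u) [CStarAlgebra A] (ι : Type v) (E κ : Type v) (R : ℕ) (C : ℝ) where
  v : Fin R → E → ι → A
  z : Fin R → κ → A
  sa : ∀ r e a, IsSelfAdjoint (v r e a)
  norm_v : ∀ r e a, ‖v r e a‖ ≤ C
  z_sa : ∀ r j, IsSelfAdjoint (z r j)
  z_sq : ∀ r j, z r j * z r j = 1
  comm_vv : ∀ r s, r ≠ s → ∀ e a f b, Commute (v r e a) (v s f b)
  comm_zv : ∀ r s, r ≠ s → ∀ j f b, Commute (z r j) (v s f b)
  single : ∀ r e a, ∃ j, z r j * v r e a = -(v r e a * z r j)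
  pair : ∀ r e f a b, e ≠ f → v r e a * v r f b = 0 ∨
    ∃ j, z r j * v r e a = -(v r e a * z r j) ∧ Commute (z r j) (v r f b)

namespace Blocks

variable {A : Type u} [CStarAlgebra A] {E κ : Type v} [Fintype E] {R : ℕ} {C : ℝ}
  (B : Blocks A ι E κ R C)

/-- The normalised sum over one block. -/
def q (r : Fin R) (a : ι) : A := (Real.sqrt (Fintype.card E))⁻¹ • ∑ e, B.v r e a

/-- The normalised sum over all blocks. -/
def X (a : ι) : A := (Real.sqrt R)⁻¹ • ∑ r, B.q r a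

/-- The covariance of one block. -/
def K (r : Fin R) (a b : ι) : A := (Fintype.card E : ℝ)⁻¹ • ∑ e, B.v r e a * B.v r e b

/-- The averaged covariance. -/
def Kbar (a b : ι) : A := (R : ℝ)⁻¹ • ∑ r, B.K r a b

/-- Coefficients that almost commute with every single block. -/
structure Soft (w : ι → A) (D : ℝ) : Prop where
  sa : ∀ a, IsSelfAdjoint (w a)
  norm_w : ∀ a, ‖w a‖ ≤ D
  comm_z : ∀ a r j, ‖br (B.z r j) (w a)‖ ≤ D / R
  comm_v : ∀ a r e b, ‖br (B.v r e b) (w a)‖ ≤ D / R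
  comm_w : ∀ a b, ‖br (w a) (w b)‖ ≤ D / R

end Blocks

/-- The symmetrised linear combination. -/
def lin {A : Type u} [CStarAlgebra A] [Fintype ι] (w X : ι → A) : A :=
  (2 : ℝ)⁻¹ • ∑ a, (w a * X a + X a * w a)

/-- Module Gauss: the second moment and the characteristic function of the linear combinations.
The constant L depends only on C, D and the numbers of indices and summands. -/
def GaussStatement : Prop :=
  ∀ (C D : ℝ) (m n : ℕ), 0 < n → ∃ L : ℝ, 0 ≤ L ∧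
    ∀ (A : Type u) [CStarAlgebra A] (τ : A →ₗ[ℂ] ℂ), IsTr τ →
    ∀ (ι E κ : Type v) [Fintype ι] [Fintype E], Fintype.card ι = m → Fintype.card E = n →
    ∀ (R : ℕ), 0 < R → ∀ (B : Blocks A ι E κ R C) (w : ι → A), B.Soft w D →
      |sn τ (lin w B.X) ^ 2 - (τ (∑ a, ∑ b, w a * w b * B.Kbar a b)).re| ≤ L / Real.sqrt R ∧
      ∀ (y : A) (δ : ℝ), ‖y‖ ≤ D → 0 ≤ δ → (∀ r j, sn τ (br (B.z r j) y) ≤ δ) →
        ∀ θ : ℝ, ‖τ (y * NormedSpace.exp ((Complex.I * θ) • lin w B.X))‖ ≤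
          Real.exp (-(θ ^ 2) / 2) * ‖τ y‖ + |θ| * ((1 + |θ|) * ‖y‖ *
            sn τ ((∑ a, ∑ b, w a * w b * B.Kbar a b) - 1) +
            L * (1 + θ ^ 2) * (1 / Real.sqrt R + Real.sqrt R * δ))

/-- Module Sweep: conjugation by one unitary that realises averaging by finitely many flips. -/
def SweepStatement : Prop :=
  ∀ (G : Type v) [Group G] [Countable G] (A : Type u) [CStarAlgebra A] (c : Cfg G A) (S : Set A),
    S.Countable → ∀ (zs : Finset A),
    (∀ z ∈ zs, IsSelfAdjoint z ∧ z * z = 1 ∧ ∀ s ∈ S, Commute z s) →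
    ∀ (U : A), IsSelfAdjoint U → ‖U‖ ≤ 1 → (∀ s ∈ S, Commute U s) → ∀ ε : ℝ, 0 < ε →
    ∃ b Q : A, star b * b = 1 ∧ b * star b = 1 ∧ ‖Q‖ ≤ 1 ∧ (∀ s ∈ S, Commute b s) ∧
      (∀ s ∈ S, Commute Q s) ∧
      ∀ τ ∈ c.T, (∀ z ∈ zs, sn τ (br z Q) ≤ ε) ∧
        ∀ y ∈ S, τ (y * (U * b * U * star b)) = τ (y * (U * Q))

/-- Module Stage1: fair invariant symmetries with odd elements. -/
def Stage1Statement : Prop :=
  ∀ (G : Type v) [Group G] [Countable G] (A : Type u) [CStarAlgebra A] (c : Cfg G A),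
    Folner G → ∀ S : Set A, S.Countable → ∃ U o, OddPair c S U o

/-- Module Stage2: almost invariant anticommuting symmetries. -/
def Stage2Statement : Prop :=
  ∀ (G : Type v) [Group G] [Countable G] (A : Type u) [CStarAlgebra A] (c : Cfg G A),
    Folner G → (∀ S : Set A, S.Countable → ∃ U o, OddPair c S U o) →
    ∀ S : Set A, S.Countable → ∀ (E : Finset G) (ε : ℝ), 0 < ε →
    ∃ x z : A, IsSelfAdjoint x ∧ IsSelfAdjoint z ∧ ‖x‖ ≤ 1 ∧ ‖z‖ ≤ 1 ∧
      (∀ s ∈ S, Commute x s ∧ Commute z s) ∧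
      Small c.T (x * x - 1) ε ∧ Small c.T (z * z - 1) ε ∧ Small c.T (x * z + z * x) ε ∧
      ∀ h ∈ E, Small c.T (c.act h x - x) ε ∧ Small c.T (c.act h z - z) ε

/-- The uniform McDuff property of a set of traces, unfolded. -/
def UniformMcDuff {A : Type u} [CStarAlgebra A] (T : Set (A →ₗ[ℂ] ℂ)) : Prop :=
  ∀ (S : Finset A) (δ : ℝ), 0 < δ → ∃ x z : A, IsSelfAdjoint x ∧ IsSelfAdjoint z ∧
    ‖x‖ ≤ 1 ∧ ‖z‖ ≤ 1 ∧ Small T (x * x - 1) δ ∧ Small T (z * z - 1) δ ∧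
    Small T (x * z + z * x) δ ∧ ∀ s ∈ S, Small T (br x s) δ ∧ Small T (br z s) δ

/-- The equivariant uniform McDuff property. -/
def EquivariantMcDuff {G : Type v} {A : Type u} [CStarAlgebra A] (T : Set (A →ₗ[ℂ] ℂ))
    (α : G → A ≃⋆ₐ[ℂ] A) : Prop :=
  ∀ (S : Finset A) (E : Finset G) (δ : ℝ), 0 < δ → ∃ x z : A, IsSelfAdjoint x ∧
    IsSelfAdjoint z ∧ ‖x‖ ≤ 1 ∧ ‖z‖ ≤ 1 ∧ Small T (x * x - 1) δ ∧ Small T (z * z - 1) δ ∧
    Small T (x * z + z * x) δ ∧ (∀ s ∈ S, Small T (br x s) δ ∧ Small T (br z s) δ) ∧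
    ∀ h ∈ E, Small T (α h x - x) δ ∧ Small T (α h z - z) δ

/-- Module Reduce: the sequence algebra gives a working setting, and approximations there give
approximations in the algebra. -/
def ReduceStatement : Prop :=
  ∀ (G : Type v) [Group G] [Countable G] (A : Type u) [CStarAlgebra A]
    (T : Set (A →ₗ[ℂ] ℂ)), (∀ τ ∈ T, IsTr τ) →
    ∀ (α : G → A ≃⋆ₐ[ℂ] A), (∀ g h x, α (g * h) x = α g (α h x)) → (∀ x, α 1 x = x) →
    (∀ τ ∈ T, ∀ g, ∃ σ ∈ T, ∀ x, σ x = τ (α g x)) → UniformMcDuff T →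
    (∀ (B : Type u) [CStarAlgebra B] (c : Cfg G B), ∀ S : Set B, S.Countable →
      ∀ (E : Finset G) (ε : ℝ), 0 < ε →
      ∃ x z : B, IsSelfAdjoint x ∧ IsSelfAdjoint z ∧ ‖x‖ ≤ 1 ∧ ‖z‖ ≤ 1 ∧
        (∀ s ∈ S, Commute x s ∧ Commute z s) ∧
        Small c.T (x * x - 1) ε ∧ Small c.T (z * z - 1) ε ∧ Small c.T (x * z + z * x) ε ∧
        ∀ h ∈ E, Small c.T (c.act h x - x) ε ∧ Small c.T (c.act h z - z) ε) →
    EquivariantMcDuff T α

/-- The main statement. -/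
def Final : Prop :=
  ∀ (G : Type v) [Group G] [Countable G], Folner G → ∀ (A : Type u) [CStarAlgebra A]
    (T : Set (A →ₗ[ℂ] ℂ)), (∀ τ ∈ T, IsTr τ) →
    ∀ (α : G → A ≃⋆ₐ[ℂ] A), (∀ g h x, α (g * h) x = α g (α h x)) → (∀ x, α 1 x = x) →
    (∀ τ ∈ T, ∀ g, ∃ σ ∈ T, ∀ x, σ x = τ (α g x)) → UniformMcDuff T →
    EquivariantMcDuff T α

/-- Assembly from the module statements. -/
theorem final_of (h1 : Stage1Statement.{u, v}) (h2 : Stage2Statement.{u, v})
    (hr : ReduceStatement.{u, v}) : Final.{u, v} := by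
  intro G _ _ hG A _ T hT α hm h1' hi hM
  exact hr G A T hT α hm h1' hi hM fun B _ c S hS E ε hε =>
    h2 G B c hG (h1 G B c hG) S hS E ε hε

end Vale.Agent.P095
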