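import Mathlib
import Vale.Agent.P095.Defs

/-!
Basic facts on tracial states and their two-norms.
-/

noncomputable section

open Filter Topology
open scoped CStarAlgebra

namespace Vale.Agent.P095

universe u

variable {A : Type u} [CStarAlgebra A] {τ : A →ₗ[ℂ] ℂ} (hτ : IsTr τ)

attribute [local instance] CStarAlgebra.spectralOrder CStarAlgebra.spectralOrderedRing

include hτ

lemma IsTr.re_nonneg (x : A) : 0 ≤ (τ (star x * x)).re := by
  obtain ⟨r, hr, h⟩ := hτ.pos x
  simp [h, hr]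

lemma IsTr.nonneg_of_nonneg {a : A} (ha : 0 ≤ a) : ∃ r : ℝ, 0 ≤ r ∧ τ a = (r : ℂ) := by
  obtain ⟨x, rfl⟩ := CStarAlgebra.nonneg_iff_eq_star_mul_self.1 ha
  exact hτ.pos x

lemma IsTr.re_mono {a b : A} (h : a ≤ b) : (τ a).re ≤ (τ b).re := by
  obtain ⟨r, hr, e⟩ := hτ.nonneg_of_nonneg (sub_nonneg.2 h)
  have := congrArg Complex.re e
  simp at this
  linarith

lemma IsTr.map_star_mul_self (x : A) : τ (star x * x) = ((sn τ x ^ 2 : ℝ) : ℂ) := by
  obtain ⟨r, hr, h⟩ := hτ.pos x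
  simp [sn, h, Real.sq_sqrt hr]

lemma IsTr.sq_sn (x : A) : sn τ x ^ 2 = (τ (star x * x)).re :=
  Real.sq_sqrt (hτ.re_nonneg x)

omit hτ in
lemma sn_nonneg (x : A) : 0 ≤ sn τ x := Real.sqrt_nonneg _

lemma IsTr.sn_star (x : A) : sn τ (star x) = sn τ x := by
  simp [sn, hτ.comm x (star x)]

lemma IsTr.map_star (x : A) : τ (star x) = starRingEnd ℂ (τ x) := by
  have h1 : ∀ y : A, (τ (star y * y)).im = 0 := fun y => by
    obtain ⟨r, -, h⟩ := hτ.pos y
    simp [h]
  have h2 := h1 (x + 1)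
  have h3 := h1 (Complex.I • x + 1)
  simp [add_mul, mul_add, hτ.map_one, h1 x, star_smul] at h2 h3
  apply Complex.ext <;> simp <;> linarith

/-- The Cauchy-Schwarz inequality. -/
lemma IsTr.norm_map_mul_le (x y : A) : ‖τ (x * y)‖ ≤ sn τ x * sn τ y := by
  obtain ⟨c, hc, hcz⟩ : ∃ c : ℂ, ‖c‖ = 1 ∧ c * τ (x * y) = ‖τ (x * y)‖ := by
    rcases eq_or_ne (τ (x * y)) 0 with h | h
    · exact ⟨1, by simp, by simp [h]⟩
    · refine ⟨(‖τ (x * y)‖ : ℂ) / τ (x * y), ?_, ?_⟩
      · rw [norm_div, Complex.norm_real, norm_norm, div_self (norm_ne_zero_iff.2 h)]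
      · rw [div_mul_cancel₀ _ h]
  set p := sn τ x
  set q := sn τ y
  set m := ‖τ (x * y)‖
  have key : ∀ t : ℝ, 0 ≤ p ^ 2 * t ^ 2 + q ^ 2 - 2 * t * m := by
    intro t
    have h := hτ.re_nonneg ((t : ℂ) • star x - c • y)
    have hxy : τ (star y * star x) = starRingEnd ℂ (τ (x * y)) := by
      rw [← star_mul, hτ.map_star]
    have hcc : starRingEnd ℂ c * c = 1 := by
      rw [← Complex.normSq_eq_conj_mul_self, Complex.normSq_eq_norm_sq, hc]; simp
    simp only [star_sub, star_smul, star_star, sub_mul, mul_sub, smul_mul_assoc, mul_smul_comm,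
      map_sub, map_smul, smul_eq_mul, hτ.map_star_mul_self, hxy,
      hτ.comm x (star x)] at h
    have e1 : starRingEnd ℂ c * starRingEnd ℂ (τ (x * y)) = (m : ℂ) := by
      rw [← map_mul, hcz, Complex.conj_ofReal]
    have e2 : c * ((t : ℂ) * τ (x * y)) = (t : ℂ) * m := by
      rw [← hcz]; ring
    have e3 : c * (starRingEnd ℂ c * ((q ^ 2 : ℝ) : ℂ)) = ((q ^ 2 : ℝ) : ℂ) := by
      rw [← mul_assoc, mul_comm c, hcc, one_mul]
    simp only [← starRingEnd_apply, Complex.conj_ofReal] at h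
    rw [e1, e2, e3] at h
    simp only [Complex.sub_re, Complex.mul_re, Complex.ofReal_re, Complex.ofReal_im, mul_zero,
      sub_zero, zero_mul, Complex.mul_im, add_zero] at h
    linarith [show p ^ 2 * t ^ 2 = t * (t * p ^ 2) by ring]
  have hp := sn_nonneg (τ := τ) x
  have hq := sn_nonneg (τ := τ) y
  rcases hp.eq_or_lt with hp0 | hp0
  · rw [show p = 0 from hp0.symm, zero_mul]
    by_contra hm
    have hm' : 0 < m := not_le.1 hm
    have h2 := key ((q ^ 2 + 1) / (2 * m))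
    rw [show p = 0 from hp0.symm] at h2
    have : 2 * ((q ^ 2 + 1) / (2 * m)) * m = q ^ 2 + 1 := by field_simp
    nlinarith
  · have h := key (m / p ^ 2)
    have e : p ^ 2 * (m / p ^ 2) ^ 2 + q ^ 2 - 2 * (m / p ^ 2) * m = (p ^ 2 * q ^ 2 - m ^ 2) / p ^ 2 := by
      have : p ≠ 0 := ne_of_gt hp0
      field_simp; ring
    rw [e, le_div_iff₀ (show (0 : ℝ) < p ^ 2 from pow_pos hp0 2), zero_mul] at h
    nlinarith [mul_nonneg hp hq, norm_nonneg (τ (x * y))]

/-- Left multiplication. -/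
lemma IsTr.sn_mul_le_left (a x : A) : sn τ (a * x) ≤ ‖a‖ * sn τ x := by
  refine Real.sqrt_le_iff.2 ⟨mul_nonneg (norm_nonneg _) (sn_nonneg _), ?_⟩
  have h : star (a * x) * (a * x) ≤ (‖a‖ ^ 2 : ℝ) • (star x * x) := by
    have h1 : star a * a ≤ algebraMap ℝ A (‖a‖ ^ 2) := by
      rw [sq, ← CStarRing.norm_star_mul_self]
      exact IsSelfAdjoint.le_algebraMap_norm_self (a := star a * a) (.star_mul_self a)
    calc star (a * x) * (a * x) = star x * (star a * a) * x := by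
          rw [star_mul]; noncomm_ring
      _ ≤ star x * algebraMap ℝ A (‖a‖ ^ 2) * x := star_left_conjugate_le_conjugate h1 x
      _ = (‖a‖ ^ 2 : ℝ) • (star x * x) := by
          rw [Algebra.algebraMap_eq_smul_one, mul_smul_comm, smul_mul_assoc, mul_one]
  have h2 := hτ.re_mono h
  rw [mul_pow, hτ.sq_sn]
  rwa [← Complex.coe_smul, map_smul, smul_eq_mul, Complex.re_ofReal_mul] at h2

/-- Right multiplication. -/
lemma IsTr.sn_mul_le_right (x a : A) : sn τ (x * a) ≤ sn τ x * ‖a‖ := by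
  rw [← hτ.sn_star, star_mul, mul_comm]
  simpa [hτ.sn_star] using hτ.sn_mul_le_left (star a) (star x)

lemma IsTr.sn_one : sn τ (1 : A) = 1 := by
  simp [sn, hτ.map_one]

lemma IsTr.sn_le_norm (x : A) : sn τ x ≤ ‖x‖ := by
  simpa [hτ.sn_one] using hτ.sn_mul_le_left x 1

lemma IsTr.norm_map_le_sn (x : A) : ‖τ x‖ ≤ sn τ x := by
  simpa [hτ.sn_one] using hτ.norm_map_mul_le 1 x

lemma IsTr.norm_map_le (x : A) : ‖τ x‖ ≤ ‖x‖ := (hτ.norm_map_le_sn x).trans (hτ.sn_le_norm x)

lemma IsTr.sn_smul (z : ℂ) (x : A) : sn τ (z • x) = ‖z‖ * sn τ x := by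
  refine (Real.sqrt_eq_iff_eq_sq (hτ.re_nonneg _) (mul_nonneg (norm_nonneg _) (sn_nonneg _))).2 ?_
  rw [star_smul, smul_mul_assoc, mul_smul_comm, smul_smul, map_smul, smul_eq_mul,
    hτ.map_star_mul_self, ← starRingEnd_apply, ← Complex.normSq_eq_conj_mul_self, ← Complex.ofReal_mul,
    Complex.ofReal_re, Complex.normSq_eq_norm_sq]
  ring

lemma IsTr.sn_smul_real (t : ℝ) (x : A) : sn τ (t • x) = |t| * sn τ x := by
  rw [← Complex.coe_smul, hτ.sn_smul, Complex.norm_real, Real.norm_eq_abs]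

lemma IsTr.sn_neg (x : A) : sn τ (-x) = sn τ x := by simp [sn]

lemma IsTr.sn_sub_comm (x y : A) : sn τ (x - y) = sn τ (y - x) := by
  rw [← hτ.sn_neg, neg_sub]

lemma IsTr.sn_zero : sn τ (0 : A) = 0 := by simp [sn]

lemma IsTr.sn_add_le (x y : A) : sn τ (x + y) ≤ sn τ x + sn τ y := by
  refine Real.sqrt_le_iff.2 ⟨add_nonneg (sn_nonneg _) (sn_nonneg _), ?_⟩
  have h1 := (Complex.re_le_norm _).trans (hτ.norm_map_mul_le (star x) y)
  have h2 := (Complex.re_le_norm _).trans (hτ.norm_map_mul_le (star y) x)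
  rw [hτ.sn_star] at h1 h2
  simp only [star_add, add_mul, mul_add, map_add, Complex.add_re]
  rw [← hτ.sq_sn x, ← hτ.sq_sn y]
  nlinarith

lemma IsTr.sn_sub_le (x y : A) : sn τ (x - y) ≤ sn τ x + sn τ y := by
  rw [sub_eq_add_neg, ← hτ.sn_neg y]
  exact hτ.sn_add_le _ _

lemma IsTr.sn_sum_le {ι : Type*} (s : Finset ι) (f : ι → A) :
    sn τ (∑ i ∈ s, f i) ≤ ∑ i ∈ s, sn τ (f i) := by
  classical
  induction s using Finset.induction_on with
  | empty => simp [hτ.sn_zero]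
  | insert i s hi ih =>
    rw [Finset.sum_insert hi, Finset.sum_insert hi]
    exact (hτ.sn_add_le _ _).trans (add_le_add le_rfl ih)

/-- The basic flip: an element anticommuting with a symmetry has small pairing with elements
almost commuting with it. -/
lemma IsTr.flip_le {z v : A} (hz : z * z = 1) (hza : IsSelfAdjoint z) (hv : z * v = -(v * z))
    (X : A) : ‖τ (v * X)‖ ≤ sn τ v * sn τ (br z X) := by
  have h1 : τ (v * (z * X * z)) = -τ (v * X) := by
    rw [show v * (z * X * z) = v * z * X * z by noncomm_ring, hτ.comm]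
    rw [show z * (v * z * X) = (z * v) * (z * X) by noncomm_ring, hv, neg_mul, map_neg]
    rw [show v * z * (z * X) = v * (z * z) * X by noncomm_ring, hz, mul_one]
  have h2 : z * X * z - X = br z X * z := by
    rw [br, sub_mul, mul_assoc X z z, hz, mul_one]
  have h3 : sn τ (z * X * z - X) ≤ sn τ (br z X) := by
    rw [h2]
    refine (hτ.sn_mul_le_right _ _).trans (mul_le_of_le_one_right (sn_nonneg _) ?_)
    refine (sq_le_one_iff₀ (norm_nonneg z)).1 ?_
    rw [sq, ← CStarRing.norm_star_mul_self, hza.star_eq, hz]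
    rcases subsingleton_or_nontrivial A with _ | _
    · rw [Subsingleton.elim (1 : A) 0, norm_zero]; exact zero_le_one
    · rw [norm_one]
  have h4 : -2 * τ (v * X) = τ (v * (z * X * z - X)) := by
    rw [mul_sub, map_sub, h1]; ring
  have h5 := hτ.norm_map_mul_le v (z * X * z - X)
  rw [← h4, norm_mul] at h5
  simp at h5
  nlinarith [norm_nonneg (τ (v * X)), mul_le_mul_of_nonneg_left h3 (sn_nonneg (τ := τ) v)]

end Vale.Agent.P095
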