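import Vale.Agent.P095.Gelfand
import Vale.Agent.P095.Basic

/-! The asymptotic version of the Gelfand module, through the GNS representation of a limit of
traces on bounded sequences. -/

noncomputable section

open Filter Topology
open scoped BoundedContinuousFunction ComplexOrder

namespace Vale.Agent.P095

universe u v

attribute [local instance] CStarAlgebra.spectralOrder CStarAlgebra.spectralOrderedRing

section Limit

variable {A : Type u} [CStarAlgebra A] (t : ℕ → A →ₗ[ℂ] ℂ) (ht : ∀ n, IsTr (t n))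

include ht in
theorem exists_limit_functional :
    ∃ Λ : (ℕ →ᵇ A) →ₚ[ℂ] ℂ, ∀ a : ℕ →ᵇ A,
      Tendsto (fun n => t n (a n)) (hyperfilter ℕ) (𝓝 (Λ a)) := by
  have hlim : ∀ a : ℕ →ᵇ A, ∃ z, Tendsto (fun n => t n (a n)) (hyperfilter ℕ) (𝓝 z) := fun a => by
    obtain ⟨z, -, hz⟩ := (isCompact_closedBall (0 : ℂ) ‖a‖).ultrafilter_le_nhds
      ((hyperfilter ℕ).map fun n => t n (a n)) (by
        rw [le_principal_iff, Ultrafilter.coe_map, mem_map]
        exact Filter.univ_mem' fun n => by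
          simpa using ((ht n).norm_map_le _).trans (a.norm_coe_le_norm n))
    exact ⟨z, hz⟩
  choose L hL using hlim
  let f : (ℕ →ᵇ A) →ₗ[ℂ] ℂ :=
    { toFun := L
      map_add' := fun a b => tendsto_nhds_unique (hL _) (((hL a).add (hL b)).congr fun n => by simp)
      map_smul' := fun z a => tendsto_nhds_unique (hL _)
        (((hL a).const_mul z).congr fun n => by simp) }
  refine ⟨PositiveLinearMap.mk₀ f fun x hx => ?_, fun a => hL a⟩
  obtain ⟨y, rfl⟩ := CStarAlgebra.nonneg_iff_eq_star_mul_self.1 hx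
  show 0 ≤ L (star y * y)
  rw [Complex.le_def]
  constructor
  · refine ge_of_tendsto' ((Complex.continuous_re.tendsto _).comp (hL _)) fun n => ?_
    simpa using (ht n).re_nonneg (y n)
  · refine (tendsto_nhds_unique ((Complex.continuous_im.tendsto _).comp (hL _)) ?_).symm
    refine tendsto_const_nhds.congr fun n => ?_
    obtain ⟨r, -, hr⟩ := (ht n).pos (y n)
    simp [hr]

end Limit

section Gns

variable {A : Type u} [CStarAlgebra A] {t : ℕ → A →ₗ[ℂ] ℂ} (ht : ∀ n, IsTr (t n))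
  {Λ : (ℕ →ᵇ A) →ₚ[ℂ] ℂ}
  (hΛ : ∀ a : ℕ →ᵇ A, Tendsto (fun n => t n (a n)) (hyperfilter ℕ) (𝓝 (Λ a)))

include ht hΛ in
theorem gns_eq_zero {a : ℕ →ᵇ A}
    (hsn : Tendsto (fun n => sn (t n) (a n)) (hyperfilter ℕ) (𝓝 0)) : Λ.gnsStarAlgHom a = 0 := by
  refine ContinuousLinearMap.ext fun y => ?_
  induction y using UniformSpace.Completion.induction_on with
  | hp => exact isClosed_eq (Λ.gnsStarAlgHom a).continuous continuous_const
  | ih y =>
    have h0 : ‖Λ.leftMulMapPreGNS a y‖ = 0 := by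
      rw [PositiveLinearMap.preGNS_norm_def]
      set y' := Λ.ofPreGNS y
      have e : Λ.ofPreGNS (Λ.leftMulMapPreGNS a y) = a * y' := rfl
      have hl : Λ (star (a * y') * (a * y')) = 0 := by
        refine tendsto_nhds_unique (hΛ _) (squeeze_zero_norm (fun n => ?_)
          (by simpa using (hsn.mul_const ‖y'‖).pow 2))
        simp only [BoundedContinuousFunction.mul_apply, BoundedContinuousFunction.star_apply]
        rw [(ht n).map_star_mul_self, Complex.norm_real, Real.norm_eq_abs,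
          abs_of_nonneg (sq_nonneg _)]
        exact pow_le_pow_left₀ (sn_nonneg _) (((ht n).sn_mul_le_right _ _).trans
          (mul_le_mul_of_nonneg_left (y'.norm_coe_le_norm n) (sn_nonneg _))) 2
      rw [e, hl, Complex.zero_re, Real.sqrt_zero]
    show Λ.gnsNonUnitalStarAlgHom a y = 0
    rw [PositiveLinearMap.gnsNonUnitalStarAlgHom_apply_coe, ← norm_eq_zero,
      UniformSpace.Completion.norm_coe]
    exact h0

include ht hΛ in
theorem le_of_norm_gns_le {P : ℕ →ᵇ A} {ε c : ℝ} (hP : ‖Λ.gnsStarAlgHom P‖ ≤ ε)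
    (hc : ∀ n, c ≤ sn (t n) (P n)) : c ≤ ε := by
  have hΛ1 : Λ (1 : ℕ →ᵇ A) = 1 := tendsto_nhds_unique (hΛ 1)
    (tendsto_const_nhds.congr fun n => by simp [(ht n).map_one])
  set o : Λ.PreGNS := Λ.toPreGNS 1 with ho
  have ho1 : ‖o‖ = 1 := by
    rw [PositiveLinearMap.preGNS_norm_def, ho, PositiveLinearMap.ofPreGNS_toPreGNS, star_one,
      one_mul, hΛ1, Complex.one_re, Real.sqrt_one]
  have hle : ‖Λ.leftMulMapPreGNS P o‖ ≤ ε := by
    have h := (Λ.gnsStarAlgHom P).le_of_opNorm_le hP (o : Λ.GNS)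
    rw [UniformSpace.Completion.norm_coe, ho1, mul_one] at h
    have e : Λ.gnsStarAlgHom P (o : Λ.GNS) =
        ((Λ.leftMulMapPreGNS P o : Λ.PreGNS) : Λ.GNS) :=
      PositiveLinearMap.gnsNonUnitalStarAlgHom_apply_coe Λ
    rwa [e, UniformSpace.Completion.norm_coe] at h
  rw [PositiveLinearMap.preGNS_norm_def,
    show Λ.ofPreGNS (Λ.leftMulMapPreGNS P o) = P from mul_one P] at hle
  refine le_trans ?_ hle
  refine ge_of_tendsto' (((Complex.continuous_re.tendsto _).comp (hΛ (star P * P))).sqrt)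
    fun n => ?_
  exact hc n

end Gns

/-- Trace two-norms tending to zero along the hyperfilter. -/
def TendsTr {A : Type u} [CStarAlgebra A] (t : ℕ → A →ₗ[ℂ] ℂ) (w : ℕ → A) : Prop :=
  Tendsto (fun n => sn (t n) (w n)) (hyperfilter ℕ) (𝓝 0)

section Rep

variable {A : Type u} [CStarAlgebra A] {ι : Type v} [Fintype ι] {K : ℕ → ι → ι → A} {C : ℝ}

/-- A bounded sequence of square roots of a quadratic form. -/
theorem exists_quad_root (hKC : ∀ n a b, ‖K n a b‖ ≤ C) (s : ι → ℝ)
    (hq : ∀ n, ∃ B, star B * B = ∑ a, ∑ b, (s a * s b) • K n a b) (Kq : ι → ι → ℕ →ᵇ A)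
    (hKq : ∀ n a b, Kq a b n = K n a b) :
    ∃ Bq : ℕ →ᵇ A, star Bq * Bq = ∑ a, ∑ b, ((s a * s b : ℝ) : ℂ) • Kq a b := by
  choose B hB using hq
  set M : ℝ := ∑ a, ∑ b, |s a * s b| * C
  have hBn : ∀ n, ‖B n‖ ≤ 1 + M := fun n => by
    have h2 : ‖B n‖ * ‖B n‖ ≤ M := by
      rw [← CStarRing.norm_star_mul_self, hB n]
      refine (norm_sum_le _ _).trans (Finset.sum_le_sum fun a _ =>
        (norm_sum_le _ _).trans (Finset.sum_le_sum fun b _ => ?_))
      rw [norm_smul, Real.norm_eq_abs]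
      exact mul_le_mul_of_nonneg_left (hKC n a b) (abs_nonneg _)
    nlinarith [norm_nonneg (B n), sq_nonneg (‖B n‖ - 1)]
  refine ⟨BoundedContinuousFunction.ofNormedAddCommGroupDiscrete B _ hBn, ?_⟩
  ext n
  simp only [BoundedContinuousFunction.coe_sum, Finset.sum_apply]
  refine (hB n).trans (Finset.sum_congr rfl fun a _ => Finset.sum_congr rfl fun b _ => ?_)
  rw [BoundedContinuousFunction.smul_apply, hKq]
  exact (Complex.coe_smul _ _).symm

/-- The representation of the sequences satisfies the exact relations. -/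
theorem norm_gns_evA_le {t : ℕ → A →ₗ[ℂ] ℂ} (ht : ∀ n, IsTr (t n))
    {Λ : (ℕ →ᵇ A) →ₚ[ℂ] ℂ}
    (hΛ : ∀ a : ℕ →ᵇ A, Tendsto (fun n => t n (a n)) (hyperfilter ℕ) (𝓝 (Λ a)))
    (hKC : ∀ n a b, ‖K n a b‖ ≤ C) (hKs : ∀ n a b, star (K n a b) = K n b a)
    (hKc : ∀ a b a' b', TendsTr t fun n => br (K n a b) (K n a' b'))
    (hKsym : ∀ a b, TendsTr t fun n => K n a b - K n b a)
    (hK1 : ∀ a, TendsTr t fun n => K n a a - 1)
    (hKpos : ∀ a b, ∃ B : ℕ → A, (∀ n, ‖B n‖ ≤ C) ∧
      TendsTr t fun n => K n a b - star (B n) * B n)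
    (hKquad : ∀ n (s : ι → ℝ), ∃ B, star B * B = ∑ a, ∑ b, (s a * s b) • K n a b)
    (Kq : ι → ι → ℕ →ᵇ A) (hKq : ∀ n a b, Kq a b n = K n a b)
    {p : Poly ι} {ε : ℝ} (hε : 0 ≤ ε) (hp : ∀ x ∈ Dom ι, |evR x p| ≤ ε) :
    ‖Λ.gnsStarAlgHom (evA Kq p)‖ ≤ ε := by
  set π := Λ.gnsStarAlgHom with hπ
  have hnull : ∀ (w : ℕ → A) (a : ℕ →ᵇ A), TendsTr t w → (∀ n, a n = w n) → π a = 0 := by
    intro w a hw ha
    exact gns_eq_zero ht hΛ (hw.congr fun n => by rw [ha])
  have hsymπ : ∀ a b, π (Kq a b) = π (Kq b a) := fun a b => by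
    rw [← sub_eq_zero, ← map_sub]
    exact hnull _ _ (hKsym a b) fun n => by simp [hKq]
  have hgel := gelfand_ok.{u, v} (Λ.GNS →L[ℂ] Λ.GNS) ι (fun a b => π (Kq a b))
    (fun a b a' b' => by
      show _ = _
      rw [← sub_eq_zero, ← map_mul, ← map_mul, ← map_sub]
      exact hnull _ _ (hKc a b a' b') fun n => by simp [hKq, br])
    (fun a b => by
      rw [isSelfAdjoint_iff]
      conv_rhs => rw [hsymπ a b]
      rw [← map_star]
      congr 1
      ext n
      simp [hKq, hKs])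
    hsymπ
    (fun a => by
      rw [← sub_eq_zero, ← map_one π, ← map_sub]
      exact hnull _ _ (hK1 a) fun n => by simp [hKq])
    (fun a b => by
      obtain ⟨B, hB, hBK⟩ := hKpos a b
      refine ⟨π (BoundedContinuousFunction.ofNormedAddCommGroupDiscrete B C hB), ?_⟩
      rw [← map_star, ← map_mul, eq_comm, ← sub_eq_zero, ← map_sub]
      exact hnull _ _ hBK fun n => by simp [hKq])
    (fun s => by
      obtain ⟨Bq, hBq⟩ := exists_quad_root hKC s (fun n => hKquad n s) Kq hKq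
      refine ⟨π Bq, ?_⟩
      rw [← map_star, ← map_mul, hBq]
      simp only [map_sum, map_smul]
      exact Finset.sum_congr rfl fun a _ => Finset.sum_congr rfl fun b _ => Complex.coe_smul _ _)
    p ε hε hp
  have hev : π (evA Kq p) = evA (fun a b => π (Kq a b)) p := map_evA π.toAlgHom Kq p
  rwa [hev]

end Rep

/-- Evaluation at an index. -/
def evalSeq {A : Type u} [CStarAlgebra A] (n : ℕ) : (ℕ →ᵇ A) →ₐ[ℂ] A where
  toFun f := f n
  map_one' := rfl
  map_mul' _ _ := rfl
  map_zero' := rfl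
  map_add' _ _ := rfl
  commutes' _ := rfl

/-- Module Asymp. -/
theorem asymp_ok : AsympStatement.{u, v} := by
  intro A _ T hT ι _ K C hKC hKs hKc hKsym hK1 hKpos hKquad p ε hε hp η hη
  by_contra hcon
  obtain ⟨φ, hφ, hφ'⟩ := extraction_of_frequently_atTop (not_eventually.1 hcon)
  simp only [Small, not_forall, not_le] at hφ'
  choose τ hτT hτ using hφ'
  have ht : ∀ n, IsTr (τ n) := fun n => hT _ (hτT n)
  obtain ⟨Λ, hΛ⟩ := exists_limit_functional τ ht
  have hat : ((hyperfilter ℕ : Ultrafilter ℕ) : Filter ℕ) ≤ atTop := by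
    rw [← Nat.cofinite_eq_atTop]; exact hyperfilter_le_cofinite
  have htr : ∀ w : ℕ → A, TendsSmall T w → TendsTr τ fun n => w (φ n) := fun w hw => by
    have h0 : Tendsto (fun n => sn (τ n) (w (φ n))) atTop (𝓝 0) := by
      rw [Metric.tendsto_nhds]
      intro e he
      filter_upwards [hφ.tendsto_atTop.eventually (hw (e / 2) (half_pos he))] with n hn
      rw [Real.dist_eq, sub_zero, abs_of_nonneg (sn_nonneg _)]
      linarith [hn _ (hτT n)]
    unfold TendsTr
    exact h0.mono_left hat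
  set Kq : ι → ι → ℕ →ᵇ A := fun a b =>
    BoundedContinuousFunction.ofNormedAddCommGroupDiscrete (fun n => K (φ n) a b) C
      fun n => hKC (φ n) a b with hKq
  have hgel : ‖Λ.gnsStarAlgHom (evA Kq p)‖ ≤ ε :=
    norm_gns_evA_le (K := fun n => K (φ n)) (C := C) ht hΛ (fun n => hKC (φ n))
      (fun n => hKs (φ n))
      (fun a b a' b' => htr (fun i => br (K i a b) (K i a' b')) (hKc a b a' b'))
      (fun a b => htr (fun i => K i a b - K i b a) (hKsym a b))
      (fun a => htr (fun i => K i a a - 1) (hK1 a))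
      (fun a b => by
        obtain ⟨B, hB, hBK⟩ := hKpos a b
        exact ⟨fun n => B (φ n), fun n => hB _, htr (fun i => K i a b - star (B i) * B i) hBK⟩)
      (fun n => hKquad (φ n)) Kq (fun n a b => rfl) hε hp
  have hle : ε + η ≤ ε := le_of_norm_gns_le ht hΛ hgel fun n => by
    rw [show (evA Kq p : ℕ →ᵇ A) n = evA (K (φ n)) p from map_evA (evalSeq n) Kq p]
    exact (hτ n).le
  linarith

end Vale.Agent.P095
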