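import Mathlib
import Vale.Agent.P095.Defs
import Vale.Agent.P095.Basic

/-!
The sequence algebra: bounded sequences modulo those tending to zero in two-norm uniformly over a
set of tracial states along an ultrafilter, as a C*-algebra, with its limit traces.
-/

noncomputable section

open Filter Topology
open scoped BoundedContinuousFunction CStarAlgebra

namespace Vale.Agent.P095

universe u

variable {A : Type u} [CStarAlgebra A]

attribute [local instance] CStarAlgebra.spectralOrder CStarAlgebra.spectralOrderedRing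

/-- A bundled set of tracial states. -/
structure TrFam (A : Type u) [CStarAlgebra A] where
  T : Set (A →ₗ[ℂ] ℂ)
  tr : ∀ τ ∈ T, IsTr τ

variable (ω : Ultrafilter ℕ) (F : TrFam A)

/-- The two-norms tend to zero uniformly along the ultrafilter. -/
def Null (a : ℕ →ᵇ A) : Prop :=
  ∀ η : ℝ, 0 < η → ∀ᶠ n in (ω : Filter ℕ), Small F.T (a n) η

/-- The null sequences. -/
def nullSet : Set (ℕ →ᵇ A) := {a | Null ω F a}

/-- The distance to the null sequences. -/
def qnrm (a : ℕ →ᵇ A) : ℝ := Metric.infDist a (nullSet ω F)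

/-- A bounded sequence from a function. -/
def bseq (f : ℕ → A) (C : ℝ) (h : ∀ n, ‖f n‖ ≤ C) : ℕ →ᵇ A :=
  BoundedContinuousFunction.ofNormedAddCommGroupDiscrete f C h

lemma bseq_apply (f : ℕ → A) (C : ℝ) (h : ∀ n, ‖f n‖ ≤ C) (n : ℕ) : bseq f C h n = f n := rfl

/-- The constant sequence. -/
def cst (x : A) : ℕ →ᵇ A := BoundedContinuousFunction.const ℕ x

lemma cst_apply (x : A) (n : ℕ) : cst x n = x := rfl

variable {ω F}

lemma null_zero : Null ω F 0 := fun η hη => Eventually.of_forall fun n τ hτ => by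
  simp [(F.tr τ hτ).sn_zero, hη.le]

lemma Null.add {a b : ℕ →ᵇ A} (ha : Null ω F a) (hb : Null ω F b) : Null ω F (a + b) :=
  fun η hη => ((ha (η / 2) (half_pos hη)).and (hb (η / 2) (half_pos hη))).mono fun n h τ hτ => by
    simp only [BoundedContinuousFunction.add_apply]
    linarith [(F.tr τ hτ).sn_add_le (a n) (b n), h.1 τ hτ, h.2 τ hτ]

lemma Null.neg {a : ℕ →ᵇ A} (ha : Null ω F a) : Null ω F (-a) :=
  fun η hη => (ha η hη).mono fun n h τ hτ => by
    rw [BoundedContinuousFunction.neg_apply, (F.tr τ hτ).sn_neg]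
    exact h τ hτ

lemma Null.sub {a b : ℕ →ᵇ A} (ha : Null ω F a) (hb : Null ω F b) : Null ω F (a - b) :=
  sub_eq_add_neg a b ▸ ha.add hb.neg

lemma Null.star {a : ℕ →ᵇ A} (ha : Null ω F a) : Null ω F (Star.star a) :=
  fun η hη => (ha η hη).mono fun n h τ hτ => by
    rw [BoundedContinuousFunction.star_apply, (F.tr τ hτ).sn_star]
    exact h τ hτ

lemma Null.mul_left {a : ℕ →ᵇ A} (ha : Null ω F a) (c : ℕ →ᵇ A) : Null ω F (c * a) := by
  intro η hη
  refine (ha (η / (‖c‖ + 1)) (by positivity)).mono fun n h τ hτ => ?_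
  rw [BoundedContinuousFunction.mul_apply]
  refine ((F.tr τ hτ).sn_mul_le_left _ _).trans ?_
  calc ‖c n‖ * sn τ (a n) ≤ (‖c‖ + 1) * (η / (‖c‖ + 1)) :=
        mul_le_mul ((c.norm_coe_le_norm n).trans (by linarith)) (h τ hτ) (sn_nonneg _)
          (by positivity)
    _ = η := by field_simp

lemma Null.mul_right {a : ℕ →ᵇ A} (ha : Null ω F a) (c : ℕ →ᵇ A) : Null ω F (a * c) := by
  have h := (ha.star.mul_left (Star.star c)).star
  rwa [star_mul, star_star, star_star] at h

lemma Null.smul {a : ℕ →ᵇ A} (ha : Null ω F a) (z : ℂ) : Null ω F (z • a) := by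
  intro η hη
  refine (ha (η / (‖z‖ + 1)) (by positivity)).mono fun n h τ hτ => ?_
  rw [BoundedContinuousFunction.smul_apply, (F.tr τ hτ).sn_smul]
  calc ‖z‖ * sn τ (a n) ≤ (‖z‖ + 1) * (η / (‖z‖ + 1)) :=
        mul_le_mul (by linarith) (h τ hτ) (sn_nonneg _) (by positivity)
    _ = η := by field_simp

/-- A sequence within every distance of the null sequences is null. -/
lemma null_of_approx {a : ℕ →ᵇ A} (h : ∀ δ : ℝ, 0 < δ → ∃ b, Null ω F b ∧ ‖a - b‖ ≤ δ) :
    Null ω F a := by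
  intro η hη
  obtain ⟨b, hb, hab⟩ := h (η / 2) (half_pos hη)
  refine (hb (η / 2) (half_pos hη)).mono fun n hn τ hτ => ?_
  have h1 := (F.tr τ hτ).sn_add_le (b n) (a n - b n)
  rw [add_sub_cancel] at h1
  have h2 := ((F.tr τ hτ).sn_le_norm (a n - b n)).trans
    ((by simpa using (a - b).norm_coe_le_norm n : ‖a n - b n‖ ≤ ‖a - b‖).trans hab)
  linarith [hn τ hτ]

lemma nullSet_nonempty : (nullSet ω F).Nonempty := ⟨0, null_zero⟩

lemma qnrm_le_dist {a b : ℕ →ᵇ A} (hb : Null ω F b) : qnrm ω F a ≤ ‖a - b‖ := by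
  rw [← dist_eq_norm]
  exact Metric.infDist_le_dist_of_mem hb

lemma exists_lt_of_qnrm {a : ℕ →ᵇ A} {r : ℝ} (h : qnrm ω F a < r) :
    ∃ b, Null ω F b ∧ ‖a - b‖ < r := by
  obtain ⟨b, hb, hd⟩ := (Metric.infDist_lt_iff nullSet_nonempty).1 h
  exact ⟨b, hb, by rwa [← dist_eq_norm]⟩

lemma qnrm_zero : qnrm ω F (0 : ℕ →ᵇ A) = 0 := Metric.infDist_zero_of_mem null_zero

lemma qnrm_nonneg (a : ℕ →ᵇ A) : 0 ≤ qnrm ω F a := Metric.infDist_nonneg

lemma qnrm_add (a b : ℕ →ᵇ A) : qnrm ω F (a + b) ≤ qnrm ω F a + qnrm ω F b := by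
  refine le_of_forall_pos_le_add fun ε hε => ?_
  obtain ⟨a', ha', h1⟩ := exists_lt_of_qnrm (lt_add_of_pos_right (qnrm ω F a) (half_pos hε))
  obtain ⟨b', hb', h2⟩ := exists_lt_of_qnrm (lt_add_of_pos_right (qnrm ω F b) (half_pos hε))
  refine (qnrm_le_dist (ha'.add hb')).trans ?_
  have h3 := norm_add_le (a - a') (b - b')
  rw [show a - a' + (b - b') = a + b - (a' + b') by abel] at h3
  linarith

lemma qnrm_neg (a : ℕ →ᵇ A) : qnrm ω F (-a) = qnrm ω F a := by
  have h : ∀ a : ℕ →ᵇ A, qnrm ω F (-a) ≤ qnrm ω F a := by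
    intro a
    refine le_of_forall_pos_le_add fun ε hε => ?_
    obtain ⟨b, hb, h1⟩ := exists_lt_of_qnrm (lt_add_of_pos_right (qnrm ω F a) hε)
    refine (qnrm_le_dist hb.neg).trans ?_
    rw [show -a - -b = -(a - b) by abel, norm_neg]
    exact h1.le
  exact le_antisymm (h a) (by simpa using h (-a))

lemma qnrm_mul (a b : ℕ →ᵇ A) : qnrm ω F (a * b) ≤ qnrm ω F a * qnrm ω F b := by
  have key : ∀ δ : ℝ, 0 < δ → qnrm ω F (a * b) ≤ (qnrm ω F a + δ) * (qnrm ω F b + δ) := by
    intro δ hδ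
    obtain ⟨a', ha', h1⟩ := exists_lt_of_qnrm (lt_add_of_pos_right (qnrm ω F a) hδ)
    obtain ⟨b', hb', h2⟩ := exists_lt_of_qnrm (lt_add_of_pos_right (qnrm ω F b) hδ)
    refine (qnrm_le_dist ((ha'.mul_right b).add (hb'.mul_left (a - a')))).trans ?_
    rw [show a * b - (a' * b + (a - a') * b') = (a - a') * (b - b') by noncomm_ring]
    exact (norm_mul_le _ _).trans (mul_le_mul h1.le h2.le (norm_nonneg _)
      ((norm_nonneg _).trans h1.le))
  have hc : Tendsto (fun δ : ℝ => (qnrm ω F a + δ) * (qnrm ω F b + δ)) (𝓝[>] 0)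
      (𝓝 (qnrm ω F a * qnrm ω F b)) :=
    Tendsto.mono_left (((continuous_const.add continuous_id).mul
      (continuous_const.add continuous_id)).tendsto' 0 _ (by simp)) nhdsWithin_le_nhds
  exact ge_of_tendsto hc (eventually_mem_nhdsWithin.mono fun δ hδ => key δ hδ)

lemma qnrm_smul_le (z : ℂ) (a : ℕ →ᵇ A) : qnrm ω F (z • a) ≤ ‖z‖ * qnrm ω F a := by
  have key : ∀ δ : ℝ, 0 < δ → qnrm ω F (z • a) ≤ ‖z‖ * (qnrm ω F a + δ) := by
    intro δ hδ
    obtain ⟨b, hb, h1⟩ := exists_lt_of_qnrm (lt_add_of_pos_right (qnrm ω F a) hδ)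
    refine (qnrm_le_dist (hb.smul z)).trans ?_
    rw [← smul_sub]
    exact (norm_smul_le z (a - b)).trans (mul_le_mul_of_nonneg_left h1.le (norm_nonneg _))
  have hc : Tendsto (fun δ : ℝ => ‖z‖ * (qnrm ω F a + δ)) (𝓝[>] 0) (𝓝 (‖z‖ * qnrm ω F a)) :=
    Tendsto.mono_left ((continuous_const.mul (continuous_const.add continuous_id)).tendsto' 0 _
      (by simp)) nhdsWithin_le_nhds
  exact ge_of_tendsto hc (eventually_mem_nhdsWithin.mono fun δ hδ => key δ hδ)

lemma qnrm_star (a : ℕ →ᵇ A) : qnrm ω F (star a) = qnrm ω F a := by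
  have h : ∀ a : ℕ →ᵇ A, qnrm ω F (star a) ≤ qnrm ω F a := by
    intro a
    refine le_of_forall_pos_le_add fun ε hε => ?_
    obtain ⟨b, hb, h1⟩ := exists_lt_of_qnrm (lt_add_of_pos_right (qnrm ω F a) hε)
    refine (qnrm_le_dist hb.star).trans ?_
    rw [← star_sub, norm_star]
    exact h1.le
  exact le_antisymm (h a) (by simpa using h (star a))

lemma qnrm_eq_zero_iff (a : ℕ →ᵇ A) : qnrm ω F a = 0 ↔ Null ω F a :=
  ⟨fun h => null_of_approx fun δ hδ => by
    obtain ⟨b, hb, h1⟩ := exists_lt_of_qnrm (h.trans_lt hδ)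
    exact ⟨b, hb, h1.le⟩, fun h => Metric.infDist_zero_of_mem (s := nullSet ω F) h⟩

/-- The cut: the part of a positive element above the norm of a small perturbation is small. -/
lemma IsTr.sn_cut_le {τ : A →ₗ[ℂ] ℂ} (hτ : IsTr τ) {y b : A} (hy : 0 ≤ y) {r δ : ℝ} (hr : 0 ≤ r)
    (hδ : 0 < δ) (hb : ‖y + b‖ ≤ r) {k : ℝ → ℝ} (hk : Continuous k)
    (hk0 : ∀ t, t ≤ r + δ → k t = 0) (hk1 : ∀ t, |k t| ≤ 1) :
    δ ^ 3 * sn τ (cfc k y) ^ 2 ≤ ‖y‖ ^ 2 * sn τ b := by
  have hys : IsSelfAdjoint y := .of_nonneg hy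
  let f : ℝ → ℝ := fun t => max (t - r) 0
  have hf : Continuous f := by fun_prop
  set G : A := cfc f y with hG
  have hGs : IsSelfAdjoint G := cfc_predicate f y
  set K : A := cfc k y with hK
  have hKs : IsSelfAdjoint K := cfc_predicate k y
  -- the cube of the positive part
  have h1 : G * y * G = r • (G * G) + G * G * G := by
    rw [hG]
    nth_rewrite 2 [← cfc_id' ℝ y]
    rw [← cfc_mul f (fun t => t) y, ← cfc_mul (fun t => f t * t) f y, ← cfc_mul f f y,
      ← cfc_mul (fun t => f t * f t) f y, ← cfc_smul r (fun t => f t * f t) y,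
      ← cfc_add y (fun t => r • (f t * f t)) (fun t => f t * f t * f t)]
    refine cfc_congr fun t _ => ?_
    simp only [f, smul_eq_mul]
    rcases le_total (t - r) 0 with h | h
    · simp [max_eq_right h]
    · simp only [max_eq_left h]; ring
  have h2 : δ ^ 3 • (K * K) ≤ G * G * G := by
    rw [hK, hG, ← cfc_mul k k y, ← cfc_smul (δ ^ 3) (fun t => k t * k t) y, ← cfc_mul f f y,
      ← cfc_mul (fun t => f t * f t) f y]
    refine cfc_mono fun t _ => ?_
    simp only [f, smul_eq_mul]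
    rcases le_total t (r + δ) with h | h
    · rw [hk0 t h, mul_zero, mul_zero]; positivity
    · rw [max_eq_left (by linarith), show k t * k t = |k t| * |k t| by rw [abs_mul_abs_self]]
      calc δ ^ 3 * (|k t| * |k t|) ≤ δ ^ 3 * 1 := mul_le_mul_of_nonneg_left
            (mul_le_one₀ (hk1 t) (abs_nonneg _) (hk1 t)) (by positivity)
        _ ≤ (t - r) ^ 3 := by rw [mul_one]; exact pow_le_pow_left₀ hδ.le (by linarith) 3
        _ = (t - r) * (t - r) * (t - r) := by ring
  have h3 : ‖G‖ ≤ ‖y‖ := by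
    refine norm_cfc_le (norm_nonneg y) fun t ht => ?_
    rcases subsingleton_or_nontrivial A with h | h
    · simp [spectrum.of_subsingleton y] at ht
    · have h4 := spectrum.norm_le_norm_of_mem ht
      rw [Real.norm_eq_abs] at h4 ⊢
      simp only [f]
      rw [abs_of_nonneg (le_max_right _ _)]
      exact max_le (by linarith [le_abs_self t]) (norm_nonneg y)
  have h5 := hτ.re_mono h2
  have h6 : (τ (G * (y + b) * G)).re ≤ r * sn τ G ^ 2 := by
    refine (Complex.re_le_norm _).trans ?_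
    rw [mul_assoc]
    refine (hτ.norm_map_mul_le G ((y + b) * G)).trans ?_
    calc sn τ G * sn τ ((y + b) * G) ≤ sn τ G * (r * sn τ G) :=
          mul_le_mul_of_nonneg_left ((hτ.sn_mul_le_left _ _).trans
            (mul_le_mul_of_nonneg_right hb (sn_nonneg _))) (sn_nonneg _)
      _ = r * sn τ G ^ 2 := by ring
  have h7 : -(τ (G * b * G)).re ≤ ‖y‖ ^ 2 * sn τ b := by
    refine (neg_le_abs _).trans ((Complex.abs_re_le_norm _).trans ?_)
    rw [mul_assoc]
    refine (hτ.norm_map_mul_le G (b * G)).trans ?_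
    calc sn τ G * sn τ (b * G) ≤ ‖y‖ * (sn τ b * ‖y‖) :=
          mul_le_mul ((hτ.sn_le_norm G).trans h3) ((hτ.sn_mul_le_right _ _).trans
            (mul_le_mul_of_nonneg_left h3 (sn_nonneg _))) (sn_nonneg _) (norm_nonneg _)
      _ = ‖y‖ ^ 2 * sn τ b := by ring
  have h8 : G * (y + b) * G = G * y * G + G * b * G := by noncomm_ring
  have h9 : (τ (G * G)).re = sn τ G ^ 2 := by rw [hτ.sq_sn, hGs.star_eq]
  have h10 : (τ (K * K)).re = sn τ K ^ 2 := by rw [hτ.sq_sn, hKs.star_eq]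
  rw [← Complex.coe_smul, map_smul, smul_eq_mul, Complex.re_ofReal_mul, h10] at h5
  rw [h8, h1, ← Complex.coe_smul, map_add, map_add, map_smul, smul_eq_mul, Complex.add_re,
    Complex.add_re, Complex.re_ofReal_mul, h9] at h6
  linarith

/-- The cut function. -/
def cutG (c t : ℝ) : ℝ := Real.sqrt (c / max t c)

lemma continuous_cutG {c : ℝ} (hc : 0 < c) : Continuous (cutG c) :=
  Real.continuous_sqrt.comp (continuous_const.div (continuous_id.max continuous_const)
    fun _ => ne_of_gt (lt_max_of_lt_right hc))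

lemma cutG_nonneg (c t : ℝ) : 0 ≤ cutG c t := Real.sqrt_nonneg _

lemma cutG_le_one {c : ℝ} (hc : 0 ≤ c) (t : ℝ) : cutG c t ≤ 1 :=
  Real.sqrt_le_one.2 (div_le_one_of_le₀ (le_max_right _ _) (hc.trans (le_max_right _ _)))

lemma cutG_of_le {c t : ℝ} (hc : 0 < c) (ht : t ≤ c) : cutG c t = 1 := by
  rw [cutG, max_eq_right ht, div_self hc.ne', Real.sqrt_one]

/-- The cut element. -/
def cutEl (c : ℝ) (x : A) : A := x * cfc (cutG c) (star x * x)

lemma norm_cutEl_le {c : ℝ} (hc : 0 < c) (x : A) : ‖cutEl c x‖ ≤ Real.sqrt c := by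
  have hg := (continuous_cutG hc).continuousOn (s := spectrum ℝ (star x * x))
  have hid : ContinuousOn (fun t : ℝ => t) (spectrum ℝ (star x * x)) := continuousOn_id
  rw [Real.le_sqrt (norm_nonneg _) hc.le, sq, ← CStarRing.norm_star_mul_self]
  have hs : IsSelfAdjoint (star x * x) := .star_mul_self x
  have he : star (cutEl c x) * cutEl c x
      = cfc (fun t => cutG c t * t * cutG c t) (star x * x) := by
    rw [cfc_mul (fun t => cutG c t * t) (cutG c) (star x * x) (hg.mul hid) hg,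
      cfc_mul (cutG c) (fun t => t) (star x * x) hg hid, cfc_id' ℝ (star x * x) hs]
    rw [cutEl, star_mul, (cfc_predicate (cutG c) (star x * x) : IsSelfAdjoint _).star_eq]
    simp only [mul_assoc]
  rw [he]
  refine norm_cfc_le hc.le fun t ht => ?_
  have ht0 : 0 ≤ t := spectrum_nonneg_of_nonneg (star_mul_self_nonneg x) ht
  have hm : 0 < max t c := lt_max_of_lt_right hc
  rw [Real.norm_eq_abs,
    abs_of_nonneg (mul_nonneg (mul_nonneg (cutG_nonneg c t) ht0) (cutG_nonneg c t)),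
    mul_right_comm, cutG, Real.mul_self_sqrt (div_nonneg hc.le hm.le), div_mul_eq_mul_div,
    div_le_iff₀ hm]
  exact mul_le_mul_of_nonneg_left (le_max_left _ _) hc.le

lemma IsTr.sn_sub_cutEl_le {τ : A →ₗ[ℂ] ℂ} (hτ : IsTr τ) {x b : A} {r δ : ℝ} (hr : 0 ≤ r)
    (hδ : 0 < δ) (hb : ‖star x * x - b‖ ≤ r) :
    δ ^ 3 * sn τ (x - cutEl (r + δ) x) ^ 2 ≤ ‖x‖ ^ 6 * sn τ b := by
  have hc : 0 < r + δ := by linarith
  have hg := continuous_cutG hc
  have hk : x - cutEl (r + δ) x = x * cfc (fun t => 1 - cutG (r + δ) t) (star x * x) := by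
    rw [cfc_sub (fun _ => (1 : ℝ)) (cutG (r + δ)) (star x * x) continuousOn_const hg.continuousOn,
      cfc_const_one ℝ (star x * x) (IsSelfAdjoint.star_mul_self x), mul_sub, mul_one, cutEl]
  have h1 := hτ.sn_cut_le (star_mul_self_nonneg x) hr hδ (b := -b) (by rwa [← sub_eq_add_neg])
    (k := fun t => 1 - cutG (r + δ) t) (continuous_const.sub hg)
    (fun t ht => by simp only [cutG_of_le hc ht, sub_self]) fun t => abs_le.2
      ⟨by linarith [cutG_le_one hc.le t], by linarith [cutG_nonneg (r + δ) t]⟩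
  rw [hτ.sn_neg, CStarRing.norm_star_mul_self] at h1
  rw [hk]
  have h2 := pow_le_pow_left₀ (sn_nonneg _)
    (hτ.sn_mul_le_left x (cfc (fun t => 1 - cutG (r + δ) t) (star x * x))) 2
  rw [mul_pow] at h2
  calc δ ^ 3 * sn τ (x * cfc (fun t => 1 - cutG (r + δ) t) (star x * x)) ^ 2
      ≤ δ ^ 3 * (‖x‖ ^ 2 * sn τ (cfc (fun t => 1 - cutG (r + δ) t) (star x * x)) ^ 2) :=
        mul_le_mul_of_nonneg_left h2 (by positivity)
    _ = ‖x‖ ^ 2 * (δ ^ 3 * sn τ (cfc (fun t => 1 - cutG (r + δ) t) (star x * x)) ^ 2) := by ring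
    _ ≤ ‖x‖ ^ 2 * ((‖x‖ * ‖x‖) ^ 2 * sn τ b) := mul_le_mul_of_nonneg_left h1 (sq_nonneg _)
    _ = ‖x‖ ^ 6 * sn τ b := by ring

/-- The C*-inequality for the distance to the null sequences. -/
lemma qnrm_star_mul_ge (a : ℕ →ᵇ A) : qnrm ω F a * qnrm ω F a ≤ qnrm ω F (star a * a) := by
  refine le_of_forall_pos_le_add fun δ hδ => ?_
  obtain ⟨b, hb, hbr⟩ :=
    exists_lt_of_qnrm (lt_add_of_pos_right (qnrm ω F (star a * a)) (half_pos hδ))
  set r := qnrm ω F (star a * a) + δ / 2 with hr_def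
  have hr : 0 < r := add_pos_of_nonneg_of_pos (qnrm_nonneg _) (half_pos hδ)
  set c := r + δ / 2 with hc
  have hc0 : 0 < c := add_pos hr (half_pos hδ)
  set x : ℕ →ᵇ A := bseq (fun n => cutEl c (a n)) (Real.sqrt c) fun n => norm_cutEl_le hc0 (a n)
  have hxn : ‖x‖ ≤ Real.sqrt c :=
    (BoundedContinuousFunction.norm_le (Real.sqrt_nonneg _)).2 fun n => norm_cutEl_le hc0 (a n)
  have hnull : Null ω F (a - x) := by
    intro η hη
    set L := ‖a‖ ^ 6 + 1
    refine (hb ((δ / 2) ^ 3 * η ^ 2 / L) (by positivity)).mono fun n hn τ hτ => ?_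
    have hbn : ‖star (a n) * a n - b n‖ ≤ r :=
      ((star a * a - b).norm_coe_le_norm n).trans hbr.le
    have h1 := (F.tr τ hτ).sn_sub_cutEl_le hr.le (half_pos hδ) hbn
    have h2 : (δ / 2) ^ 3 * sn τ ((a - x) n) ^ 2 ≤ (δ / 2) ^ 3 * η ^ 2 := by
      refine h1.trans ?_
      calc ‖a n‖ ^ 6 * sn τ (b n) ≤ ‖a‖ ^ 6 * ((δ / 2) ^ 3 * η ^ 2 / L) :=
            mul_le_mul (pow_le_pow_left₀ (norm_nonneg _) (a.norm_coe_le_norm n) 6) (hn τ hτ)
              (sn_nonneg _) (by positivity)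
        _ = (δ / 2) ^ 3 * η ^ 2 * (‖a‖ ^ 6 / L) := by ring
        _ ≤ (δ / 2) ^ 3 * η ^ 2 := mul_le_of_le_one_right (by positivity)
          (div_le_one_of_le₀ (le_add_of_nonneg_right zero_le_one) (by positivity))
    exact (abs_le_of_sq_le_sq' (le_of_mul_le_mul_left h2 (by positivity)) hη.le).2
  have h := qnrm_le_dist (a := a) hnull
  rw [sub_sub_cancel] at h
  calc qnrm ω F a * qnrm ω F a ≤ Real.sqrt c * Real.sqrt c :=
        mul_le_mul (h.trans hxn) (h.trans hxn) (qnrm_nonneg _) (Real.sqrt_nonneg _)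
    _ = c := Real.mul_self_sqrt hc0.le
    _ = qnrm ω F (star a * a) + δ := by rw [hc, hr_def]; ring

variable (ω F)

/-- Bounded sequences with the seminorm given by the distance to the null sequences. -/
@[nolint unusedArguments]
def SqPre : Type u := (fun (_ : Ultrafilter ℕ) (_ : TrFam A) => (ℕ →ᵇ A)) ω F

instance : Ring (SqPre ω F) := inferInstanceAs (Ring (ℕ →ᵇ A))
instance : StarRing (SqPre ω F) := inferInstanceAs (StarRing (ℕ →ᵇ A))
instance : Algebra ℂ (SqPre ω F) := inferInstanceAs (Algebra ℂ (ℕ →ᵇ A))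
instance : StarModule ℂ (SqPre ω F) := inferInstanceAs (StarModule ℂ (ℕ →ᵇ A))

/-- The sequence underlying an element of `SqPre`. -/
def SqPre.seq (a : SqPre ω F) : ℕ →ᵇ A := a

/-- The seminorm on `SqPre`. -/
def sqSeminorm : AddGroupSeminorm (SqPre ω F) where
  toFun a := qnrm ω F (SqPre.seq ω F a)
  map_zero' := qnrm_zero
  add_le' _ _ := qnrm_add _ _
  neg' _ := qnrm_neg _

instance : SeminormedAddCommGroup (SqPre ω F) := (sqSeminorm ω F).toSeminormedAddCommGroup

instance : SeminormedRing (SqPre ω F) where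
  __ : Ring (SqPre ω F) := inferInstance
  __ : SeminormedAddCommGroup (SqPre ω F) := inferInstance
  norm_mul_le _ _ := qnrm_mul _ _

instance : NormedAlgebra ℂ (SqPre ω F) where
  __ : Algebra ℂ (SqPre ω F) := inferInstance
  norm_smul_le z _ := qnrm_smul_le z _

instance : NormedStarGroup (SqPre ω F) := ⟨fun _ => (qnrm_star _).le⟩

/-- The sequence algebra. -/
abbrev Sq : Type u := SeparationQuotient (SqPre ω F)

instance : Star (Sq ω F) :=
  ⟨SeparationQuotient.lift (fun a => SeparationQuotient.mk (star a)) fun _ _ h =>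
    SeparationQuotient.mk_eq_mk.2 (h.map continuous_star)⟩

instance : StarRing (Sq ω F) where
  star_involutive := by
    rintro ⟨a⟩
    show SeparationQuotient.mk (star (star a)) = _
    rw [star_star]; rfl
  star_mul := by
    rintro ⟨a⟩ ⟨b⟩
    show SeparationQuotient.mk (star (a * b)) = _
    rw [star_mul]; rfl
  star_add := by
    rintro ⟨a⟩ ⟨b⟩
    show SeparationQuotient.mk (star (a + b)) = _
    rw [star_add]; rfl

instance : StarModule ℂ (Sq ω F) where
  star_smul z := by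
    rintro ⟨a⟩
    show SeparationQuotient.mk (star (z • a)) = _
    rw [star_smul]; rfl

instance : CStarRing (Sq ω F) where
  norm_mul_self_le := by
    rintro ⟨a⟩
    exact qnrm_star_mul_ge (SqPre.seq ω F a)

/-- The quotient map. -/
def proj : (ℕ →ᵇ A) →⋆ₐ[ℂ] Sq ω F where
  toFun a := SeparationQuotient.mk (show SqPre ω F from a)
  map_one' := rfl
  map_mul' _ _ := rfl
  map_zero' := rfl
  map_add' _ _ := rfl
  commutes' _ := rfl
  map_star' _ := rfl

lemma norm_proj (a : ℕ →ᵇ A) : ‖proj ω F a‖ = qnrm ω F a := rfl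

lemma norm_proj_le (a : ℕ →ᵇ A) : ‖proj ω F a‖ ≤ ‖a‖ := by
  simpa [norm_proj] using qnrm_le_dist (ω := ω) (F := F) (a := a) null_zero

lemma proj_surjective : Function.Surjective (proj ω F) :=
  fun x => SeparationQuotient.surjective_mk x

lemma proj_eq_zero_iff (a : ℕ →ᵇ A) : proj ω F a = 0 ↔ Null ω F a := by
  rw [← norm_eq_zero, norm_proj, qnrm_eq_zero_iff]

lemma proj_eq_iff (a b : ℕ →ᵇ A) : proj ω F a = proj ω F b ↔ Null ω F (a - b) := by
  rw [← sub_eq_zero, ← map_sub (proj ω F) a b, proj_eq_zero_iff]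

lemma continuous_proj : Continuous (proj ω F) :=
  AddMonoidHomClass.continuous_of_bound (proj ω F) 1 fun a => by
    rw [one_mul]
    exact norm_proj_le ω F a

/-- Every class has representatives of almost the same norm. -/
lemma exists_rep (x : Sq ω F) {ε : ℝ} (hε : 0 < ε) :
    ∃ a : ℕ →ᵇ A, proj ω F a = x ∧ ‖a‖ ≤ ‖x‖ + ε := by
  obtain ⟨a, rfl⟩ := proj_surjective ω F x
  obtain ⟨b, hb, h⟩ := exists_lt_of_qnrm (lt_add_of_pos_right (qnrm ω F a) hε)
  refine ⟨a - b, ?_, by rw [norm_proj]; exact h.le⟩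
  rw [map_sub, (proj_eq_zero_iff ω F b).2 hb, sub_zero]

/-- Self-adjoint classes have self-adjoint representatives of almost the same norm. -/
lemma exists_rep_sa {x : Sq ω F} (hx : IsSelfAdjoint x) {ε : ℝ} (hε : 0 < ε) :
    ∃ a : ℕ →ᵇ A, IsSelfAdjoint a ∧ proj ω F a = x ∧ ‖a‖ ≤ ‖x‖ + ε := by
  obtain ⟨a, ha, hn⟩ := exists_rep ω F x hε
  refine ⟨(2⁻¹ : ℂ) • (a + star a), ?_, ?_, ?_⟩
  · rw [isSelfAdjoint_iff, star_smul, star_add, star_star, add_comm]
    simp
  · rw [map_smul, map_add, map_star, ha, hx.star_eq, ← two_smul ℂ x, smul_smul]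
    norm_num
  · refine (norm_smul_le _ _).trans ?_
    have := norm_add_le a (star a)
    rw [norm_star] at this
    simp only [norm_inv, Complex.norm_ofNat]
    linarith

instance : CompleteSpace (Sq ω F) := by
  refine NormedAddCommGroup.completeSpace_of_summable_imp_tendsto fun u hu => ?_
  choose a ha hn using fun k => exists_rep ω F (u k) (show (0 : ℝ) < (1 / 2) ^ k by positivity)
  have hs : Summable a := Summable.of_norm_bounded (hu.add summable_geometric_two) hn
  refine ⟨proj ω F (∑' k, a k), ?_⟩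
  have := ((continuous_proj ω F).tendsto _).comp hs.hasSum.tendsto_sum_nat
  simpa [Function.comp_def, map_sum, ha] using this

instance : CStarAlgebra (Sq ω F) where

/-- A chosen representative. -/
def rep (x : Sq ω F) : ℕ →ᵇ A := (proj_surjective ω F x).choose

lemma proj_rep (x : Sq ω F) : proj ω F (rep ω F x) = x := (proj_surjective ω F x).choose_spec

/-! ## Limit traces -/

variable {ω F}

lemma Null.eventually_norm_le {a : ℕ →ᵇ A} (ha : Null ω F a) {η : ℝ} (hη : 0 < η) :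
    ∀ᶠ n in (ω : Filter ℕ), ∀ τ ∈ F.T, ‖τ (a n)‖ ≤ η :=
  (ha η hη).mono fun n h τ hτ => ((F.tr τ hτ).norm_map_le_sn _).trans (h τ hτ)

variable (ω) (τs : ℕ → A →ₗ[ℂ] ℂ)

/-- The limit of the values of a sequence of functionals along a bounded sequence. -/
def limVal (a : ℕ →ᵇ A) : ℂ := limUnder (ω : Filter ℕ) fun n => τs n (a n)

variable {ω τs}

lemma tendsto_limVal (hτs : ∀ n, τs n ∈ F.T) (a : ℕ →ᵇ A) :
    Tendsto (fun n => τs n (a n)) (ω : Filter ℕ) (𝓝 (limVal ω τs a)) := by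
  obtain ⟨z, -, hz⟩ := (isCompact_closedBall (0 : ℂ) ‖a‖).ultrafilter_le_nhds
    (ω.map fun n => τs n (a n)) (by
      rw [le_principal_iff, Ultrafilter.coe_map, mem_map]
      exact Filter.univ_mem' fun n => mem_closedBall_zero_iff.2
        (((F.tr _ (hτs n)).norm_map_le _).trans (a.norm_coe_le_norm n)))
  have h : Tendsto (fun n => τs n (a n)) (ω : Filter ℕ) (𝓝 z) := hz
  unfold limVal
  rwa [h.limUnder_eq]

lemma limVal_null (hτs : ∀ n, τs n ∈ F.T) {a : ℕ →ᵇ A} (ha : Null ω F a) :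
    limVal ω τs a = 0 := by
  refine tendsto_nhds_unique (tendsto_limVal hτs a) (Metric.tendsto_nhds.2 fun η hη => ?_)
  refine (ha.eventually_norm_le (half_pos hη)).mono fun n hn => ?_
  rw [dist_zero_right]
  linarith [hn _ (hτs n)]

lemma limVal_congr (hτs : ∀ n, τs n ∈ F.T) {a b : ℕ →ᵇ A} (h : proj ω F a = proj ω F b) :
    limVal ω τs a = limVal ω τs b := by
  have h0 := limVal_null hτs ((proj_eq_iff ω F a b).1 h)
  have h1 := (tendsto_limVal hτs (a - b) (ω := ω)).add (tendsto_limVal hτs b)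
  rw [h0, zero_add] at h1
  exact tendsto_nhds_unique (tendsto_limVal hτs a) (h1.congr fun n => by simp)

variable (ω F τs)

/-- The limit trace of a sequence of traces. -/
def limTr (hτs : ∀ n, τs n ∈ F.T) : Sq ω F →ₗ[ℂ] ℂ where
  toFun x := limVal ω τs (rep ω F x)
  map_add' x y := by
    rw [limVal_congr hτs (show proj ω F (rep ω F (x + y)) = proj ω F (rep ω F x + rep ω F y) by
      rw [map_add, proj_rep, proj_rep, proj_rep])]
    exact tendsto_nhds_unique (tendsto_limVal hτs _)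
      (((tendsto_limVal hτs _).add (tendsto_limVal hτs _)).congr fun n => by simp)
  map_smul' z x := by
    rw [limVal_congr hτs (show proj ω F (rep ω F (z • x)) = proj ω F (z • rep ω F x) by
      rw [map_smul, proj_rep, proj_rep]), RingHom.id_apply, smul_eq_mul]
    exact tendsto_nhds_unique (tendsto_limVal hτs _)
      (((tendsto_limVal hτs _).const_mul z).congr fun n => by simp)

/-- The limit traces. -/
def sqT : Set (Sq ω F →ₗ[ℂ] ℂ) := {σ | ∃ τs, ∃ h : ∀ n, τs n ∈ F.T, σ = limTr ω F τs h}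

variable {ω F τs}

lemma limTr_proj (hτs : ∀ n, τs n ∈ F.T) (a : ℕ →ᵇ A) :
    limTr ω F τs hτs (proj ω F a) = limVal ω τs a :=
  limVal_congr hτs (proj_rep ω F _)

lemma tendsto_limTr (hτs : ∀ n, τs n ∈ F.T) (a : ℕ →ᵇ A) :
    Tendsto (fun n => τs n (a n)) (ω : Filter ℕ) (𝓝 (limTr ω F τs hτs (proj ω F a))) := by
  rw [limTr_proj]
  exact tendsto_limVal hτs a

lemma tendsto_sn_limTr (hτs : ∀ n, τs n ∈ F.T) (a : ℕ →ᵇ A) :
    Tendsto (fun n => sn (τs n) (a n)) (ω : Filter ℕ)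
      (𝓝 (sn (limTr ω F τs hτs) (proj ω F a))) := by
  have h := tendsto_limTr hτs (star a * a) (ω := ω)
  rw [map_mul, map_star] at h
  exact (Real.continuous_sqrt.tendsto _).comp ((Complex.continuous_re.tendsto _).comp h)

lemma isTr_limTr (hτs : ∀ n, τs n ∈ F.T) : IsTr (limTr ω F τs hτs) where
  map_one := by
    rw [← map_one (proj ω F)]
    exact tendsto_nhds_unique (tendsto_limTr hτs 1)
      (tendsto_const_nhds.congr fun n => by simp [(F.tr _ (hτs n)).map_one])
  comm x y := by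
    obtain ⟨a, rfl⟩ := proj_surjective ω F x
    obtain ⟨b, rfl⟩ := proj_surjective ω F y
    rw [← map_mul, ← map_mul]
    exact tendsto_nhds_unique (tendsto_limTr hτs _) ((tendsto_limTr hτs (b * a)).congr fun n => by
      simp [(F.tr _ (hτs n)).comm (b n) (a n)])
  pos x := by
    obtain ⟨a, rfl⟩ := proj_surjective ω F x
    have h := tendsto_limTr hτs (star a * a) (ω := ω)
    rw [map_mul, map_star] at h
    have hsn := tendsto_sn_limTr hτs a (ω := ω)
    refine ⟨sn (limTr ω F τs hτs) (proj ω F a) ^ 2, sq_nonneg _, tendsto_nhds_unique h ?_⟩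
    exact ((Complex.continuous_ofReal.tendsto _).comp (hsn.pow 2)).congr fun n => by
      simp only [Function.comp, BoundedContinuousFunction.mul_apply,
        BoundedContinuousFunction.star_apply, (F.tr _ (hτs n)).map_star_mul_self]

lemma isTr_of_mem_sqT : ∀ σ ∈ sqT ω F, IsTr σ := by
  rintro σ ⟨τs, h, rfl⟩
  exact isTr_limTr h

/-- Bounds on the limit traces give eventual uniform bounds. -/
lemma eventually_norm_le_of_sqT {a : ℕ →ᵇ A} {ε : ℝ}
    (h : ∀ σ ∈ sqT ω F, ‖σ (proj ω F a)‖ ≤ ε) {η : ℝ} (hη : 0 < η) :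
    ∀ᶠ n in (ω : Filter ℕ), ∀ τ ∈ F.T, ‖τ (a n)‖ ≤ ε + η := by
  classical
  by_contra hcon
  rw [← Ultrafilter.eventually_not] at hcon
  simp only [not_forall, not_le] at hcon
  obtain ⟨n0, τ0, hτ0, -⟩ := hcon.exists
  let τs : ℕ → A →ₗ[ℂ] ℂ := fun n =>
    if h : ∃ τ, ∃ _ : τ ∈ F.T, ε + η < ‖τ (a n)‖ then h.choose else τ0
  have hτs : ∀ n, τs n ∈ F.T := fun n => by
    simp only [τs]
    split_ifs with hn
    · exact hn.choose_spec.1
    · exact hτ0
  have hlim := (tendsto_limTr hτs a (ω := ω)).norm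
  have := le_of_tendsto_of_tendsto tendsto_const_nhds hlim (hcon.mono fun n hn => by
    simp only [τs, dif_pos hn]
    exact hn.choose_spec.2.le : (fun _ => ε + η) ≤ᶠ[(ω : Filter ℕ)] fun n => ‖τs n (a n)‖)
  linarith [h _ ⟨τs, hτs, rfl⟩]

/-- Small classes are eventually small. -/
lemma eventually_small_of_sqT {a : ℕ →ᵇ A} {ε : ℝ} (h : Small (sqT ω F) (proj ω F a) ε) {η : ℝ}
    (hη : 0 < η) : ∀ᶠ n in (ω : Filter ℕ), Small F.T (a n) (ε + η) := by
  classical
  by_contra hcon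
  rw [← Ultrafilter.eventually_not] at hcon
  simp only [Small, not_forall, not_le] at hcon
  obtain ⟨n0, τ0, hτ0, -⟩ := hcon.exists
  let τs : ℕ → A →ₗ[ℂ] ℂ := fun n =>
    if h : ∃ τ, ∃ _ : τ ∈ F.T, ε + η < sn τ (a n) then h.choose else τ0
  have hτs : ∀ n, τs n ∈ F.T := fun n => by
    simp only [τs]
    split_ifs with hn
    · exact hn.choose_spec.1
    · exact hτ0
  have := le_of_tendsto_of_tendsto tendsto_const_nhds (tendsto_sn_limTr hτs a (ω := ω))
    (hcon.mono fun n hn => by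
      simp only [τs, dif_pos hn]
      exact hn.choose_spec.2.le : (fun _ => ε + η) ≤ᶠ[(ω : Filter ℕ)] fun n => sn (τs n) (a n))
  linarith [h _ ⟨τs, hτs, rfl⟩]

/-- Eventually small sequences have small classes. -/
lemma small_of_eventually {a : ℕ →ᵇ A} {ε : ℝ}
    (h : ∀ᶠ n in (ω : Filter ℕ), Small F.T (a n) ε) : Small (sqT ω F) (proj ω F a) ε := by
  rintro σ ⟨τs, hτs, rfl⟩
  exact le_of_tendsto (tendsto_sn_limTr hτs a) (h.mono fun n hn => hn _ (hτs n))

/-- The limit traces separate points. -/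
lemma sq_faithful {x : Sq ω F} (h : Small (sqT ω F) x 0) : x = 0 := by
  obtain ⟨a, rfl⟩ := proj_surjective ω F x
  refine (proj_eq_zero_iff ω F a).2 fun η hη => ?_
  simpa using eventually_small_of_sqT h hη

/-! ## Induced automorphisms -/

variable (ω F) in
/-- A family-preserving automorphism acting on sequences. -/
def cmp (e : A ≃⋆ₐ[ℂ] A) (a : ℕ →ᵇ A) : ℕ →ᵇ A :=
  bseq (fun n => e (a n)) ‖a‖ fun n =>
    (NonUnitalStarAlgHom.norm_apply_le e.toStarAlgHom.toNonUnitalStarAlgHom (a n)).trans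
      (a.norm_coe_le_norm n)

end Vale.Agent.P095
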