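import Mathlib
import Vale.Agent.P095.Defs
import Vale.Agent.P095.Basic
import Vale.Agent.P095.Sq

/-!
The sequence algebra of an action with a uniformly McDuff set of traces is a working setting, and
approximately invariant anticommuting symmetries there give such elements in the algebra.
-/

noncomputable section

open Filter Topology
open scoped BoundedContinuousFunction

namespace Vale.Agent.P095

universe u v

variable {A : Type u} [CStarAlgebra A]

lemma norm_le_one_of_star_mul_self {b : A} (h : star b * b = 1) : ‖b‖ ≤ 1 := by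
  refine (sq_le_one_iff₀ (norm_nonneg b)).1 ?_
  rw [sq, ← CStarRing.norm_star_mul_self, h]
  rcases subsingleton_or_nontrivial A with _ | _
  · rw [Subsingleton.elim (1 : A) 0, norm_zero]; exact zero_le_one
  · rw [norm_one]

lemma star_apply_of_isSelfAdjoint {a : ℕ →ᵇ A} (ha : IsSelfAdjoint a) (n : ℕ) :
    IsSelfAdjoint (a n) :=
  DFunLike.congr_fun ha.star_eq n

lemma bseq_isSelfAdjoint {f : ℕ → A} {C : ℝ} (h : ∀ n, ‖f n‖ ≤ C)
    (hf : ∀ n, IsSelfAdjoint (f n)) : IsSelfAdjoint (bseq f C h) :=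
  BoundedContinuousFunction.ext fun n => (hf n).star_eq

/-- A countable set is exhausted by an increasing sequence of finite subsets. -/
lemma exists_exhaust {β : Type*} {S : Set β} (hS : S.Countable) :
    ∃ E : ℕ → Finset β, (∀ m, (E m : Set β) ⊆ S) ∧ ∀ s ∈ S, ∀ᶠ m in atTop, s ∈ E m := by
  classical
  obtain ⟨f, hf⟩ := Set.countable_iff_exists_injOn.1 hS
  have hfin : ∀ m, {s | s ∈ S ∧ f s < m}.Finite := fun m =>
    Set.Finite.of_finite_image ((Set.finite_lt_nat m).subset (by rintro _ ⟨s, hs, rfl⟩; exact hs.2))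
      (hf.mono fun s hs => hs.1)
  refine ⟨fun m => (hfin m).toFinset, fun m s hs => ((hfin m).mem_toFinset.1 hs).1, fun s hs => ?_⟩
  exact (eventually_gt_atTop (f s)).mono fun m hm => (hfin m).mem_toFinset.2 ⟨hs, hm⟩

lemma hyperfilter_le_atTop : ((hyperfilter ℕ : Ultrafilter ℕ) : Filter ℕ) ≤ atTop :=
  Nat.cofinite_eq_atTop ▸ hyperfilter_le_cofinite

/-- A diagonal index. -/
lemma exists_diag (W : ℕ → Set ℕ)
    (hW : ∀ m, ∀ᶠ n in ((hyperfilter ℕ : Ultrafilter ℕ) : Filter ℕ), n ∈ W m) :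
    ∃ φ : ℕ → ℕ, ∀ k, ∀ᶠ n in ((hyperfilter ℕ : Ultrafilter ℕ) : Filter ℕ),
      k ≤ φ n ∧ n ∈ W (φ n) := by
  classical
  refine ⟨fun n => Nat.findGreatest (fun m => n ∈ W m) n, fun k => ?_⟩
  filter_upwards [hW k, (eventually_ge_atTop k).filter_mono hyperfilter_le_atTop] with n h1 h2
  exact ⟨Nat.le_findGreatest h2 h1, Nat.findGreatest_spec (P := fun m => n ∈ W m) h2 h1⟩

lemma inv_succ_le {k m : ℕ} (h : k ≤ m) : ((m : ℝ) + 1)⁻¹ ≤ ((k : ℝ) + 1)⁻¹ :=
  inv_anti₀ (by positivity) (by exact_mod_cast Nat.succ_le_succ h)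

variable {F : TrFam A} {ω : Ultrafilter ℕ}

lemma Small.mono {T : Set (A →ₗ[ℂ] ℂ)} {x : A} {ε ε' : ℝ} (h : Small T x ε) (he : ε ≤ ε') :
    Small T x ε' := fun τ hτ => (h τ hτ).trans he

lemma exists_nat_inv_le {C η : ℝ} (hη : 0 < η) : ∃ k : ℕ, C * ((k : ℝ) + 1)⁻¹ ≤ η := by
  obtain ⟨k, hk⟩ := exists_nat_ge (C / η)
  refine ⟨k, ?_⟩
  rw [div_le_iff₀ hη] at hk
  rw [mul_inv_le_iff₀ (by positivity)]
  nlinarith

lemma null_of_rate {a : ℕ →ᵇ A} (C : ℝ)
    (h : ∀ k : ℕ, ∀ᶠ n in (ω : Filter ℕ), Small F.T (a n) (C * ((k : ℝ) + 1)⁻¹)) :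
    Null ω F a := fun η hη => by
  obtain ⟨k, hk⟩ := exists_nat_inv_le (C := C) hη
  exact (h k).mono fun n hn => hn.mono hk

lemma sqT_apply_eq_zero_of_rate {a : ℕ →ᵇ A} (C : ℝ)
    (h : ∀ k : ℕ, ∀ᶠ n in (ω : Filter ℕ), ∀ τ ∈ F.T, ‖τ (a n)‖ ≤ C * ((k : ℝ) + 1)⁻¹) :
    ∀ σ ∈ sqT ω F, σ (proj ω F a) = 0 := by
  rintro σ ⟨τs, hτs, rfl⟩
  refine norm_le_zero_iff.1 (le_of_forall_pos_le_add fun η hη => ?_)
  obtain ⟨k, hk⟩ := exists_nat_inv_le (C := C) hη
  rw [zero_add]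
  exact le_of_tendsto (tendsto_limTr hτs a).norm ((h k).mono fun n hn => (hn _ (hτs n)).trans hk)

/-! ## The induced action -/

section Action

variable {G : Type v} [Group G] (α : G → A ≃⋆ₐ[ℂ] A)

lemma cmp_apply (e : A ≃⋆ₐ[ℂ] A) (a : ℕ →ᵇ A) (n : ℕ) : cmp e a n = e (a n) := rfl

/-- The induced map on the sequence algebra. -/
def sqMap (g : G) (x : Sq ω F) : Sq ω F := proj ω F (cmp (α g) (rep ω F x))

variable {α} (hinv : ∀ τ ∈ F.T, ∀ g, ∃ σ ∈ F.T, ∀ x, σ x = τ (α g x))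

include hinv

lemma small_map {x : A} {η : ℝ} (g : G) (h : Small F.T x η) : Small F.T (α g x) η := by
  intro τ hτ
  obtain ⟨σ, hσ, he⟩ := hinv τ hτ g
  refine le_of_eq_of_le ?_ (h σ hσ)
  rw [sn, sn, he, map_mul (α g), map_star (α g)]

lemma null_cmp {a : ℕ →ᵇ A} (g : G) (h : Null ω F a) : Null ω F (cmp (α g) a) :=
  fun η hη => (h η hη).mono fun _ hn => small_map hinv g hn

lemma sqMap_proj (g : G) (a : ℕ →ᵇ A) :
    sqMap α g (proj ω F a) = proj ω F (cmp (α g) a) := by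
  rw [sqMap, proj_eq_iff]
  have h := null_cmp hinv g ((proj_eq_iff ω F _ _).1 (proj_rep ω F (proj ω F a)))
  convert h using 1
  ext n
  simp [cmp_apply]

/-- The induced automorphisms. -/
def sqAct (hmul : ∀ g h x, α (g * h) x = α g (α h x)) (hone : ∀ x, α 1 x = x) (g : G) :
    Sq ω F ≃⋆ₐ[ℂ] Sq ω F where
  toFun := sqMap α g
  invFun := sqMap α g⁻¹
  left_inv x := by
    obtain ⟨a, rfl⟩ := proj_surjective ω F x
    rw [sqMap_proj hinv, sqMap_proj hinv]
    congr 1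
    ext n
    rw [cmp_apply, cmp_apply, ← hmul, inv_mul_cancel, hone]
  right_inv x := by
    obtain ⟨a, rfl⟩ := proj_surjective ω F x
    rw [sqMap_proj hinv, sqMap_proj hinv]
    congr 1
    ext n
    rw [cmp_apply, cmp_apply, ← hmul, mul_inv_cancel, hone]
  map_mul' x y := by
    obtain ⟨a, rfl⟩ := proj_surjective ω F x
    obtain ⟨b, rfl⟩ := proj_surjective ω F y
    rw [← map_mul, sqMap_proj hinv, sqMap_proj hinv, sqMap_proj hinv, ← map_mul]
    congr 1
    ext n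
    simp [cmp_apply]
  map_add' x y := by
    obtain ⟨a, rfl⟩ := proj_surjective ω F x
    obtain ⟨b, rfl⟩ := proj_surjective ω F y
    rw [← map_add, sqMap_proj hinv, sqMap_proj hinv, sqMap_proj hinv, ← map_add]
    congr 1
    ext n
    simp [cmp_apply]
  map_star' x := by
    obtain ⟨a, rfl⟩ := proj_surjective ω F x
    rw [← map_star, sqMap_proj hinv, sqMap_proj hinv, ← map_star]
    congr 1
    ext n
    simp [cmp_apply, map_star]
  map_smul' z x := by
    obtain ⟨a, rfl⟩ := proj_surjective ω F x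
    rw [← map_smul, sqMap_proj hinv, sqMap_proj hinv, ← map_smul]
    congr 1
    ext n
    simp [cmp_apply]

lemma sqAct_proj (hmul : ∀ g h x, α (g * h) x = α g (α h x)) (hone : ∀ x, α 1 x = x) (g : G)
    (a : ℕ →ᵇ A) : sqAct hinv hmul hone g (proj ω F a) = proj ω F (cmp (α g) a) :=
  sqMap_proj hinv g a

/-- The limit traces are permuted by the induced action. -/
lemma sqT_inv (hmul : ∀ g h x, α (g * h) x = α g (α h x)) (hone : ∀ x, α 1 x = x) :
    ∀ τ ∈ sqT ω F, ∀ g, ∃ σ ∈ sqT ω F, ∀ x, σ x = τ (sqAct hinv hmul hone g x) := by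
  rintro τ ⟨τs, hτs, rfl⟩ g
  choose σs hσs he using fun n => hinv (τs n) (hτs n) g
  refine ⟨_, ⟨σs, hσs, rfl⟩, fun x => ?_⟩
  obtain ⟨a, rfl⟩ := proj_surjective ω F x
  rw [sqAct_proj]
  exact tendsto_nhds_unique (tendsto_limTr hσs a)
    ((tendsto_limTr hτs (cmp (α g) a)).congr fun n => by rw [cmp_apply, he])

end Action

/-! ## Units and saturation -/

/-- Fresh anticommuting symmetries commuting with a countable set. -/
lemma sq_units (hM : UniformMcDuff F.T) (S : Set (Sq (hyperfilter ℕ) F)) (hS : S.Countable) :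
    ∃ x z : Sq (hyperfilter ℕ) F, IsSelfAdjoint x ∧ IsSelfAdjoint z ∧ x * x = 1 ∧ z * z = 1 ∧
      x * z = -(z * x) ∧ ∀ s ∈ S, Commute x s ∧ Commute z s := by
  classical
  obtain ⟨E, -, hE⟩ := exists_exhaust hS
  choose x z hx hz hxn hzn hxx hzz hxz hcomm using fun n : ℕ =>
    hM ((E n).image fun s => rep (hyperfilter ℕ) F s n) ((n : ℝ) + 1)⁻¹ (by positivity)
  set X := bseq x 1 hxn
  set Z := bseq z 1 hzn
  refine ⟨proj _ F X, proj _ F Z, (bseq_isSelfAdjoint hxn hx).map _,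
    (bseq_isSelfAdjoint hzn hz).map _, ?_, ?_, ?_, fun s hs => ⟨?_, ?_⟩⟩
  · rw [← map_mul, ← map_one (proj (hyperfilter ℕ) F), proj_eq_iff]
    exact null_of_rate 1 fun k => ((eventually_ge_atTop k).filter_mono hyperfilter_le_atTop).mono fun n hn =>
      (hxx n).mono (by simpa using inv_succ_le hn)
  · rw [← map_mul, ← map_one (proj (hyperfilter ℕ) F), proj_eq_iff]
    exact null_of_rate 1 fun k => ((eventually_ge_atTop k).filter_mono hyperfilter_le_atTop).mono fun n hn =>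
      (hzz n).mono (by simpa using inv_succ_le hn)
  · rw [eq_neg_iff_add_eq_zero, ← map_mul, ← map_mul, ← map_add, proj_eq_zero_iff]
    exact null_of_rate 1 fun k => ((eventually_ge_atTop k).filter_mono hyperfilter_le_atTop).mono fun n hn =>
      (hxz n).mono (by simpa using inv_succ_le hn)
  · rw [commute_iff_eq, ← proj_rep (hyperfilter ℕ) F s, ← map_mul, ← map_mul, proj_eq_iff]
    refine null_of_rate 1 fun k => hyperfilter_le_atTop ?_
    filter_upwards [eventually_ge_atTop k, hE s hs] with n hn hn'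
    exact ((hcomm n _ (Finset.mem_image_of_mem _ hn')).1).mono (by simpa using inv_succ_le hn)
  · rw [commute_iff_eq, ← proj_rep (hyperfilter ℕ) F s, ← map_mul, ← map_mul, proj_eq_iff]
    refine null_of_rate 1 fun k => hyperfilter_le_atTop ?_
    filter_upwards [eventually_ge_atTop k, hE s hs] with n hn hn'
    exact ((hcomm n _ (Finset.mem_image_of_mem _ hn')).2).mono (by simpa using inv_succ_le hn)

section Saturate

variable {G : Type v} [Group G] [Countable G] {α : G → A ≃⋆ₐ[ℂ] A}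
  (hinv : ∀ τ ∈ F.T, ∀ g, ∃ σ ∈ F.T, ∀ x, σ x = τ (α g x))
  (hmul : ∀ g h x, α (g * h) x = α g (α h x)) (hone : ∀ x, α 1 x = x)

/-- Saturation: approximate pairs for all finite data give an exact pair. -/
lemma sq_saturate (S : Set (Sq (hyperfilter ℕ) F)) (hS : S.Countable)
    (h : ∀ S' : Finset (Sq (hyperfilter ℕ) F), (S' : Set (Sq (hyperfilter ℕ) F)) ⊆ S →
      ∀ E : Finset G, ∀ ε : ℝ, 0 < ε →
        ∃ U b, ApproxPair (sqT (hyperfilter ℕ) F) (sqAct hinv hmul hone) S S' E ε U b) :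
    ∃ U b, ExactPair (sqT (hyperfilter ℕ) F) (sqAct hinv hmul hone) S U b := by
  classical
  obtain ⟨ES, hES1, hES2⟩ := exists_exhaust hS
  obtain ⟨EG, -, hEG⟩ := exists_exhaust (Set.countable_univ (α := G))
  choose U b hUb using fun m : ℕ => h (ES m) (hES1 m) (EG m) ((m : ℝ) + 1)⁻¹ (by positivity)
  choose u hus hup hun using fun m => exists_rep_sa (hyperfilter ℕ) F (hUb m).sa one_pos
  choose β hβp hβn using fun m => exists_rep (hyperfilter ℕ) F (b m) one_pos
  have hu2 : ∀ m, ‖u m‖ ≤ 2 := fun m => (hun m).trans (by linarith [(hUb m).norm_le])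
  have hβ2 : ∀ m, ‖β m‖ ≤ 2 := fun m =>
    (hβn m).trans (by linarith [norm_le_one_of_star_mul_self (hUb m).unit_left])
  let r := rep (hyperfilter ℕ) F
  let W : ℕ → Set ℕ := fun m => {n |
    (Small F.T ((u m * u m - 1) n) (2 * ((m : ℝ) + 1)⁻¹) ∧
      Small F.T ((star (β m) * β m - 1) n) (2 * ((m : ℝ) + 1)⁻¹) ∧
      Small F.T ((β m * star (β m) - 1) n) (2 * ((m : ℝ) + 1)⁻¹)) ∧
    (∀ s ∈ ES m, Small F.T ((u m * r s - r s * u m) n) (2 * ((m : ℝ) + 1)⁻¹) ∧
      Small F.T ((β m * r s - r s * β m) n) (2 * ((m : ℝ) + 1)⁻¹) ∧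
      (∀ τ ∈ F.T, ‖τ ((r s * u m) n)‖ ≤ 2 * ((m : ℝ) + 1)⁻¹) ∧
      ∀ τ ∈ F.T, ‖τ ((r s * (u m * β m * u m * star (β m))) n)‖ ≤ 2 * ((m : ℝ) + 1)⁻¹) ∧
    ∀ g ∈ EG m, Small F.T ((cmp (α g) (u m) - u m) n) (2 * ((m : ℝ) + 1)⁻¹)}
  have hW : ∀ m, ∀ᶠ n in ((hyperfilter ℕ) : Filter ℕ), n ∈ W m := by
    intro m
    have he : 0 < ((m : ℝ) + 1)⁻¹ := by positivity
    have h2 : 2 * ((m : ℝ) + 1)⁻¹ = ((m : ℝ) + 1)⁻¹ + ((m : ℝ) + 1)⁻¹ := two_mul _
    have hz : ∀ c, proj (hyperfilter ℕ) F c = 0 →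
        ∀ᶠ n in ((hyperfilter ℕ) : Filter ℕ), Small F.T (c n) (2 * ((m : ℝ) + 1)⁻¹) :=
      fun c hc => (proj_eq_zero_iff (hyperfilter ℕ) F c).1 hc _ (mul_pos two_pos he)
    refine (Eventually.and ?_ (Eventually.and ?_ ?_))
    · refine (Eventually.and ?_ (Eventually.and ?_ ?_))
      · rw [h2]
        refine eventually_small_of_sqT ?_ he
        rw [map_sub, map_mul, map_one, hup]
        exact (hUb m).sq
      · exact hz _ (by rw [map_sub, map_mul, map_one, map_star, hβp, (hUb m).unit_left, sub_self])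
      · exact hz _ (by rw [map_sub, map_mul, map_one, map_star, hβp, (hUb m).unit_right, sub_self])
    · refine (eventually_all_finset (ES m)).2 fun s hs => ?_
      refine (Eventually.and ?_ (Eventually.and ?_ (Eventually.and ?_ ?_)))
      · exact hz _ (by rw [map_sub, map_mul, map_mul, hup, proj_rep,
          ((hUb m).comm_U s (hES1 m hs)).eq, sub_self])
      · exact hz _ (by rw [map_sub, map_mul, map_mul, hβp, proj_rep,
          ((hUb m).comm_b s (hES1 m hs)).eq, sub_self])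
      · rw [h2]
        refine eventually_norm_le_of_sqT (fun σ hσ => ?_) he
        rw [map_mul (proj (hyperfilter ℕ) F), proj_rep, hup]
        exact (hUb m).fair σ hσ s hs
      · rw [h2]
        refine eventually_norm_le_of_sqT (fun σ hσ => ?_) he
        simp only [map_mul (proj (hyperfilter ℕ) F), map_star (proj (hyperfilter ℕ) F), proj_rep, hup, hβp, r]
        exact (hUb m).orth σ hσ s hs
    · refine (eventually_all_finset (EG m)).2 fun g hg => ?_
      rw [h2]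
      refine eventually_small_of_sqT ?_ he
      rw [map_sub, ← sqAct_proj hinv hmul hone, hup]
      exact (hUb m).inv g hg
  obtain ⟨φ, hφ⟩ := exists_diag W hW
  set V : ℕ →ᵇ A := bseq (fun n => u (φ n) n) 2 fun n =>
    ((u (φ n)).norm_coe_le_norm n).trans (hu2 _) with hV
  set Y : ℕ →ᵇ A := bseq (fun n => β (φ n) n) 2 fun n =>
    ((β (φ n)).norm_coe_le_norm n).trans (hβ2 _) with hY
  have hk : ∀ k : ℕ, ∀ᶠ n in ((hyperfilter ℕ) : Filter ℕ),
      2 * ((φ n : ℝ) + 1)⁻¹ ≤ 2 * ((k : ℝ) + 1)⁻¹ ∧ n ∈ W (φ n) := fun k =>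
    (hφ k).mono fun n hn => ⟨mul_le_mul_of_nonneg_left (inv_succ_le hn.1) two_pos.le, hn.2⟩
  have hmem : ∀ s ∈ S, ∀ k : ℕ, ∀ᶠ n in ((hyperfilter ℕ) : Filter ℕ),
      2 * ((φ n : ℝ) + 1)⁻¹ ≤ 2 * ((k : ℝ) + 1)⁻¹ ∧ n ∈ W (φ n) ∧ s ∈ ES (φ n) := by
    intro s hs k
    obtain ⟨k₀, hk₀⟩ := eventually_atTop.1 (hES2 s hs)
    filter_upwards [hk k, hφ k₀] with n h1 h2
    exact ⟨h1.1, h1.2, hk₀ _ h2.1⟩
  refine ⟨proj (hyperfilter ℕ) F V, proj (hyperfilter ℕ) F Y, ⟨?_, ?_, ?_, ?_, ?_, ?_, ?_, ?_, ?_⟩⟩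
  · exact (bseq_isSelfAdjoint _ fun n => star_apply_of_isSelfAdjoint (hus _) n).map _
  · rw [← map_mul, ← map_one (proj (hyperfilter ℕ) F), proj_eq_iff]
    exact null_of_rate 2 fun k => (hk k).mono fun n hn => hn.2.1.1.mono hn.1
  · rw [← map_star, ← map_mul, ← map_one (proj (hyperfilter ℕ) F), proj_eq_iff]
    exact null_of_rate 2 fun k => (hk k).mono fun n hn => hn.2.1.2.1.mono hn.1
  · rw [← map_star, ← map_mul, ← map_one (proj (hyperfilter ℕ) F), proj_eq_iff]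
    exact null_of_rate 2 fun k => (hk k).mono fun n hn => hn.2.1.2.2.mono hn.1
  · intro s hs
    rw [commute_iff_eq, ← proj_rep (hyperfilter ℕ) F s, ← map_mul, ← map_mul, proj_eq_iff]
    exact null_of_rate 2 fun k => (hmem s hs k).mono fun n hn => (hn.2.1.2.1 s hn.2.2).1.mono hn.1
  · intro s hs
    rw [commute_iff_eq, ← proj_rep (hyperfilter ℕ) F s, ← map_mul, ← map_mul, proj_eq_iff]
    exact null_of_rate 2 fun k => (hmem s hs k).mono fun n hn =>
      (hn.2.1.2.1 s hn.2.2).2.1.mono hn.1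
  · intro g
    rw [sqAct_proj hinv hmul hone, proj_eq_iff]
    obtain ⟨k₀, hk₀⟩ := eventually_atTop.1 (hEG g (Set.mem_univ g))
    refine null_of_rate 2 fun k => ?_
    filter_upwards [hk k, hφ k₀] with n h1 h2
    exact (h1.2.2.2 g (hk₀ _ h2.1)).mono h1.1
  · intro σ hσ s hs
    rw [← proj_rep (hyperfilter ℕ) F s, ← map_mul]
    exact sqT_apply_eq_zero_of_rate 2 (fun k => (hmem s hs k).mono fun n hn τ hτ =>
      ((hn.2.1.2.1 s hn.2.2).2.2.1 τ hτ).trans hn.1) σ hσ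
  · intro σ hσ s hs
    rw [← proj_rep (hyperfilter ℕ) F s, ← map_star, ← map_mul, ← map_mul, ← map_mul, ← map_mul]
    exact sqT_apply_eq_zero_of_rate 2 (fun k => (hmem s hs k).mono fun n hn τ hτ =>
      ((hn.2.1.2.1 s hn.2.2).2.2.2 τ hτ).trans hn.1) σ hσ

/-- The working setting on the sequence algebra. -/
def sqCfg (hM : UniformMcDuff F.T) : Cfg G (Sq (hyperfilter ℕ) F) where
  T := sqT (hyperfilter ℕ) F
  tr := isTr_of_mem_sqT
  act := sqAct hinv hmul hone
  act_mul g h x := by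
    obtain ⟨a, rfl⟩ := proj_surjective _ F x
    rw [sqAct_proj, sqAct_proj, sqAct_proj]
    congr 1
    ext n
    simp [cmp_apply, hmul]
  act_one x := by
    obtain ⟨a, rfl⟩ := proj_surjective _ F x
    rw [sqAct_proj]
    congr 1
    ext n
    simp [cmp_apply, hone]
  inv := sqT_inv hinv hmul hone
  faithful _ h := sq_faithful h
  units := sq_units hM
  saturate := sq_saturate hinv hmul hone

end Saturate

/-- Scaling an element of norm at most 1+η into the unit ball. -/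
lemma exists_scale {η : ℝ} (hη : 0 ≤ η) :
    ∃ t : ℝ, 0 ≤ t ∧ t ≤ 1 ∧ 1 - t * t ≤ 2 * η ∧ t * (1 + η) ≤ 1 := by
  refine ⟨(1 + η)⁻¹, by positivity, inv_le_one_of_one_le₀ (by linarith), ?_, ?_⟩
  · have h : (1 + η) * (1 + η)⁻¹ = 1 := mul_inv_cancel₀ (by linarith)
    have h0 : 0 ≤ (1 + η)⁻¹ := by positivity
    have h1 : (1 + η)⁻¹ ≤ 1 := inv_le_one_of_one_le₀ (by linarith)
    nlinarith
  · rw [inv_mul_cancel₀ (by linarith)]

/-- Module Reduce. -/
theorem reduce_ok : ReduceStatement.{u, v} := by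
  intro G _ _ A _ T hT α hmul hone hinv hM H S E δ hδ
  classical
  set F : TrFam A := ⟨T, hT⟩
  set ω := hyperfilter ℕ
  let c : Cfg G (Sq ω F) := sqCfg (F := F) hinv hmul hone hM
  set S₁ : Set (Sq ω F) := (fun s => proj ω F (cst s)) '' (S : Set A)
  obtain ⟨x, z, hx, hz, hxn, hzn, hcomm, hxx, hzz, hxz, hEinv⟩ :=
    H (Sq ω F) c S₁ (S.countable_toSet.image _) E (δ / 4) (by positivity)
  set η : ℝ := δ / 8 with hη_def
  have hη : 0 < η := by positivity
  obtain ⟨a, has, hap, han⟩ := exists_rep_sa ω F hx hη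
  obtain ⟨b, hbs, hbp, hbn⟩ := exists_rep_sa ω F hz hη
  obtain ⟨t, ht0, ht1, ht2, ht3⟩ := exists_scale hη.le
  have h4 : 0 < δ / 4 := by positivity
  have hzero : ∀ e, proj ω F e = 0 → ∀ᶠ n in (ω : Filter ℕ), Small T (e n) (δ / 4) :=
    fun e he => (proj_eq_zero_iff ω F e).1 he _ h4
  have ev : ∀ᶠ n in (ω : Filter ℕ),
      (Small T ((a * a - 1) n) (δ / 4 + δ / 4) ∧ Small T ((b * b - 1) n) (δ / 4 + δ / 4) ∧
        Small T ((a * b + b * a) n) (δ / 4 + δ / 4)) ∧
      (∀ s ∈ S, Small T ((a * cst s - cst s * a) n) (δ / 4) ∧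
        Small T ((b * cst s - cst s * b) n) (δ / 4)) ∧
      ∀ g ∈ E, Small T ((cmp (α g) a - a) n) (δ / 4 + δ / 4) ∧
        Small T ((cmp (α g) b - b) n) (δ / 4 + δ / 4) := by
    refine Eventually.and (Eventually.and ?_ (Eventually.and ?_ ?_)) (Eventually.and ?_ ?_)
    · exact eventually_small_of_sqT (F := F) (by rw [map_sub, map_mul, map_one, hap]; exact hxx) h4
    · exact eventually_small_of_sqT (F := F) (by rw [map_sub, map_mul, map_one, hbp]; exact hzz) h4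
    · exact eventually_small_of_sqT (F := F) (by
        rw [map_add, map_mul, map_mul, hap, hbp]; exact hxz) h4
    · refine (eventually_all_finset S).2 fun s hs => ?_
      have hs' := hcomm _ (Set.mem_image_of_mem _ hs)
      exact (hzero _ (by rw [map_sub, map_mul, map_mul, hap, hs'.1.eq, sub_self])).and
        (hzero _ (by rw [map_sub, map_mul, map_mul, hbp, hs'.2.eq, sub_self]))
    · refine (eventually_all_finset E).2 fun g hg => ?_
      refine (eventually_small_of_sqT (F := F) ?_ h4).and (eventually_small_of_sqT (F := F) ?_ h4)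
      · rw [map_sub, ← sqAct_proj (F := F) hinv hmul hone, hap]; exact (hEinv g hg).1
      · rw [map_sub, ← sqAct_proj (F := F) hinv hmul hone, hbp]; exact (hEinv g hg).2
  obtain ⟨n, ⟨haa, hbb, hab⟩, hcS, hcE⟩ := ev.exists
  have hball : ∀ e : ℕ →ᵇ A, ‖e‖ ≤ 1 + η → ‖t • e n‖ ≤ 1 := fun e he => by
    rw [norm_smul, Real.norm_eq_abs, abs_of_nonneg ht0]
    exact (mul_le_mul_of_nonneg_left ((e.norm_coe_le_norm n).trans he) ht0).trans ht3
  have hscale : ∀ {e : A} {r : ℝ}, Small T e r → ∀ s : ℝ, 0 ≤ s → s ≤ 1 → Small T (s • e) r := by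
    intro e r he s hs0 hs1 τ hτ
    rw [(hT τ hτ).sn_smul_real, abs_of_nonneg hs0]
    exact (mul_le_of_le_one_left (sn_nonneg _) hs1).trans (he τ hτ)
  have htt : t * t ≤ 1 := mul_le_one₀ ht1 ht0 ht1
  have hsq : ∀ {e : A}, Small T (e * e - 1) (δ / 4 + δ / 4) →
      Small T ((t • e) * (t • e) - 1) δ := by
    intro e he τ hτ
    rw [show (t • e) * (t • e) - 1 = (t * t) • (e * e - 1) - (1 - t * t) • (1 : A) by
      rw [smul_mul_smul_comm, smul_sub, sub_smul, one_smul]; abel]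
    refine ((hT τ hτ).sn_sub_le _ _).trans ?_
    rw [(hT τ hτ).sn_smul_real (1 - t * t), (hT τ hτ).sn_one, mul_one,
      abs_of_nonneg (sub_nonneg.2 htt)]
    have := hscale he (t * t) (mul_nonneg ht0 ht0) htt τ hτ
    linarith
  have hα : ∀ (g : G) (e : A), α g (t • e) = t • α g e := fun g e => by
    rw [← Complex.coe_smul, map_smul, Complex.coe_smul]
  refine ⟨t • a n, t • b n, (IsSelfAdjoint.all t).smul (star_apply_of_isSelfAdjoint has n),
    (IsSelfAdjoint.all t).smul (star_apply_of_isSelfAdjoint hbs n),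
    hball a (han.trans (by linarith)), hball b (hbn.trans (by linarith)), hsq haa, hsq hbb, ?_,
    fun s hs => ⟨?_, ?_⟩, fun g hg => ⟨?_, ?_⟩⟩
  · rw [smul_mul_smul_comm, smul_mul_smul_comm, ← smul_add]
    exact (hscale hab _ (mul_nonneg ht0 ht0) htt).mono (by linarith)
  · rw [br, smul_mul_assoc, mul_smul_comm, ← smul_sub]
    exact (hscale (hcS s hs).1 t ht0 ht1).mono (by linarith)
  · rw [br, smul_mul_assoc, mul_smul_comm, ← smul_sub]
    exact (hscale (hcS s hs).2 t ht0 ht1).mono (by linarith)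
  · rw [hα, ← smul_sub]
    exact (hscale (hcE g hg).1 t ht0 ht1).mono (by linarith)
  · rw [hα, ← smul_sub]
    exact (hscale (hcE g hg).2 t ht0 ht1).mono (by linarith)

end Vale.Agent.P095
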