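import Mathlib
import Vale.Agent.P095.Defs
import Vale.Agent.P095.Basic

/-!
From an almost Haar distributed unitary group to an almost symmetry: odd sign polynomials applied
to the sine.
-/

noncomputable section

open Filter Topology Polynomial
open scoped CStarAlgebra

namespace Vale.Agent.P095

universe u

attribute [local instance] CStarAlgebra.spectralOrder CStarAlgebra.spectralOrderedRing

variable {A : Type u} [CStarAlgebra A]

/-- The unitary group of a self-adjoint element. -/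
def ex (T : A) (t : ℝ) : A := NormedSpace.exp ((Complex.I * t) • T)

/-- The sine. -/
def sinEl (T : A) (w : ℝ) : A := ((2 : ℂ) * Complex.I)⁻¹ • (ex T w - ex T (-w))

/-- The cosine. -/
def cosEl (T : A) (w : ℝ) : A := (2 : ℂ)⁻¹ • (ex T w + ex T (-w))

lemma ex_zero (T : A) : ex T 0 = 1 := by
  simp [ex, NormedSpace.exp_zero]

lemma ex_add (T : A) (a b : ℝ) : ex T (a + b) = ex T a * ex T b := by
  rw [ex, ex, ex, Complex.ofReal_add, mul_add, add_smul]
  let +nondep : NormedAlgebra ℚ A := .restrictScalars ℚ ℂ A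
  exact NormedSpace.exp_add_of_commute (((Commute.refl T).smul_left _).smul_right _)

lemma star_ex {T : A} (hT : IsSelfAdjoint T) (t : ℝ) : star (ex T t) = ex T (-t) := by
  rw [ex, ex, NormedSpace.star_exp, star_smul, hT.star_eq, star_mul', ← starRingEnd_apply,
    ← starRingEnd_apply, Complex.conj_I, Complex.conj_ofReal, Complex.ofReal_neg, neg_mul, mul_neg]

lemma ex_mul_neg (T : A) (t : ℝ) : ex T t * ex T (-t) = 1 := by
  rw [← ex_add, add_neg_cancel, ex_zero]

lemma ex_neg_mul (T : A) (t : ℝ) : ex T (-t) * ex T t = 1 := by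
  rw [← ex_add, neg_add_cancel, ex_zero]

lemma ex_nat_mul (T : A) (t : ℝ) (n : ℕ) : ex T (n * t) = ex T t ^ n := by
  induction n with
  | zero => simp [ex_zero]
  | succ n ih =>
    rw [pow_succ, ← ih, ← ex_add]
    congr 1
    push_cast; ring

lemma norm_ex_le {T : A} (hT : IsSelfAdjoint T) (t : ℝ) : ‖ex T t‖ ≤ 1 := by
  refine (sq_le_one_iff₀ (norm_nonneg _)).1 ?_
  rw [sq, ← CStarRing.norm_star_mul_self, star_ex hT, ex_neg_mul]
  rcases subsingleton_or_nontrivial A with _ | _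
  · rw [Subsingleton.elim (1 : A) 0, norm_zero]; exact zero_le_one
  · rw [norm_one]

lemma map_ex {B : Type u} [CStarAlgebra B] (f : A →⋆ₐ[ℂ] B) (T : A) (t : ℝ) :
    f (ex T t) = ex (f T) t := by
  let +nondep : NormedAlgebra ℚ A := .restrictScalars ℚ ℂ A
  let +nondep : NormedAlgebra ℚ B := .restrictScalars ℚ ℂ B
  rw [ex, ex, ← map_smul]
  exact NormedSpace.map_exp f (map_continuous f) _

lemma commute_ex {x T : A} (h : Commute x T) (t : ℝ) : Commute x (ex T t) :=
  (h.smul_right _).exp_right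

lemma isSelfAdjoint_sinEl {T : A} (hT : IsSelfAdjoint T) (w : ℝ) : IsSelfAdjoint (sinEl T w) := by
  rw [isSelfAdjoint_iff, sinEl, star_smul, star_sub, star_ex hT, star_ex hT, neg_neg,
    ← neg_sub (ex T w), smul_neg, ← neg_smul]
  congr 1
  rw [← starRingEnd_apply, map_inv₀, map_mul, Complex.conj_I, map_ofNat]
  simp [inv_neg]

lemma norm_sinEl_le {T : A} (hT : IsSelfAdjoint T) (w : ℝ) : ‖sinEl T w‖ ≤ 1 := by
  rw [sinEl, norm_smul]
  have h := (norm_sub_le (ex T w) (ex T (-w))).trans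
    (add_le_add (norm_ex_le hT w) (norm_ex_le hT (-w)))
  simp
  linarith

lemma one_sub_sinEl_sq (T : A) (w : ℝ) : 1 - sinEl T w ^ 2 = cosEl T w ^ 2 := by
  rw [sinEl, cosEl, _root_.smul_pow, _root_.smul_pow, sub_eq_iff_eq_add]
  have h1 : (((2 : ℂ) * Complex.I)⁻¹) ^ 2 = -((2 : ℂ)⁻¹ ^ 2) := by
    rw [mul_inv, mul_pow, Complex.inv_I, neg_sq, Complex.I_sq]; ring
  rw [h1, neg_smul, ← sub_eq_add_neg, ← smul_sub]
  have h2 : (ex T w + ex T (-w)) ^ 2 - (ex T w - ex T (-w)) ^ 2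
      = 2 • (ex T w * ex T (-w)) + 2 • (ex T (-w) * ex T w) := by noncomm_ring
  rw [h2, ex_mul_neg, ex_neg_mul, ← add_smul, ← Nat.cast_smul_eq_nsmul ℂ, smul_smul]
  norm_num

/-- The pairing of an element with powers of a symmetrised exponential. -/
lemma pairing_pow (τ : A →ₗ[ℂ] ℂ) (T : A) (w : ℝ) (σ : ℂ) (hσ : ‖σ‖ = 1) (y : A) (n : ℕ)
    {η : ℝ} (hη0 : 0 ≤ η)
    (hη : ∀ k : ℤ, k ≠ 0 → k.natAbs ≤ n → ‖τ (y * ex T (k * w))‖ ≤ η) :
    ‖τ (y * (ex T w + σ • ex T (-w)) ^ n)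
        - ∑ k ∈ (Finset.range (n + 1)).filter (fun k => 2 * k = n),
            (n.choose k : ℂ) * σ ^ (n - k) * τ y‖ ≤ 2 ^ n * η := by
  have hc : Commute (ex T w) (σ • ex T (-w)) := by
    refine Commute.smul_right ?_ _
    rw [Commute, SemiconjBy, ← ex_add, ← ex_add, add_comm]
  have hterm : ∀ k ∈ Finset.range (n + 1),
      τ (y * (ex T w ^ k * (σ • ex T (-w)) ^ (n - k) * (n.choose k : A)))
        = (n.choose k : ℂ) * σ ^ (n - k) * τ (y * ex T (((2 * k - n : ℤ) : ℝ) * w)) := by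
    intro k hk
    have hk' : k ≤ n := Nat.lt_succ_iff.1 (Finset.mem_range.1 hk)
    have e : ex T w ^ k * ex T (-w) ^ (n - k) = ex T (((2 * k - n : ℤ) : ℝ) * w) := by
      rw [← ex_nat_mul, ← ex_nat_mul, ← ex_add]
      congr 1
      push_cast [Nat.cast_sub hk']
      ring
    rw [_root_.smul_pow, mul_smul_comm, e, ← (Nat.cast_commute (n.choose k) _).eq,
      ← nsmul_eq_mul, smul_comm, mul_smul_comm, mul_smul_comm, map_smul, map_nsmul, smul_eq_mul,
      nsmul_eq_mul]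
    ring
  rw [hc.add_pow, Finset.mul_sum, map_sum, Finset.sum_congr rfl hterm,
    ← Finset.sum_filter_add_sum_filter_not (Finset.range (n + 1)) (fun k => 2 * k = n)]
  have h0 : ∀ k ∈ (Finset.range (n + 1)).filter (fun k => 2 * k = n),
      (n.choose k : ℂ) * σ ^ (n - k) * τ (y * ex T (((2 * k - n : ℤ) : ℝ) * w))
        = (n.choose k : ℂ) * σ ^ (n - k) * τ y := by
    intro k hk
    have hk2 : (2 * k - n : ℤ) = 0 := by
      have := (Finset.mem_filter.1 hk).2
      omega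
    rw [hk2, Int.cast_zero, zero_mul, ex_zero, mul_one]
  rw [Finset.sum_congr rfl h0, add_sub_cancel_left]
  refine (norm_sum_le _ _).trans ?_
  calc ∑ k ∈ (Finset.range (n + 1)).filter (fun k => ¬2 * k = n),
        ‖(n.choose k : ℂ) * σ ^ (n - k) * τ (y * ex T (((2 * k - n : ℤ) : ℝ) * w))‖
      ≤ ∑ k ∈ (Finset.range (n + 1)).filter (fun k => ¬2 * k = n), (n.choose k : ℝ) * η := by
        refine Finset.sum_le_sum fun k hk => ?_
        rw [norm_mul, norm_mul, norm_pow, hσ, one_pow, mul_one, Complex.norm_natCast]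
        refine mul_le_mul_of_nonneg_left (hη _ ?_ ?_) (Nat.cast_nonneg _)
        · have := (Finset.mem_filter.1 hk).2
          omega
        · have := Finset.mem_range.1 (Finset.mem_filter.1 hk).1
          omega
    _ ≤ 2 ^ n * η := by
        rw [← Finset.sum_mul]
        refine mul_le_mul_of_nonneg_right ?_ hη0
        refine (Finset.sum_le_sum_of_subset_of_nonneg (Finset.filter_subset _ _)
          fun k _ _ => Nat.cast_nonneg _).trans (le_of_eq ?_)
        exact_mod_cast Nat.sum_range_choose n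

/-- The iterates of the cubic sign map. -/
def signPoly : ℕ → ℝ[X]
  | 0 => X
  | n + 1 => (C (3 / 2 : ℝ) * X - C (1 / 2 : ℝ) * X ^ 3).comp (signPoly n)

lemma eval_signPoly_succ (n : ℕ) (x : ℝ) :
    (signPoly (n + 1)).eval x
      = 3 / 2 * (signPoly n).eval x - 1 / 2 * (signPoly n).eval x ^ 3 := by
  simp [signPoly]

lemma eval_signPoly_neg (n : ℕ) (x : ℝ) : (signPoly n).eval (-x) = -(signPoly n).eval x := by
  induction n with
  | zero => simp [signPoly]
  | succ n ih => rw [eval_signPoly_succ, eval_signPoly_succ, ih]; ring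

lemma signPoly_coeff_even (n k : ℕ) (hk : Even k) : (signPoly n).coeff k = 0 := by
  have h : (signPoly n).comp (C (-1) * X) = -signPoly n :=
    Polynomial.funext fun x => by simp [eval_signPoly_neg]
  have := congrArg (fun p => p.coeff k) h
  simp only [comp_C_mul_X_coeff, coeff_neg, hk.neg_one_pow, mul_one] at this
  linarith

lemma abs_signPoly_le (n : ℕ) {x : ℝ} (hx : |x| ≤ 1) : |(signPoly n).eval x| ≤ 1 := by
  induction n with
  | zero => simpa [signPoly] using hx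
  | succ n ih =>
    rw [eval_signPoly_succ]
    obtain ⟨h1, h2⟩ := abs_le.1 ih
    set a := (signPoly n).eval x
    exact abs_le.2 ⟨by nlinarith [mul_nonneg (sq_nonneg (a + 1)) (sub_nonneg.2 (show a ≤ 2 by linarith))],
      by nlinarith [mul_nonneg (sq_nonneg (a - 1)) (show (0 : ℝ) ≤ a + 2 by linarith)]⟩

lemma one_sub_signPoly_le (n : ℕ) {δ x : ℝ} (hδ : 0 < δ) (hx : δ ≤ x) (hx1 : x ≤ 1) :
    δ ≤ (signPoly n).eval x ∧ (signPoly n).eval x ≤ 1 ∧
      1 - (signPoly n).eval x ≤ ((2 - δ - δ ^ 2) / 2) ^ n := by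
  induction n with
  | zero => simp [signPoly]; exact ⟨hx, hx1, by linarith⟩
  | succ n ih =>
    obtain ⟨h1, h2, h3⟩ := ih
    rw [eval_signPoly_succ]
    set a := (signPoly n).eval x
    have ha : 1 - (3 / 2 * a - 1 / 2 * a ^ 3) = (1 - a) * ((2 - a - a ^ 2) / 2) := by ring
    have ha2 : 3 / 2 * a - 1 / 2 * a ^ 3 - a = a * (1 - a ^ 2) / 2 := by ring
    have hq0 : 0 ≤ (2 - a - a ^ 2) / 2 := by nlinarith
    have hq : (2 - a - a ^ 2) / 2 ≤ (2 - δ - δ ^ 2) / 2 := by nlinarith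
    refine ⟨?_, ?_, ?_⟩
    · nlinarith [mul_nonneg (hδ.le.trans h1) (show (0 : ℝ) ≤ 1 - a ^ 2 by nlinarith)]
    · nlinarith [mul_nonneg (sub_nonneg.2 h2) hq0]
    · rw [ha, pow_succ]
      exact mul_le_mul h3 hq hq0 ((sub_nonneg.2 h2).trans h3)

lemma centralBinom_sq_le (m : ℕ) : (m.centralBinom : ℝ) ^ 2 * (2 * m + 1) ≤ 16 ^ m := by
  induction m with
  | zero => simp
  | succ m ih =>
    have h : ((m : ℝ) + 1) * (m + 1).centralBinom = 2 * (2 * m + 1) * m.centralBinom := by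
      exact_mod_cast Nat.succ_mul_centralBinom_succ m
    have hm : (0 : ℝ) < (m : ℝ) + 1 := by positivity
    refine le_of_mul_le_mul_left ?_ (pow_pos hm 2)
    calc ((m : ℝ) + 1) ^ 2 * (((m + 1).centralBinom : ℝ) ^ 2 * (2 * (m + 1 : ℕ) + 1))
        = (((m : ℝ) + 1) * (m + 1).centralBinom) ^ 2 * (2 * m + 3) := by push_cast; ring
      _ = 4 * ((2 * (m : ℝ) + 1) * (2 * m + 3)) * ((m.centralBinom : ℝ) ^ 2 * (2 * m + 1)) := by
          rw [h]; ring
      _ ≤ 4 * (4 * ((m : ℝ) + 1) ^ 2) * 16 ^ m := by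
          refine mul_le_mul ?_ ih (by positivity) (by positivity)
          nlinarith
      _ = ((m : ℝ) + 1) ^ 2 * 16 ^ (m + 1) := by ring

/-- For every ε there is an odd sign polynomial whose value at the sine is an almost symmetry as
soon as finitely many moments of the exponential are small. -/
theorem exists_sign_poly {ε : ℝ} (hε : 0 < ε) : ∃ p : ℝ[X], ∃ d : ℕ,
    (∀ n, Even n → p.coeff n = 0) ∧ (∀ x : ℝ, |x| ≤ 1 → |p.eval x| ≤ 1) ∧ ∃ M : ℝ, 0 ≤ M ∧
      ∀ (B : Type u) [CStarAlgebra B] (τ : B →ₗ[ℂ] ℂ), IsTr τ → ∀ (T : B), IsSelfAdjoint T →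
        ∀ (w η : ℝ), 0 ≤ η →
          (∀ k : ℤ, k ≠ 0 → k.natAbs ≤ d → ‖τ (ex T (k * w))‖ ≤ η) →
          sn τ (aeval (sinEl T w) p * aeval (sinEl T w) p - 1) ^ 2 ≤ ε + M * η := by
  obtain ⟨m, hm⟩ := exists_nat_gt (16 / ε ^ 2)
  have hm0 : 0 < m := by
    by_contra h
    simp only [not_lt, Nat.le_zero] at h
    rw [h, Nat.cast_zero] at hm
    linarith [show (0 : ℝ) < 16 / ε ^ 2 by positivity]
  set δ : ℝ := Real.sqrt (1 / (2 * m))
  have hmR : (1 : ℝ) ≤ m := by exact_mod_cast hm0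
  have hδ : 0 < δ := Real.sqrt_pos.2 (by positivity)
  have hδ2 : δ ^ 2 = 1 / (2 * m) := Real.sq_sqrt (by positivity)
  have hδ1 : δ ≤ 1 := by
    refine (sq_le_one_iff₀ hδ.le).1 ?_
    rw [hδ2, div_le_one (by positivity)]; linarith
  have hq : (2 - δ - δ ^ 2) / 2 < 1 := by nlinarith
  have hq0 : 0 ≤ (2 - δ - δ ^ 2) / 2 := by nlinarith
  obtain ⟨n, hn⟩ := exists_pow_lt_of_lt_one (show 0 < min (Real.sqrt (ε / 8)) 1 from
    lt_min (Real.sqrt_pos.2 (by positivity)) one_pos) hq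
  refine ⟨signPoly n, 2 * m, fun k hk => signPoly_coeff_even n k hk,
    fun x hx => abs_signPoly_le n hx, 2, zero_le_two, fun B _ τ hτ T hT w η hη0 hη => ?_⟩
  set s := sinEl T w
  have hs := isSelfAdjoint_sinEl hT w
  have hnorm := norm_sinEl_le hT w
  set p := signPoly n
  have hpt : ∀ x : ℝ, |x| ≤ 1 →
      (p.eval x * p.eval x - 1) ^ 2 ≤ ε / 2 + 2 * (1 - x ^ 2) ^ m := by
    intro x hx
    have hp := abs_le.1 (abs_signPoly_le n hx)
    have hx2 : 0 ≤ 1 - x ^ 2 := by nlinarith [abs_le.1 hx]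
    rcases le_total δ |x| with h | h
    · have hb := one_sub_signPoly_le n hδ h hx
      have e : p.eval x * p.eval x = p.eval |x| * p.eval |x| := by
        rcases abs_choice x with h' | h' <;> rw [h']
        rw [eval_signPoly_neg]; ring
      rw [e]
      have hlt : 1 - p.eval |x| ≤ Real.sqrt (ε / 8) :=
        hb.2.2.trans (hn.le.trans (min_le_left _ _))
      have h1 : (1 - p.eval |x|) ^ 2 ≤ ε / 8 := by
        calc (1 - p.eval |x|) ^ 2 ≤ Real.sqrt (ε / 8) ^ 2 :=
              pow_le_pow_left₀ (sub_nonneg.2 hb.2.1) hlt 2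
          _ = ε / 8 := Real.sq_sqrt (by positivity)
      calc (p.eval |x| * p.eval |x| - 1) ^ 2
          = (1 - p.eval |x|) ^ 2 * (1 + p.eval |x|) ^ 2 := by ring
        _ ≤ ε / 8 * 4 := mul_le_mul h1 (by nlinarith [hb.1, hb.2.1]) (sq_nonneg _) (by positivity)
        _ ≤ ε / 2 + 2 * (1 - x ^ 2) ^ m := by
            have := pow_nonneg hx2 m
            linarith
    · have h1 : (p.eval x * p.eval x - 1) ^ 2 ≤ 1 :=
        (sq_le_one_iff_abs_le_one _).2 (abs_le.2 ⟨by nlinarith [mul_self_nonneg (p.eval x)],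
          by nlinarith [mul_nonneg (sub_nonneg.2 hp.2) (neg_le_iff_add_nonneg.1 hp.1)]⟩)
      have h2 : 1 + (m : ℝ) * (-(x ^ 2)) ≤ (1 + -(x ^ 2)) ^ m :=
        one_add_mul_le_pow (by nlinarith [abs_le.1 hx]) m
      have h3 : x ^ 2 ≤ 1 / (2 * m) := by
        rw [← hδ2, ← sq_abs x]
        exact pow_le_pow_left₀ (abs_nonneg x) h 2
      rw [le_div_iff₀ (by positivity)] at h3
      rw [← sub_eq_add_neg 1 (x ^ 2)] at h2
      nlinarith
  have hspec : ∀ x ∈ spectrum ℝ s, |x| ≤ 1 := fun x hx => by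
    simpa [Real.norm_eq_abs] using (spectrum.norm_le_norm_mul_of_mem hx).trans
      (le_trans (mul_le_mul_of_nonneg_left
        (show ‖(1 : B)‖ ≤ 1 by
          rcases subsingleton_or_nontrivial B with _ | _
          · rw [Subsingleton.elim (1 : B) 0, norm_zero]; exact zero_le_one
          · rw [norm_one]) (norm_nonneg _)) (by rw [mul_one]; exact hnorm))
  have hle : aeval s ((p * p - 1) ^ 2) ≤ aeval s (C (ε / 2) + C 2 * (1 - X ^ 2) ^ m) := by
    rw [← cfc_polynomial _ s hs, ← cfc_polynomial _ s hs]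
    exact cfc_mono fun x hx => by simpa using hpt x (hspec x hx)
  have hsa : IsSelfAdjoint (aeval s p * aeval s p - 1) := by
    have : IsSelfAdjoint (aeval s p) := by
      rw [← cfc_polynomial _ s hs]; exact cfc_predicate _ s
    rw [isSelfAdjoint_iff, star_sub, star_mul, this.star_eq, star_one]
  have e1 : star (aeval s p * aeval s p - 1) * (aeval s p * aeval s p - 1)
      = aeval s ((p * p - 1) ^ 2) := by
    rw [hsa.star_eq, ← sq]; simp
  rw [hτ.sq_sn, e1]
  refine (hτ.re_mono hle).trans ?_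
  have e2 : aeval s (C (ε / 2) + C 2 * (1 - X ^ 2) ^ m)
      = ((ε / 2 : ℝ) : ℂ) • (1 : B) + ((2 : ℝ) : ℂ) • cosEl T w ^ (2 * m) := by
    simp only [map_add, map_mul, map_pow, map_sub, map_one, aeval_X, aeval_C, s]
    rw [one_sub_sinEl_sq, ← pow_mul, Algebra.algebraMap_eq_smul_one,
      Algebra.algebraMap_eq_smul_one, smul_mul_assoc, one_mul, Complex.coe_smul, Complex.coe_smul]
  rw [e2, map_add, map_smul, map_smul, hτ.map_one, smul_eq_mul, smul_eq_mul, mul_one,
    Complex.add_re, Complex.ofReal_re, Complex.re_ofReal_mul]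
  have hb : ‖τ (cosEl T w ^ (2 * m))‖ ≤ (m.centralBinom : ℝ) / 4 ^ m + η := by
    have h := pairing_pow τ T w 1 norm_one 1 (2 * m) hη0
      (fun k hk hkn => by rw [one_mul]; exact hη k hk hkn)
    have hf : (Finset.range (2 * m + 1)).filter (fun k => 2 * k = 2 * m) = {m} := by
      ext k
      simp only [Finset.mem_filter, Finset.mem_range, Finset.mem_singleton]
      omega
    rw [hf, Finset.sum_singleton, one_smul, one_mul, one_pow, mul_one, hτ.map_one, mul_one] at h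
    rw [cosEl, _root_.smul_pow, map_smul, smul_eq_mul, norm_mul, norm_pow, norm_inv, Complex.norm_ofNat]
    have h2 : ((2 : ℝ)⁻¹) ^ (2 * m) = ((4 : ℝ) ^ m)⁻¹ := by
      rw [pow_mul, inv_pow, inv_pow]; norm_num
    have h4 : ((2 : ℝ)) ^ (2 * m) = 4 ^ m := by rw [pow_mul]; norm_num
    have h5 : (((2 * m).choose m : ℕ) : ℝ) = m.centralBinom := rfl
    have h3 := (norm_le_norm_add_norm_sub' (τ ((ex T w + ex T (-w)) ^ (2 * m)))
      (((2 * m).choose m : ℕ) : ℂ)).trans (add_le_add le_rfl h)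
    rw [Complex.norm_natCast, h5, h4] at h3
    rw [h2, ← div_eq_inv_mul, div_le_iff₀ (by positivity), add_mul, div_mul_cancel₀ _ (by positivity)]
    linarith
  have hcb : (m.centralBinom : ℝ) / 4 ^ m ≤ ε / 4 := by
    refine (pow_le_pow_iff_left₀ (by positivity) (by positivity) two_ne_zero).1 ?_
    have h := centralBinom_sq_le m
    have h16 : ((4 : ℝ) ^ m) ^ 2 = 16 ^ m := by rw [← pow_mul, mul_comm, pow_mul]; norm_num
    rw [div_pow, h16, div_le_iff₀ (by positivity)]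
    rw [div_lt_iff₀ (by positivity)] at hm
    nlinarith [show (0 : ℝ) ≤ (m.centralBinom : ℝ) ^ 2 from sq_nonneg _,
      show (0 : ℝ) < (16 : ℝ) ^ m by positivity]
  linarith [Complex.re_le_norm (τ (cosEl T w ^ (2 * m)))]

/-- Odd polynomials of the sine pair small with y if the moments do. -/
lemma norm_pairing_aeval_le (τ : A →ₗ[ℂ] ℂ) (T : A) (w : ℝ) {p : ℝ[X]}
    (hp : ∀ n, Even n → p.coeff n = 0) (y : A) {η : ℝ} (hη0 : 0 ≤ η)
    (hη : ∀ k : ℤ, k ≠ 0 → k.natAbs ≤ p.natDegree → ‖τ (y * ex T (k * w))‖ ≤ η) :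
    ‖τ (y * aeval (sinEl T w) p)‖ ≤ (∑ n ∈ p.support, |p.coeff n|) * η := by
  rw [aeval_def, eval₂_eq_sum, Polynomial.sum_def, Finset.mul_sum, map_sum, Finset.sum_mul]
  refine (norm_sum_le _ _).trans (Finset.sum_le_sum fun n hn => ?_)
  rw [← Algebra.smul_def, mul_smul_comm, ← Complex.coe_smul, map_smul, norm_smul, Complex.norm_real,
    Real.norm_eq_abs]
  refine mul_le_mul_of_nonneg_left ?_ (abs_nonneg _)
  have hodd : ¬Even n := fun h => (mem_support_iff.1 hn) (hp n h)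
  have hf : (Finset.range (n + 1)).filter (fun k => 2 * k = n) = ∅ :=
    Finset.filter_eq_empty_iff.2 fun k _ h => hodd ⟨k, by omega⟩
  have h := pairing_pow τ T w (-1) (by simp) y n hη0
    (fun k hk hkn => hη k hk (hkn.trans (le_natDegree_of_mem_supp n hn)))
  rw [hf, Finset.sum_empty, sub_zero, neg_one_smul, ← sub_eq_add_neg] at h
  rw [sinEl, _root_.smul_pow, mul_smul_comm, map_smul, norm_smul, norm_pow, norm_inv, norm_mul,
    Complex.norm_I, mul_one, Complex.norm_ofNat, inv_pow]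
  calc ((2 : ℝ) ^ n)⁻¹ * ‖τ (y * (ex T w - ex T (-w)) ^ n)‖
      ≤ ((2 : ℝ) ^ n)⁻¹ * (2 ^ n * η) := mul_le_mul_of_nonneg_left h (by positivity)
    _ = η := by field_simp

lemma IsTr.sn_pow_sub_le {τ : A →ₗ[ℂ] ℂ} (hτ : IsTr τ) {a b : A} (ha : ‖a‖ ≤ 1) (hb : ‖b‖ ≤ 1)
    (n : ℕ) : sn τ (a ^ n - b ^ n) ≤ n * sn τ (a - b) := by
  induction n with
  | zero => simp [hτ.sn_zero]
  | succ n ih =>
    have hbn : ‖b ^ n‖ ≤ 1 := by
      rcases subsingleton_or_nontrivial A with _ | _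
      · rw [Subsingleton.elim (b ^ n) 0, norm_zero]; exact zero_le_one
      · exact (norm_pow_le b n).trans (pow_le_one₀ (norm_nonneg _) hb)
    rw [show a ^ (n + 1) - b ^ (n + 1) = (a ^ n - b ^ n) * a + b ^ n * (a - b) by
      rw [pow_succ, pow_succ]; noncomm_ring]
    refine (hτ.sn_add_le _ _).trans ?_
    have h1 := (hτ.sn_mul_le_right (a ^ n - b ^ n) a).trans
      (mul_le_of_le_one_right (sn_nonneg _) ha)
    have h2 := (hτ.sn_mul_le_left (b ^ n) (a - b)).trans
      (mul_le_of_le_one_left (sn_nonneg _) hbn)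
    push_cast
    linarith

/-- Polynomials are Lipschitz on contractions for the two-norm. -/
lemma IsTr.sn_aeval_sub_le {τ : A →ₗ[ℂ] ℂ} (hτ : IsTr τ) {a b : A} (ha : ‖a‖ ≤ 1) (hb : ‖b‖ ≤ 1)
    (p : ℝ[X]) :
    sn τ (aeval a p - aeval b p) ≤ (∑ n ∈ p.support, |p.coeff n| * n) * sn τ (a - b) := by
  rw [aeval_def, aeval_def, eval₂_eq_sum, eval₂_eq_sum, Polynomial.sum_def, Polynomial.sum_def,
    ← Finset.sum_sub_distrib, Finset.sum_mul]
  refine (hτ.sn_sum_le _ _).trans (Finset.sum_le_sum fun n _ => ?_)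
  rw [← mul_sub, ← Algebra.smul_def, hτ.sn_smul_real, mul_assoc]
  exact mul_le_mul_of_nonneg_left (hτ.sn_pow_sub_le ha hb n) (abs_nonneg _)

/-- Values at self-adjoint contractions are self-adjoint contractions. -/
lemma aeval_contraction {s : A} (hs : IsSelfAdjoint s) (hn : ‖s‖ ≤ 1) {p : ℝ[X]}
    (hp : ∀ x : ℝ, |x| ≤ 1 → |p.eval x| ≤ 1) :
    IsSelfAdjoint (aeval s p) ∧ ‖aeval s p‖ ≤ 1 := by
  rw [← cfc_polynomial _ s hs]
  refine ⟨cfc_predicate _ s, norm_cfc_le zero_le_one fun x hx => ?_⟩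
  rw [Real.norm_eq_abs]
  refine hp x ?_
  rcases subsingleton_or_nontrivial A with _ | _
  · simp [spectrum.of_subsingleton] at hx
  · exact (Real.norm_eq_abs x) ▸ (spectrum.norm_le_norm_of_mem hx).trans hn

end Vale.Agent.P095
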