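import Mathlib
import Vale.Agent.P095.Defs

/-!
Evaluation of polynomials in matrix entries, and symmetrised linear combinations.
-/

noncomputable section

open Filter Topology

namespace Vale.Agent.P095

universe u v

variable {A : Type u} [CStarAlgebra A] {ι : Type v}

lemma evA_ι (K : ι → ι → A) (a b : ι) : evA K (FreeAlgebra.ι ℝ (a, b)) = K a b :=
  FreeAlgebra.lift_ι_apply _ _

lemma evR_ι (K : ι → ι → ℝ) (a b : ι) : evR K (FreeAlgebra.ι ℝ (a, b)) = K a b :=
  FreeAlgebra.lift_ι_apply _ _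

lemma br_mul (x y z : A) : br x (y * z) = br x y * z + y * br x z := by
  simp only [br]; noncomm_ring

/-- Norm and commutator bounds for evaluations. -/
lemma exists_evA_bound (p : Poly ι) (C : ℝ) : ∃ L : ℝ, 0 ≤ L ∧
    ∀ (B : Type u) [CStarAlgebra B] (K : ι → ι → B), (∀ a b, ‖K a b‖ ≤ C) →
      ‖evA K p‖ ≤ L ∧ ∀ (x : B) (δ : ℝ), 0 ≤ δ → (∀ a b, ‖br x (K a b)‖ ≤ δ) →
        ‖br x (evA K p)‖ ≤ L * δ := by
  induction p using FreeAlgebra.induction with
  | grade0 r =>
    refine ⟨|r|, abs_nonneg r, fun B _ K _ => ⟨?_, fun x δ hδ _ => ?_⟩⟩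
    · rw [AlgHom.commutes]
      rcases subsingleton_or_nontrivial B with _ | _
      · rw [Subsingleton.elim (algebraMap ℝ B r) 0, norm_zero]; exact abs_nonneg r
      · rw [norm_algebraMap', Real.norm_eq_abs]
    · rw [AlgHom.commutes, br, Algebra.commutes, sub_self, norm_zero]
      positivity
  | grade1 ab =>
    obtain ⟨a, b⟩ := ab
    refine ⟨max C 1, le_max_of_le_right zero_le_one, fun B _ K hK => ⟨?_, fun x δ hδ h => ?_⟩⟩
    · rw [evA_ι]; exact (hK a b).trans (le_max_left _ _)
    · rw [evA_ι]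
      exact (h a b).trans (le_mul_of_one_le_left hδ (le_max_right _ _))
  | mul p q hp hq =>
    obtain ⟨L, hL, hp⟩ := hp
    obtain ⟨M, hM, hq⟩ := hq
    refine ⟨max (L * M) (2 * L * M), le_max_of_le_left (mul_nonneg hL hM), fun B _ K hK => ?_⟩
    obtain ⟨hp1, hp2⟩ := hp B K hK
    obtain ⟨hq1, hq2⟩ := hq B K hK
    refine ⟨?_, fun x δ hδ h => ?_⟩
    · rw [map_mul]
      exact (norm_mul_le _ _).trans ((mul_le_mul hp1 hq1 (norm_nonneg _) hL).trans (le_max_left _ _))
    · rw [map_mul, br_mul]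
      refine (norm_add_le _ _).trans ?_
      calc ‖br x (evA K p) * evA K q‖ + ‖evA K p * br x (evA K q)‖
          ≤ L * δ * M + L * (M * δ) := add_le_add
            ((norm_mul_le _ _).trans (mul_le_mul (hp2 x δ hδ h) hq1 (norm_nonneg _) (by positivity)))
            ((norm_mul_le _ _).trans (mul_le_mul hp1 (hq2 x δ hδ h) (norm_nonneg _) hL))
        _ = 2 * L * M * δ := by ring
        _ ≤ max (L * M) (2 * L * M) * δ := mul_le_mul_of_nonneg_right (le_max_right _ _) hδ
  | add p q hp hq =>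
    obtain ⟨L, hL, hp⟩ := hp
    obtain ⟨M, hM, hq⟩ := hq
    refine ⟨L + M, add_nonneg hL hM, fun B _ K hK => ?_⟩
    obtain ⟨hp1, hp2⟩ := hp B K hK
    obtain ⟨hq1, hq2⟩ := hq B K hK
    refine ⟨?_, fun x δ hδ h => ?_⟩
    · rw [map_add]; exact (norm_add_le _ _).trans (add_le_add hp1 hq1)
    · rw [map_add, br, mul_add, add_mul, add_sub_add_comm, add_mul L M δ]
      exact (norm_add_le _ _).trans (add_le_add (hp2 x δ hδ h) (hq2 x δ hδ h))

/-- Homomorphisms commute with evaluation. -/
lemma map_evA {B : Type u} [CStarAlgebra B] (f : A →ₐ[ℂ] B) (K : ι → ι → A) (p : Poly ι) :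
    f (evA K p) = evA (fun a b => f (K a b)) p := by
  have h : (f.restrictScalars ℝ).comp (evA K) = evA (fun a b => f (K a b)) :=
    FreeAlgebra.hom_ext (funext fun ab => by
      obtain ⟨a, b⟩ := ab
      simp [evA_ι])
  exact AlgHom.congr_fun h p

/-- Elements commuting with all entries commute with evaluations. -/
lemma commute_evA {x : A} {K : ι → ι → A} (h : ∀ a b, Commute x (K a b)) (p : Poly ι) :
    Commute x (evA K p) := by
  induction p using FreeAlgebra.induction with
  | grade0 r => rw [AlgHom.commutes]; exact (Algebra.commutes r x).symm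
  | grade1 ab => obtain ⟨a, b⟩ := ab; rw [evA_ι]; exact h a b
  | mul p q hp hq => rw [map_mul]; exact hp.mul_right hq
  | add p q hp hq => rw [map_add]; exact hp.add_right hq

/-- Renaming of variables along a map of indices. -/
def ren {κ : Type v} (j : ι → κ) : Poly ι →ₐ[ℝ] Poly κ :=
  FreeAlgebra.lift ℝ fun ab => FreeAlgebra.ι ℝ (j ab.1, j ab.2)

lemma evA_ren {κ : Type v} (j : ι → κ) (K : κ → κ → A) (p : Poly ι) :
    evA K (ren j p) = evA (fun a b => K (j a) (j b)) p := by
  have h : (evA K).comp (ren j) = evA (fun a b => K (j a) (j b)) :=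
    FreeAlgebra.hom_ext (funext fun ab => by simp [ren, evA])
  exact AlgHom.congr_fun h p

lemma evR_ren {κ : Type v} (j : ι → κ) (K : κ → κ → ℝ) (p : Poly ι) :
    evR K (ren j p) = evR (fun a b => K (j a) (j b)) p := by
  have h : (evR K).comp (ren j) = evR (fun a b => K (j a) (j b)) :=
    FreeAlgebra.hom_ext (funext fun ab => by simp [ren, evR])
  exact AlgHom.congr_fun h p

/-- The adjoint of an evaluation is an evaluation. -/
lemma exists_star_evA (p : Poly ι) : ∃ q : Poly ι,
    (∀ (B : Type u) [CStarAlgebra B] (K : ι → ι → B), (∀ a b, star (K a b) = K b a) →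
      evA K q = star (evA K p)) ∧
    ∀ x : ι → ι → ℝ, (∀ a b, x a b = x b a) → evR x q = evR x p := by
  induction p using FreeAlgebra.induction with
  | grade0 r =>
    refine ⟨algebraMap ℝ _ r, fun B _ K _ => ?_, fun x _ => rfl⟩
    simp [Algebra.algebraMap_eq_smul_one]
  | grade1 ab =>
    obtain ⟨a, b⟩ := ab
    exact ⟨FreeAlgebra.ι ℝ (b, a), fun B _ K hK => by rw [evA_ι, evA_ι, hK],
      fun x hx => by rw [evR_ι, evR_ι, hx]⟩
  | mul p q hp hq =>
    obtain ⟨p', hp1, hp2⟩ := hp
    obtain ⟨q', hq1, hq2⟩ := hq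
    exact ⟨q' * p', fun B _ K hK => by rw [map_mul, map_mul, star_mul, hp1 B K hK, hq1 B K hK],
      fun x hx => by rw [map_mul, map_mul, hp2 x hx, hq2 x hx, mul_comm]⟩
  | add p q hp hq =>
    obtain ⟨p', hp1, hp2⟩ := hp
    obtain ⟨q', hq1, hq2⟩ := hq
    exact ⟨p' + q', fun B _ K hK => by rw [map_add, map_add, star_add, hp1 B K hK, hq1 B K hK],
      fun x hx => by rw [map_add, map_add, hp2 x hx, hq2 x hx]⟩

/-- Every polynomial has a self-adjoint version with the same values on symmetric matrices. -/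
lemma exists_sa_evA (p : Poly ι) : ∃ q : Poly ι,
    (∀ (B : Type u) [CStarAlgebra B] (K : ι → ι → B), (∀ a b, star (K a b) = K b a) →
      IsSelfAdjoint (evA K q)) ∧
    ∀ x : ι → ι → ℝ, (∀ a b, x a b = x b a) → evR x q = evR x p := by
  obtain ⟨p', h1, h2⟩ := exists_star_evA.{u} p
  refine ⟨(2 : ℝ)⁻¹ • (p + p'), fun B _ K hK => ?_, fun x hx => ?_⟩
  · rw [map_smul, map_add, h1 B K hK]
    exact (IsSelfAdjoint.all _).smul (IsSelfAdjoint.add_star_self _)
  · rw [map_smul, map_add, h2 x hx, smul_eq_mul]; ring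

section Lin

variable [Fintype ι]

/-- The quadratic polynomial of polynomial coefficients. -/
def quadP (w : ι → Poly ι) : Poly ι := ∑ a, ∑ b, w a * w b * FreeAlgebra.ι ℝ (a, b)

lemma evA_quadP (K : ι → ι → A) (w : ι → Poly ι) :
    evA K (quadP w) = ∑ a, ∑ b, evA K (w a) * evA K (w b) * K a b := by
  simp [quadP, evA_ι]

lemma evR_quadP (K : ι → ι → ℝ) (w : ι → Poly ι) :
    evR K (quadP w) = quad K fun a => evR K (w a) := by
  simp [quadP, evR_ι, quad]

lemma lin_sub (w w' X : ι → A) : lin (fun a => w a - w' a) X = lin w X - lin w' X := by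
  rw [lin, lin, lin, ← smul_sub, ← Finset.sum_sub_distrib]
  congr 1
  refine Finset.sum_congr rfl fun a _ => ?_
  noncomm_ring

lemma isSelfAdjoint_lin {w X : ι → A} (hw : ∀ a, IsSelfAdjoint (w a))
    (hX : ∀ a, IsSelfAdjoint (X a)) : IsSelfAdjoint (lin w X) := by
  refine (IsSelfAdjoint.all _).smul (isSelfAdjoint_sum _ fun a _ => ?_)
  rw [isSelfAdjoint_iff, star_add, star_mul, star_mul, (hw a).star_eq, (hX a).star_eq, add_comm]

lemma commute_lin {x : A} {w X : ι → A} (hw : ∀ a, Commute x (w a))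
    (hX : ∀ a, Commute x (X a)) : Commute x (lin w X) :=
  (Commute.sum_right _ _ _ fun a _ =>
    ((hw a).mul_right (hX a)).add_right ((hX a).mul_right (hw a))).smul_right _

lemma map_lin {B : Type u} [CStarAlgebra B] (f : A →ₐ[ℂ] B) (w X : ι → A) :
    f (lin w X) = lin (fun a => f (w a)) fun a => f (X a) := by
  simp [lin, ← Complex.coe_smul, map_sum]

/-- Pushforward of coefficients. -/
def pushP [DecidableEq ι] {P : Type v} [Fintype P] {M : Type*} [AddCommMonoid M] (j : P → ι)
    (t : P → M) (k : ι) : M :=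
  ∑ a, if j a = k then t a else 0

lemma lin_pushP [DecidableEq ι] {P : Type v} [Fintype P] (j : P → ι) (w : P → A) (X : ι → A) :
    lin (pushP j w) X = lin w fun a => X (j a) := by
  simp only [lin, pushP, Finset.sum_mul, Finset.mul_sum, ← Finset.sum_add_distrib]
  rw [Finset.sum_comm]
  congr 1
  refine Finset.sum_congr rfl fun a _ => ?_
  rw [Finset.sum_eq_single (j a)]
  · simp
  · intro k _ hk; simp [Ne.symm hk]
  · simp

omit [Fintype ι] in
lemma map_pushP [DecidableEq ι] {P : Type v} [Fintype P] {M N : Type*} [AddCommMonoid M]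
    [AddCommMonoid N] {F : Type*} [FunLike F M N] [AddMonoidHomClass F M N] (f : F) (j : P → ι)
    (t : P → M) (k : ι) : f (pushP j t k) = pushP j (fun a => f (t a)) k := by
  simp only [pushP, map_sum]
  exact Finset.sum_congr rfl fun a _ => by split_ifs <;> simp

omit [Fintype ι] in
lemma pushP_real [DecidableEq ι] {P : Type v} [Fintype P] (j : P → ι) (t : P → ℝ) :
    pushP j t = push j t := rfl

end Lin

end Vale.Agent.P095
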