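import Mathlib
import Vale.Agent.P095.Defs
import Vale.Agent.P095.Basic

/-!
Module Sweep: one unitary realises in pairings an average of flips of U that almost commutes with
all the flips, uniformly over the traces.
-/

noncomputable section

namespace Vale.Agent.P095

universe u v

variable {A : Type u} [CStarAlgebra A]

/-- Elements obtained from U by conjugations with the flips and by midpoints. -/
inductive Avg (zs : Finset A) (U : A) : A → Prop
  | base : Avg zs U U
  | conj {X : A} (z : A) (hz : z ∈ zs) : Avg zs U X → Avg zs U (z * X * z)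
  | mid {X Y : A} : Avg zs U X → Avg zs U Y → Avg zs U ((2 : ℝ)⁻¹ • (X + Y))

lemma norm_symm_le {z : A} (hza : IsSelfAdjoint z) (hz : z * z = 1) : ‖z‖ ≤ 1 := by
  refine (sq_le_one_iff₀ (norm_nonneg z)).1 ?_
  rw [sq, ← CStarRing.norm_star_mul_self, hza.star_eq, hz]
  rcases subsingleton_or_nontrivial A with _ | _
  · rw [Subsingleton.elim (1 : A) 0, norm_zero]; exact zero_le_one
  · rw [norm_one]

section Avg

variable {zs : Finset A} {U X : A}

lemma Avg.norm_le (hzs : ∀ z ∈ zs, IsSelfAdjoint z ∧ z * z = 1) (hU : ‖U‖ ≤ 1)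
    (h : Avg zs U X) : ‖X‖ ≤ 1 := by
  induction h with
  | base => exact hU
  | @conj X z hz _ ih =>
    have h1 := norm_symm_le (hzs z hz).1 (hzs z hz).2
    calc ‖z * X * z‖ ≤ ‖z‖ * ‖X‖ * ‖z‖ :=
          (norm_mul_le _ _).trans (by gcongr; exact norm_mul_le _ _)
      _ ≤ 1 * 1 * 1 := by gcongr
      _ = 1 := by norm_num
  | @mid X Y _ _ ih1 ih2 =>
    rw [norm_smul, Real.norm_eq_abs, abs_of_nonneg (by norm_num : (0 : ℝ) ≤ 2⁻¹)]
    linarith [norm_add_le X Y]

lemma Avg.commute {s : A} (hzs : ∀ z ∈ zs, Commute z s) (hU : Commute U s)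
    (h : Avg zs U X) : Commute X s := by
  induction h with
  | base => exact hU
  | conj z hz _ ih => exact ((hzs z hz).mul_left ih).mul_left (hzs z hz)
  | mid _ _ ih1 ih2 => exact (ih1.add_left ih2).smul_left _

variable {G : Type v} [Group G]

/-- Every such average is realised, in pairings with a countable set, by one unitary. -/
lemma Avg.realise (c : Cfg G A) {S : Set A} (hS : S.Countable)
    (hzs : ∀ z ∈ zs, IsSelfAdjoint z ∧ z * z = 1 ∧ ∀ s ∈ S, Commute z s) (h : Avg zs U X) :
    ∀ S' : Set A, S'.Countable → ∃ b : A, star b * b = 1 ∧ b * star b = 1 ∧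
      (∀ s ∈ S, Commute b s) ∧ ∀ τ ∈ c.T, ∀ Y ∈ S', τ (Y * (b * U * star b)) = τ (Y * X) := by
  induction h with
  | base =>
    intro S' _
    exact ⟨1, by simp, by simp, fun s _ => Commute.one_left s, fun τ _ Y _ => by simp⟩
  | @conj X z hz _ ih =>
    intro S' hS'
    obtain ⟨hza, hzz, hzS⟩ := hzs z hz
    obtain ⟨b, hb1, hb2, hbS, hb⟩ := ih ((fun Y => z * Y * z) '' S') (hS'.image _)
    refine ⟨z * b, ?_, ?_, fun s hs => (hzS s hs).mul_left (hbS s hs), fun τ hτ Y hY => ?_⟩
    · rw [star_mul, hza.star_eq, mul_assoc, ← mul_assoc z z b, hzz, one_mul, hb1]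
    · rw [star_mul, hza.star_eq, mul_assoc, ← mul_assoc b, hb2, one_mul, hzz]
    · have hc : ∀ W : A, τ (Y * (z * W * z)) = τ (z * Y * z * W) := fun W => by
        rw [← mul_assoc, (c.tr τ hτ).comm]
        simp only [mul_assoc]
      rw [show z * b * U * star (z * b) = z * (b * U * star b) * z by
        rw [star_mul, hza.star_eq]; noncomm_ring, hc, hc]
      exact hb τ hτ _ ⟨Y, hY, rfl⟩
  | @mid X₀ X₁ _ _ ih0 ih1 =>
    intro S' hS'
    obtain ⟨b₀, p1, p2, p3, p4⟩ := ih0 S' hS'
    obtain ⟨b₁, q1, q2, q3, q4⟩ := ih1 S' hS'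
    obtain ⟨x, z, hxa, hza, hxx, hzz, hxz, hcomm⟩ :=
      c.units (insert U (insert b₀ (insert b₁ (S ∪ S'))))
        ((((hS.union hS').insert _).insert _).insert _)
    set e : A := (2 : ℝ)⁻¹ • (1 + x) with he
    have hea : star e = e := by
      rw [he, star_smul, star_trivial, star_add, star_one, hxa.star_eq]
    have hee : e * e = e := by
      rw [he, smul_mul_assoc, mul_smul_comm, smul_smul, add_mul, one_mul, mul_add, mul_one, hxx]
      module
    have hxc : ∀ w, Commute x w → Commute e w := fun w hw =>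
      (Commute.add_left (Commute.one_left w) hw).smul_left _
    have hbx : ∀ {b : A}, Commute x b → Commute e (star b) := fun {b} hb => hxc _ (by
      have := hb.star_star
      rwa [hxa.star_eq] at this)
    have hbz : ∀ {b : A}, Commute z b → Commute z (star b) := fun {b} hb => by
      have := hb.star_star
      rwa [hza.star_eq] at this
    have e0 : Commute e b₀ := hxc _ (hcomm b₀ (by simp)).1
    have e1 : Commute e b₁ := hxc _ (hcomm b₁ (by simp)).1
    have s0 : Commute e (star b₀) := hbx (hcomm b₀ (by simp)).1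
    have s1 : Commute e (star b₁) := hbx (hcomm b₁ (by simp)).1
    have eU : Commute e U := hxc _ (hcomm U (by simp)).1
    set f : A := 1 - e with hf
    have hff : f * f = f := by rw [hf]; noncomm_ring [hee]
    have hef : e * f = 0 := by rw [hf, mul_sub, mul_one, hee, sub_self]
    have hfe : f * e = 0 := by rw [hf, sub_mul, one_mul, hee, sub_self]
    have f1 : Commute f b₁ := (Commute.one_left _).sub_left e1
    have t1 : Commute f (star b₁) := (Commute.one_left _).sub_left s1
    have fU : Commute f U := (Commute.one_left _).sub_left eU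
    have f0 : Commute f b₀ := (Commute.one_left _).sub_left e0
    have t0 : Commute f (star b₀) := (Commute.one_left _).sub_left s0
    have hfa : star f = f := by rw [hf, star_sub, star_one, hea]
    -- products of a block element with another one
    have key : ∀ {p q : A} (a w d : A), Commute q a → Commute q w →
        (p * a) * w * (q * d) = (p * q) * (a * w * d) := fun {p q} a w d h1 h2 => by
      calc (p * a) * w * (q * d) = p * ((a * w) * q) * d := by noncomm_ring
        _ = p * (q * (a * w)) * d := by rw [(h1.mul_right h2).eq]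
        _ = (p * q) * (a * w * d) := by noncomm_ring
    set b : A := e * b₀ + f * b₁ with hb
    have hsb : star b = e * star b₀ + f * star b₁ := by
      rw [hb, star_add, star_mul, star_mul, hea, hfa, s0.eq, t1.eq]
    have hconj : ∀ w, Commute e w → Commute f w →
        b * w * star b = e * (b₀ * w * star b₀) + f * (b₁ * w * star b₁) := fun w hw hw' => by
      rw [hsb, hb, add_mul, add_mul, mul_add, mul_add, key _ _ _ e0 hw, key _ _ _ f0 hw',
        key _ _ _ e1 hw, key _ _ _ f1 hw', hee, hff, hef, hfe, zero_mul, zero_mul, add_zero,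
        zero_add]
    refine ⟨b, ?_, ?_, ?_, fun τ hτ Y hY => ?_⟩
    · have h := key (p := e) (q := e) (star b₀) 1 b₀ s0 (Commute.one_right _)
      have h' := key (p := f) (q := f) (star b₁) 1 b₁ t1 (Commute.one_right _)
      have k := key (p := e) (q := f) (star b₀) 1 b₁ t0 (Commute.one_right _)
      have k' := key (p := f) (q := e) (star b₁) 1 b₀ s1 (Commute.one_right _)
      simp only [mul_one] at h h' k k'
      rw [hsb, hb, add_mul, mul_add, mul_add, h, h', k, k', hee, hff, hef, hfe, p1, q1]
      simp [hf]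
    · have := hconj 1 (Commute.one_right _) (Commute.one_right _)
      simp only [mul_one] at this
      rw [this, p2, q2]
      simp [hf]
    · intro s hs
      have h1 : Commute e s := hxc s (hcomm s (by simp [hs])).1
      exact (h1.mul_left (p3 s hs)).add_left
        (((Commute.one_left s).sub_left h1).mul_left (q3 s hs))
    · have hT := c.tr τ hτ
      have half : ∀ W, Commute z W → τ (e * W) = τ W / 2 := fun W hW => by
        have h0 : τ (x * W) = 0 := by
          have h1 : z * (x * W) * z = -(x * W) := by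
            calc z * (x * W) * z = z * x * (W * z) := by noncomm_ring
              _ = z * (x * z) * W := by rw [← hW.eq]; noncomm_ring
              _ = -((z * z) * (x * W)) := by rw [hxz]; noncomm_ring
              _ = -(x * W) := by rw [hzz, one_mul]
          have h2 : τ (z * (x * W) * z) = τ (x * W) := by
            rw [hT.comm, ← mul_assoc, hzz, one_mul]
          rw [h1, map_neg] at h2
          linear_combination (-1 / 2 : ℂ) * h2
        rw [he, smul_mul_assoc, add_mul, one_mul, ← Complex.coe_smul, map_smul, map_add, h0,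
          smul_eq_mul]
        push_cast; ring
      have zU := (hcomm U (by simp)).2
      have zY : Commute z Y := (hcomm Y (by simp [hY])).2
      have z0 := (hcomm b₀ (by simp)).2
      have z1 := (hcomm b₁ (by simp)).2
      have eY : Commute e Y := hxc Y (hcomm Y (by simp [hY])).1
      have fY : Commute f Y := (Commute.one_left _).sub_left eY
      have w0 := (zY.mul_right ((z0.mul_right zU).mul_right (hbz z0)))
      have w1 := (zY.mul_right ((z1.mul_right zU).mul_right (hbz z1)))
      rw [hconj U eU fU, mul_add, map_add, ← mul_assoc Y e, ← mul_assoc Y f, ← eY.eq, ← fY.eq,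
        mul_assoc e Y, mul_assoc f Y, hf, sub_mul, one_mul, map_sub, half _ w0, half _ w1, p4 τ hτ Y hY,
        q4 τ hτ Y hY, mul_smul_comm, ← Complex.coe_smul, map_smul, mul_add, map_add, smul_eq_mul]
      push_cast; ring

end Avg

/-- The conditional average over one flip. -/
def halfFlip (z : A) : A →ₗ[ℝ] A :=
  (2 : ℝ)⁻¹ • (LinearMap.id + (LinearMap.mulLeft ℝ z).comp (LinearMap.mulRight ℝ z))

lemma halfFlip_apply (z M : A) : halfFlip z M = (2 : ℝ)⁻¹ • (M + z * M * z) := by
  simp [halfFlip, mul_assoc]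

/-- The composite of the averages over a list of flips. -/
def sweep : List A → Module.End ℝ A
  | [] => 1
  | z :: L => sweep L * halfFlip z

lemma sweep_cons (z : A) (L : List A) (M : A) : sweep (z :: L) M = sweep L (halfFlip z M) := rfl

/-- The average of the first 2 ^ l powers of the sweep. -/
def mean (L : List A) : ℕ → A → A
  | 0, X => X
  | l + 1, X => (2 : ℝ)⁻¹ • (mean L l X + (sweep L ^ 2 ^ l) (mean L l X))

lemma sweep_mean (L : List A) (l : ℕ) (X : A) :
    sweep L (mean L l X) - mean L l X = ((2 : ℝ) ^ l)⁻¹ • ((sweep L ^ 2 ^ l) X - X) := by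
  induction l with
  | zero => simp [mean]
  | succ l ih =>
    have hc : sweep L ((sweep L ^ 2 ^ l) (mean L l X)) = (sweep L ^ 2 ^ l) (sweep L (mean L l X)) := by
      rw [← Module.End.mul_apply, ← Module.End.mul_apply, ← pow_succ', ← pow_succ]
    have h2 : sweep L (mean L l X) = mean L l X + ((2 : ℝ) ^ l)⁻¹ • ((sweep L ^ 2 ^ l) X - X) := by
      rw [← ih]; abel
    have h3 : (sweep L ^ 2 ^ (l + 1)) X = (sweep L ^ 2 ^ l) ((sweep L ^ 2 ^ l) X) := by
      rw [← Module.End.mul_apply, ← pow_add, pow_succ, mul_two]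
    rw [mean, map_smul, map_add, hc, h2, map_add, map_smul, map_sub, h3, pow_succ, mul_inv]
    module

section Estimate

variable {τ : A →ₗ[ℂ] ℂ} (hτ : IsTr τ)

include hτ

lemma sq_halfFlip {z : A} (hza : IsSelfAdjoint z) (hz : z * z = 1) (M : A) :
    sn τ (halfFlip z M) ^ 2 + sn τ (M - halfFlip z M) ^ 2 = sn τ M ^ 2 := by
  have h1 : τ (star (z * M * z) * (z * M * z)) = τ (star M * M) := by
    rw [show star (z * M * z) * (z * M * z) = z * star M * ((z * z) * M * z) by
      rw [star_mul, star_mul, hza.star_eq]; noncomm_ring, hz, one_mul, hτ.comm,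
      show M * z * (z * star M) = M * (z * z) * star M by noncomm_ring, hz, mul_one, hτ.comm]
  have h2 : M - halfFlip z M = (2 : ℝ)⁻¹ • (M - z * M * z) := by
    rw [halfFlip_apply]; module
  rw [h2, halfFlip_apply, hτ.sn_smul_real, hτ.sn_smul_real, mul_pow, mul_pow, hτ.sq_sn, hτ.sq_sn,
    hτ.sq_sn]
  simp only [star_add, star_sub, add_mul, sub_mul, mul_add, mul_sub, map_add, map_sub, h1,
    Complex.add_re, Complex.sub_re, sq_abs]
  ring

lemma sweep_defect (L : List A) (hL : ∀ z ∈ L, IsSelfAdjoint z ∧ z * z = 1) (M : A) :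
    0 ≤ sn τ M ^ 2 - sn τ (sweep L M) ^ 2 ∧ ∀ z ∈ L,
      sn τ (br z M) ≤ 2 * L.length * Real.sqrt (sn τ M ^ 2 - sn τ (sweep L M) ^ 2) := by
  induction L generalizing M with
  | nil => simp [sweep]
  | cons z L ih =>
    obtain ⟨hza, hz⟩ := hL z (by simp)
    obtain ⟨hd, hbr⟩ := ih (fun w hw => hL w (by simp [hw])) (halfFlip z M)
    have hp := sq_halfFlip hτ hza hz M
    rw [sweep_cons]
    set d := sn τ M ^ 2 - sn τ (sweep L (halfFlip z M)) ^ 2 with hddef
    have hd1 : 0 ≤ d := by
      rw [hddef]; nlinarith [sq_nonneg (sn τ (M - halfFlip z M))]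
    have hstep : sn τ (M - halfFlip z M) ≤ Real.sqrt d :=
      Real.le_sqrt_of_sq_le (by rw [hddef]; linarith)
    have hrest : Real.sqrt (sn τ (halfFlip z M) ^ 2 - sn τ (sweep L (halfFlip z M)) ^ 2) ≤
        Real.sqrt d := Real.sqrt_le_sqrt (by
      rw [hddef]; nlinarith [sq_nonneg (sn τ (M - halfFlip z M))])
    refine ⟨hd1, fun w hw => ?_⟩
    have hlen : ((z :: L).length : ℝ) = L.length + 1 := by simp
    rw [hlen]
    rcases List.mem_cons.1 hw with rfl | hw
    · have e : br w M = (-2 : ℝ) • (M - halfFlip w M) * w := by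
        have : M - halfFlip w M = (2 : ℝ)⁻¹ • (M - w * M * w) := by
          rw [halfFlip_apply]; module
        rw [this, smul_smul, smul_mul_assoc, sub_mul, mul_assoc (w * M), hz, mul_one, br]
        module
      rw [e]
      refine (hτ.sn_mul_le_right _ _).trans ?_
      refine (mul_le_of_le_one_right (sn_nonneg _) (norm_symm_le hza hz)).trans ?_
      rw [hτ.sn_smul_real, abs_neg, abs_of_nonneg (by norm_num : (0 : ℝ) ≤ 2)]
      nlinarith [Real.sqrt_nonneg d, (Nat.cast_nonneg L.length : (0 : ℝ) ≤ L.length)]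
    · obtain ⟨hwa, hww⟩ := hL w (by simp [hw])
      have hn := norm_symm_le hwa hww
      have e : br w M = br w (halfFlip z M) + (w * (M - halfFlip z M) - (M - halfFlip z M) * w) := by
        simp only [br]; noncomm_ring
      rw [e]
      refine (hτ.sn_add_le _ _).trans ?_
      have h1 := hτ.sn_sub_le (w * (M - halfFlip z M)) ((M - halfFlip z M) * w)
      have h2 : sn τ (w * (M - halfFlip z M)) ≤ sn τ (M - halfFlip z M) :=
        (hτ.sn_mul_le_left _ _).trans (mul_le_of_le_one_left (sn_nonneg _) hn)
      have h3 : sn τ ((M - halfFlip z M) * w) ≤ sn τ (M - halfFlip z M) :=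
        (hτ.sn_mul_le_right _ _).trans (mul_le_of_le_one_right (sn_nonneg _) hn)
      have h4 := (hbr w hw).trans (mul_le_mul_of_nonneg_left hrest (by positivity))
      linarith

end Estimate

theorem sweep_ok : SweepStatement.{u, v} := by
  intro G _ _ A _ c S hS zs hzs U hUa hU hUS ε hε
  set L := zs.toList with hLdef
  have hL : ∀ z ∈ L, IsSelfAdjoint z ∧ z * z = 1 := fun z hz =>
    ⟨(hzs z (Finset.mem_toList.1 hz)).1, (hzs z (Finset.mem_toList.1 hz)).2.1⟩
  have hsweep : ∀ X, Avg zs U X → Avg zs U (sweep L X) := by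
    have : ∀ L' : List A, (∀ z ∈ L', z ∈ zs) → ∀ X, Avg zs U X → Avg zs U (sweep L' X) := by
      intro L'
      induction L' with
      | nil => exact fun _ X hX => hX
      | cons z L' ih =>
        intro h X hX
        rw [sweep_cons, halfFlip_apply]
        exact ih (fun w hw => h w (by simp [hw])) _ (.mid hX (.conj z (h z (by simp)) hX))
    exact this L fun z hz => Finset.mem_toList.1 hz
  have hpow : ∀ n X, Avg zs U X → Avg zs U ((sweep L ^ n) X) := by
    intro n
    induction n with
    | zero => intro X hX; simpa using hX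
    | succ n ih =>
      intro X hX
      rw [pow_succ', Module.End.mul_apply]
      exact hsweep _ (ih X hX)
  have hmean : ∀ l, Avg zs U (mean L l U) := by
    intro l
    induction l with
    | zero => exact .base
    | succ l ih => exact .mid ih (hpow _ _ ih)
  have hnorm : ∀ {X}, Avg zs U X → ‖X‖ ≤ 1 := fun h =>
    h.norm_le (fun z hz => ⟨(hzs z hz).1, (hzs z hz).2.1⟩) hU
  obtain ⟨l, hl⟩ := pow_unbounded_of_one_lt ((4 * L.length + 1 : ℝ) ^ 2 / ε ^ 2) one_lt_two
  obtain ⟨b, hb1, hb2, hbS, hb⟩ :=
    (hmean l).realise c hS hzs ((fun y => y * U) '' S) (hS.image _)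
  refine ⟨b, mean L l U, hb1, hb2, hnorm (hmean l), hbS,
    fun s hs => (hmean l).commute (fun z hz => (hzs z hz).2.2 s hs) (hUS s hs),
    fun τ hτ => ⟨fun z hz => ?_, fun y hy => ?_⟩⟩
  · have hT := c.tr τ hτ
    obtain ⟨hd, hbr⟩ := sweep_defect hT L hL (mean L l U)
    refine (hbr z (Finset.mem_toList.2 hz)).trans ?_
    set M := mean L l U with hM
    have hN : (0 : ℝ) < 2 ^ l := by positivity
    have h1 : sn τ M ≤ 1 := (hT.sn_le_norm _).trans (hnorm (hmean l))
    have h2 : sn τ (sweep L M) ≤ 1 := (hT.sn_le_norm _).trans (hnorm (hsweep _ (hmean l)))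
    have h3 : sn τ M - sn τ (sweep L M) ≤ 2 / 2 ^ l := by
      have h := hT.sn_sub_le (sweep L M) (sweep L M - M)
      rw [sub_sub_cancel] at h
      have h' : sn τ (sweep L M - M) ≤ 2 / 2 ^ l := by
        rw [hM, sweep_mean, hT.sn_smul_real, abs_of_pos (inv_pos.2 hN), div_eq_inv_mul]
        refine mul_le_mul_of_nonneg_left ?_ (inv_nonneg.2 hN.le)
        have := hT.sn_sub_le ((sweep L ^ 2 ^ l) U) U
        have := (hT.sn_le_norm ((sweep L ^ 2 ^ l) U)).trans (hnorm (hpow _ _ .base))
        have := (hT.sn_le_norm U).trans hU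
        linarith
      linarith
    have h4 : sn τ M ^ 2 - sn τ (sweep L M) ^ 2 ≤ 4 / 2 ^ l := by
      have h0 : (0 : ℝ) ≤ 2 / 2 ^ l := by positivity
      have e4 : (4 : ℝ) / 2 ^ l = 2 / 2 ^ l * 2 := by ring
      have := sn_nonneg (τ := τ) M
      have := sn_nonneg (τ := τ) (sweep L M)
      rw [e4]
      nlinarith
    have h5 : (4 * L.length + 1 : ℝ) ^ 2 < ε ^ 2 * 2 ^ l := by
      rw [div_lt_iff₀ (by positivity)] at hl
      linarith
    have h6 : Real.sqrt (sn τ M ^ 2 - sn τ (sweep L M) ^ 2) ≤ 2 * ε / (4 * L.length + 1) := by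
      rw [Real.sqrt_le_left (by positivity)]
      refine h4.trans ?_
      rw [div_pow, div_le_div_iff₀ hN (by positivity)]
      nlinarith
    calc 2 * (L.length : ℝ) * Real.sqrt (sn τ M ^ 2 - sn τ (sweep L M) ^ 2)
        ≤ 2 * L.length * (2 * ε / (4 * L.length + 1)) :=
          mul_le_mul_of_nonneg_left h6 (by positivity)
      _ ≤ ε := by
          rw [mul_div_assoc', div_le_iff₀ (by positivity)]
          nlinarith
  · have := hb τ hτ (y * U) ⟨y, hy, rfl⟩
    simpa only [mul_assoc] using this

end Vale.Agent.P095
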