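import Mathlib
import Vale.Agent.P095.Defs
import Vale.Agent.P095.Basic
import Vale.Agent.P101.Defs
import Vale.Agent.P095.Link

/-!
The main statement of P095 written out over Mathlib.
-/

noncomputable section

open Filter Topology
open scoped BoundedContinuousFunction

namespace Vale.Agent.P095

universe u v

lemma small_of_sq_le {A : Type u} [CStarAlgebra A] {T : Set (A →ₗ[ℂ] ℂ)} {w : A} {δ ε : ℝ}
    (hδ : δ ≤ ε ^ 2) (hε : 0 ≤ ε) (h : ∀ τ ∈ T, (τ (star w * w)).re ≤ δ) : Small T w ε :=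
  fun τ hτ => (Real.sqrt_le_iff).2 ⟨hε, (h τ hτ).trans hδ⟩

lemma sq_le_of_small {A : Type u} [CStarAlgebra A] {T : Set (A →ₗ[ℂ] ℂ)} {w : A} {δ ε : ℝ}
    (hT : ∀ τ ∈ T, IsTr τ) (hε : ε ^ 2 ≤ δ) (h : Small T w ε) :
    ∀ τ ∈ T, (τ (star w * w)).re ≤ δ := fun τ hτ => by
  rw [← (hT τ hτ).sq_sn]
  exact (pow_le_pow_left₀ (sn_nonneg w) (h τ hτ) 2).trans hε

/-- The main statement, unfolded. -/
theorem main_of_final (hF : Final.{u, v}) (G : Type v) [Group G] [Countable G]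
    (hG : ∀ E : Finset G, ∀ ε : ℝ, 0 < ε → ∃ P : Finset G, P.Nonempty ∧
      ∀ h ∈ E, (Set.ncard (((h * ·) '' (P : Set G)) \ (P : Set G)) : ℝ) ≤ ε * P.card)
    (A : Type u) [CStarAlgebra A] (α : G → A ≃⋆ₐ[ℂ] A)
    (hα : ∀ g h x, α (g * h) x = α g (α h x))
    (T : Set (A →ₗ[ℂ] ℂ))
    (hT : ∀ τ ∈ T, τ 1 = 1 ∧ (∀ x y, τ (x * y) = τ (y * x)) ∧
      ∀ x, ∃ r : ℝ, 0 ≤ r ∧ τ (star x * x) = (r : ℂ))
    (hinv : ∀ τ ∈ T, ∀ g, ∃ σ ∈ T, ∀ x, σ x = τ (α g x))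
    (hyp : (∀ (S : Finset A) (δ : ℝ), 0 < δ → ∃ x z : A, IsSelfAdjoint x ∧ IsSelfAdjoint z ∧
        ‖x‖ ≤ 1 ∧ ‖z‖ ≤ 1 ∧ ∀ τ ∈ T,
          (τ (star (x * x - 1) * (x * x - 1))).re ≤ δ ∧ (τ (star (z * z - 1) * (z * z - 1))).re ≤ δ ∧
          (τ (star (x * z + z * x) * (x * z + z * x))).re ≤ δ ∧
          ∀ s ∈ S, (τ (star (x * s - s * x) * (x * s - s * x))).re ≤ δ ∧
            (τ (star (z * s - s * z) * (z * s - s * z))).re ≤ δ) ∨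
      (TopologicalSpace.SeparableSpace A ∧ ∃ ω : Ultrafilter ℕ,
        (ω : Filter ℕ) ≤ Filter.cofinite ∧ IsEmpty (P101.CentralChar ω A))) :
    ∀ (S : Finset A) (E : Finset G) (δ : ℝ), 0 < δ → ∃ x z : A, IsSelfAdjoint x ∧ IsSelfAdjoint z ∧
      ‖x‖ ≤ 1 ∧ ‖z‖ ≤ 1 ∧ ∀ τ ∈ T,
        (τ (star (x * x - 1) * (x * x - 1))).re ≤ δ ∧ (τ (star (z * z - 1) * (z * z - 1))).re ≤ δ ∧
        (τ (star (x * z + z * x) * (x * z + z * x))).re ≤ δ ∧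
        (∀ s ∈ S, (τ (star (x * s - s * x) * (x * s - s * x))).re ≤ δ ∧
          (τ (star (z * s - s * z) * (z * s - s * z))).re ≤ δ) ∧
        ∀ h ∈ E, (τ (star (α h x - x) * (α h x - x))).re ≤ δ ∧
          (τ (star (α h z - z) * (α h z - z))).re ≤ δ := by
  have hT' : ∀ τ ∈ T, IsTr τ := fun τ hτ => ⟨(hT τ hτ).1, (hT τ hτ).2.1, (hT τ hτ).2.2⟩
  have h1 : ∀ x, α 1 x = x := fun x => EquivLike.injective (α 1) (by rw [← hα, mul_one])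
  have hM : UniformMcDuff T := by
    rcases hyp with h | ⟨hsep, ω, hω, he⟩
    · intro S δ hδ
      obtain ⟨x, z, hx, hz, hxn, hzn, h⟩ := h S (δ ^ 2) (by positivity)
      exact ⟨x, z, hx, hz, hxn, hzn, small_of_sq_le le_rfl hδ.le fun τ hτ => (h τ hτ).1,
        small_of_sq_le le_rfl hδ.le fun τ hτ => (h τ hτ).2.1,
        small_of_sq_le le_rfl hδ.le fun τ hτ => (h τ hτ).2.2.1,
        fun s hs => ⟨small_of_sq_le le_rfl hδ.le fun τ hτ => ((h τ hτ).2.2.2 s hs).1,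
          small_of_sq_le le_rfl hδ.le fun τ hτ => ((h τ hτ).2.2.2 s hs).2⟩⟩
    · exact Link.uniformMcDuff_of_isEmpty_char ω hω he T hT'
  intro S E δ hδ
  obtain ⟨x, z, hx, hz, hxn, hzn, ha, hb, hc, hd, he⟩ :=
    hF G hG A T hT' α hα h1 hinv hM S E (Real.sqrt δ) (Real.sqrt_pos.2 hδ)
  have hs : Real.sqrt δ ^ 2 ≤ δ := (Real.sq_sqrt hδ.le).le
  exact ⟨x, z, hx, hz, hxn, hzn, fun τ hτ => ⟨sq_le_of_small hT' hs ha τ hτ,
    sq_le_of_small hT' hs hb τ hτ, sq_le_of_small hT' hs hc τ hτ,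
    fun s hs' => ⟨sq_le_of_small hT' hs (hd s hs').1 τ hτ, sq_le_of_small hT' hs (hd s hs').2 τ hτ⟩,
    fun h hh => ⟨sq_le_of_small hT' hs (he h hh).1 τ hτ, sq_le_of_small hT' hs (he h hh).2 τ hτ⟩⟩⟩

end Vale.Agent.P095
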