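import Mathlib

/-!
Balanced weights: for a positive semidefinite matrix with nonnegative entries and positive
diagonal and a probability vector `ν` there is exactly one nonnegative `u` with
`u g * (K u) g = ν g` (zero off the support of `ν`); it depends continuously on the matrix, and
its quadratic distance is controlled by the Hellinger distance of the vectors `ν`.
-/

noncomputable section

open Filter Topology Finset Matrix

namespace Vale.Agent.P095

variable {P : Type*} [Fintype P]

/-- The admissible matrices. -/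
structure Admissible (c : ℝ) (K : Matrix P P ℝ) : Prop where
  symm : ∀ g h, K g h = K h g
  nonneg : ∀ g h, 0 ≤ K g h
  diag : ∀ g, c ≤ K g g
  psd : ∀ x : P → ℝ, 0 ≤ ∑ g, x g * (K *ᵥ x) g

/-- The balance equations. -/
def Balanced (K : Matrix P P ℝ) (ν u : P → ℝ) : Prop :=
  (∀ g, 0 ≤ u g) ∧ (∀ g, ν g = 0 → u g = 0) ∧ ∀ g, u g * (K *ᵥ u) g = ν g

lemma bilin_symm {K : Matrix P P ℝ} (hs : ∀ g h, K g h = K h g) (u v : P → ℝ) :
    ∑ g, u g * (K *ᵥ v) g = ∑ g, v g * (K *ᵥ u) g := by
  simp only [Matrix.mulVec, dotProduct, Finset.mul_sum]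
  rw [Finset.sum_comm]
  exact Finset.sum_congr rfl fun g _ => Finset.sum_congr rfl fun h _ => by rw [hs h g]; ring

lemma mulVec_nonneg' {K : Matrix P P ℝ} (hK : ∀ g h, 0 ≤ K g h) {u : P → ℝ} (hu : ∀ g, 0 ≤ u g)
    (g : P) : 0 ≤ (K *ᵥ u) g :=
  Finset.sum_nonneg fun h _ => mul_nonneg (hK g h) (hu h)

/-- The weights have quadratic form equal to the total mass. -/
lemma Balanced.quad {K : Matrix P P ℝ} {ν u : P → ℝ} (h : Balanced K ν u) :
    ∑ g, u g * (K *ᵥ u) g = ∑ g, ν g :=
  Finset.sum_congr rfl fun g _ => h.2.2 g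

/-- The pointwise bound. -/
lemma Balanced.sq_le {c : ℝ} {K : Matrix P P ℝ} {ν u : P → ℝ} (hK : Admissible c K)
    (h : Balanced K ν u) (g : P) : c * u g ^ 2 ≤ ν g := by
  rw [← h.2.2 g]
  have h1 : K g g * u g ≤ (K *ᵥ u) g :=
    Finset.single_le_sum (f := fun k => K g k * u k) (fun k _ => mul_nonneg (hK.nonneg g k) (h.1 k))
      (Finset.mem_univ g)
  calc c * u g ^ 2 ≤ K g g * u g ^ 2 := mul_le_mul_of_nonneg_right (hK.diag g) (sq_nonneg _)
    _ = u g * (K g g * u g) := by ring
    _ ≤ u g * (K *ᵥ u) g := mul_le_mul_of_nonneg_left h1 (h.1 g)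

/-- Hellinger continuity in the probability vector. -/
lemma Balanced.dist_le {K : Matrix P P ℝ} (hn : ∀ g h, 0 ≤ K g h)
    {ν μ u v : P → ℝ} (hu : Balanced K ν u) (hv : Balanced K μ v) :
    ∑ g, (u g - v g) * (K *ᵥ (u - v)) g ≤ ∑ g, (Real.sqrt (ν g) - Real.sqrt (μ g)) ^ 2 := by
  have hexp : ∑ g, (u g - v g) * (K *ᵥ (u - v)) g
      = ∑ g, (ν g + μ g - (u g * (K *ᵥ v) g + v g * (K *ᵥ u) g)) := by
    refine Finset.sum_congr rfl fun g _ => ?_
    rw [Matrix.mulVec_sub, Pi.sub_apply, ← hu.2.2 g, ← hv.2.2 g]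
    ring
  rw [hexp]
  refine Finset.sum_le_sum fun g _ => ?_
  have hν : 0 ≤ ν g := hu.2.2 g ▸ mul_nonneg (hu.1 g) (mulVec_nonneg' hn hu.1 g)
  have hμ : 0 ≤ μ g := hv.2.2 g ▸ mul_nonneg (hv.1 g) (mulVec_nonneg' hn hv.1 g)
  have h2 : 2 * (Real.sqrt (ν g) * Real.sqrt (μ g)) ≤ u g * (K *ᵥ v) g + v g * (K *ᵥ u) g := by
    have hsq : (Real.sqrt (ν g) * Real.sqrt (μ g)) ^ 2
        = u g * (K *ᵥ v) g * (v g * (K *ᵥ u) g) := by
      rw [mul_pow, Real.sq_sqrt hν, Real.sq_sqrt hμ, ← hu.2.2 g, ← hv.2.2 g]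
      ring
    have hA := mul_nonneg (hu.1 g) (mulVec_nonneg' hn hv.1 g)
    have hB := mul_nonneg (hv.1 g) (mulVec_nonneg' hn hu.1 g)
    nlinarith [sq_nonneg (u g * (K *ᵥ v) g - v g * (K *ᵥ u) g),
      mul_nonneg (Real.sqrt_nonneg (ν g)) (Real.sqrt_nonneg (μ g))]
  nlinarith [Real.sq_sqrt hν, Real.sq_sqrt hμ]

lemma sum_sqrt_sub_sq_le {ν μ : P → ℝ} (hν : ∀ g, 0 ≤ ν g) (hμ : ∀ g, 0 ≤ μ g) :
    ∑ g, (Real.sqrt (ν g) - Real.sqrt (μ g)) ^ 2 ≤ ∑ g, |ν g - μ g| := by
  refine Finset.sum_le_sum fun g _ => ?_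
  have ha := Real.sqrt_nonneg (ν g)
  have hb := Real.sqrt_nonneg (μ g)
  have h : ν g - μ g = (Real.sqrt (ν g) - Real.sqrt (μ g)) * (Real.sqrt (ν g) + Real.sqrt (μ g)) := by
    nlinarith [Real.sq_sqrt (hν g), Real.sq_sqrt (hμ g)]
  rw [h, abs_mul, abs_of_nonneg (add_nonneg ha hb), ← sq_abs]
  rw [sq]
  refine mul_le_mul_of_nonneg_left ?_ (abs_nonneg _)
  exact abs_sub_le_iff.2 ⟨by linarith, by linarith⟩

/-- The balance equations have at most one solution. -/
lemma Balanced.unique {c : ℝ} {K : Matrix P P ℝ} (hK : Admissible c K) {ν u v : P → ℝ}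
    (hu : Balanced K ν u) (hv : Balanced K ν v) : u = v := by
  have h0 : ∑ g, (u g - v g) * (K *ᵥ (u - v)) g = 0 := by
    refine le_antisymm ((hu.dist_le hK.nonneg hv).trans ?_) (hK.psd (u - v))
    simp
  have hq : ∀ x : P → ℝ, ∑ g, x g * (K *ᵥ (u - v)) g = 0 := by
    intro x
    set b := ∑ g, x g * (K *ᵥ (u - v)) g
    have hq' : ∀ t : ℝ, 0 ≤ 2 * t * b + t ^ 2 * ∑ g, x g * (K *ᵥ x) g := by
      intro t
      have hp := hK.psd ((u - v) + t • x)
      have hc : ∑ g, (u - v) g * (K *ᵥ x) g = b := bilin_symm hK.symm (u - v) x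
      simp only [Matrix.mulVec_add, Matrix.mulVec_smul, Pi.add_apply, Pi.smul_apply, smul_eq_mul,
        add_mul, mul_add, Finset.sum_add_distrib, mul_assoc, mul_left_comm _ t,
        ← Finset.mul_sum] at hp
      simp only [Pi.sub_apply] at hp hc
      rw [h0, hc] at hp
      linarith
    by_contra hb
    set M := ∑ g, x g * (K *ᵥ x) g
    have hM : 0 ≤ M := hK.psd x
    have h := hq' (-b / (M + 1))
    have he : 2 * (-b / (M + 1)) * b + (-b / (M + 1)) ^ 2 * M
        = -(b ^ 2 * (M + 2)) / (M + 1) ^ 2 := by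
      field_simp; ring
    rw [he, le_div_iff₀ (by positivity), zero_mul] at h
    nlinarith [sq_pos_of_ne_zero hb]
  funext g
  classical
  rcases eq_or_ne (ν g) 0 with hg | hg
  · rw [hu.2.1 g hg, hv.2.1 g hg]
  · have hg' : (K *ᵥ (u - v)) g = 0 := by
      have := hq (Pi.single g 1)
      rwa [Finset.sum_eq_single g (fun k _ hk => by simp [Pi.single_eq_of_ne hk]) (by simp),
        Pi.single_eq_same, one_mul] at this
    rw [Matrix.mulVec_sub, Pi.sub_apply, sub_eq_zero] at hg'
    have h1 := hu.2.2 g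
    rw [hg', ← hv.2.2 g] at h1
    refine mul_right_cancel₀ (fun h => hg ?_) h1
    rw [← hv.2.2 g, h, mul_zero]

/-- The balance equations have a solution. -/
lemma exists_balanced {c : ℝ} (hc : 0 < c) {K : Matrix P P ℝ} (hK : Admissible c K) {ν : P → ℝ}
    (hν : ∀ g, 0 ≤ ν g) : ∃ u, Balanced K ν u := by
  classical
  set S : Finset P := Finset.univ.filter fun g => ν g ≠ 0
  let e : (S → ℝ) → P → ℝ := fun t g => if h : g ∈ S then Real.exp (t ⟨g, h⟩) else 0
  let f : (S → ℝ) → ℝ := fun t => (∑ g, e t g * (K *ᵥ e t) g) / 2 - ∑ g : S, ν g * t g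
  have hec : ∀ g, Continuous fun t => e t g := fun g => by
    simp only [e]
    split_ifs with h
    · fun_prop
    · fun_prop
  have hfc : Continuous f := by
    simp only [f, Matrix.mulVec, dotProduct]
    fun_prop
  have he0 : ∀ t g, 0 ≤ e t g := fun t g => by
    simp only [e]
    split_ifs <;> positivity
  have hlow : ∀ t, ∑ g : S, (c / 2 * Real.exp (t g) ^ 2 - ν g * t g) ≤ f t := by
    intro t
    rw [Finset.sum_sub_distrib]
    refine sub_le_sub_right ?_ _
    calc ∑ g : S, c / 2 * Real.exp (t g) ^ 2 = ∑ g : S, (e t g * (c * e t g)) / 2 := by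
          refine Finset.sum_congr rfl fun g _ => ?_
          simp only [e, dif_pos g.2, Subtype.coe_eta]; ring
      _ ≤ ∑ g : S, (e t g * (K *ᵥ e t) g) / 2 := by
          refine Finset.sum_le_sum fun g _ => ?_
          refine div_le_div_of_nonneg_right (mul_le_mul_of_nonneg_left ?_ (he0 t g)) two_pos.le
          exact (mul_le_mul_of_nonneg_right (hK.diag g) (he0 t g)).trans
            (Finset.single_le_sum (f := fun k => K g k * e t k)
              (fun k _ => mul_nonneg (hK.nonneg g k) (he0 t k)) (Finset.mem_univ (g : P)))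
      _ ≤ (∑ g, e t g * (K *ᵥ e t) g) / 2 := by
          rw [← Finset.sum_div, Finset.sum_coe_sort S fun g => e t g * (K *ᵥ e t) g]
          exact div_le_div_of_nonneg_right (Finset.sum_le_sum_of_subset_of_nonneg (Finset.subset_univ _)
            fun g _ _ => mul_nonneg (he0 t g) (mulVec_nonneg' hK.nonneg (he0 t) g)) two_pos.le
  have hpos : ∀ g : S, 0 < ν g := fun g => lt_of_le_of_ne (hν g) (by
    simpa [S, eq_comm] using (Finset.mem_filter.1 g.2).2)
  -- each one-variable function is bounded below and tends to infinity at both ends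
  have hone : ∀ g : S, ∀ M : ℝ, ∃ r, ∀ x : ℝ, r < |x| → M < c / 2 * Real.exp x ^ 2 - ν g * x := by
    intro g M
    refine ⟨max (|M| / ν g) ((ν g + |M| + 1) / c), fun x hx => ?_⟩
    obtain ⟨hx1, hx2⟩ := max_lt_iff.1 hx
    rw [div_lt_iff₀ (hpos g)] at hx1
    rw [div_lt_iff₀ hc] at hx2
    rcases le_total x 0 with hx0 | hx0
    · rw [abs_of_nonpos hx0] at hx1
      nlinarith [le_abs_self M, mul_nonneg (half_pos hc).le (sq_nonneg (Real.exp x))]
    · rw [abs_of_nonneg hx0] at hx1 hx2
      have h1 : 1 + 2 * x + (2 * x) ^ 2 / 2 ≤ Real.exp x ^ 2 := by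
        rw [← Real.exp_nat_mul]
        exact_mod_cast Real.quadratic_le_exp_of_nonneg (by positivity)
      have hx3 : 0 < x := by
        by_contra h
        have : x = 0 := le_antisymm (not_lt.1 h) hx0
        rw [this, zero_mul] at hx1
        linarith [abs_nonneg M]
      have h2 := mul_le_mul_of_nonneg_left h1 (half_pos hc).le
      have h3 := mul_lt_mul_of_pos_right hx2 hx3
      have h4 : 0 ≤ |M| * x := mul_nonneg (abs_nonneg M) hx0
      nlinarith [le_abs_self M]
  have hbdd : ∀ g : S, ∃ b, ∀ x : ℝ, b ≤ c / 2 * Real.exp x ^ 2 - ν g * x := by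
    intro g
    obtain ⟨r, hr⟩ := hone g 0
    obtain ⟨x₀, -, hx₀⟩ := (isCompact_Icc (a := -|r|) (b := |r|)).exists_isMinOn
      (Set.nonempty_Icc.2 (neg_le_self (abs_nonneg r)))
      (f := fun x : ℝ => c / 2 * Real.exp x ^ 2 - ν g * x) (by fun_prop)
    refine ⟨min 0 (c / 2 * Real.exp x₀ ^ 2 - ν g * x₀), fun x => ?_⟩
    by_cases hx : |x| ≤ |r|
    · exact (min_le_right _ _).trans (hx₀ (abs_le.1 hx))
    · exact (min_le_left _ _).trans (hr x (lt_of_le_of_lt (le_abs_self r) (not_le.1 hx))).le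
  choose b hb using hbdd
  choose r hr using fun g : S => hone g (f 0 + ∑ k, |b k|)
  obtain ⟨t, ht⟩ := hfc.exists_forall_le' 0 (show ∀ᶠ t in cocompact (S → ℝ), f 0 ≤ f t by
    rw [Filter.Eventually, Filter.mem_cocompact]
    refine ⟨Set.pi Set.univ fun g => Set.Icc (-|r g|) |r g|,
      isCompact_univ_pi fun g => isCompact_Icc, fun t ht => ?_⟩
    simp only [Set.mem_compl_iff, Set.mem_pi, Set.mem_univ, true_implies, not_forall] at ht
    obtain ⟨g, hg⟩ := ht
    have hgt : r g < |t g| := lt_of_le_of_lt (le_abs_self _) (not_le.1 fun h => hg (abs_le.1 h))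
    refine le_trans ?_ (hlow t)
    rw [← Finset.add_sum_erase _ _ (Finset.mem_univ g)]
    have h1 : -∑ k, |b k| ≤ ∑ k ∈ Finset.univ.erase g, (c / 2 * Real.exp (t k) ^ 2 - ν k * t k) := by
      calc -∑ k, |b k| ≤ -∑ k ∈ Finset.univ.erase g, |b k| := by
            refine neg_le_neg (Finset.sum_le_sum_of_subset_of_nonneg (Finset.subset_univ _)
              fun k _ _ => abs_nonneg _)
        _ ≤ _ := by
            rw [← Finset.sum_neg_distrib]
            exact Finset.sum_le_sum fun k _ => (neg_abs_le _).trans (hb k _)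
    linarith [hr g (t g) hgt])
  refine ⟨e t, he0 t, fun g hg => dif_neg (by simp [S, hg]), fun g => ?_⟩
  by_cases hgS : g ∈ S
  swap
  · have : ν g = 0 := by simpa [S] using hgS
    simp [e, dif_neg hgS, this]
  set gs : S := ⟨g, hgS⟩
  let φ : ℝ → ℝ := fun s => f (Function.update t gs s)
  have hmin : IsLocalMin φ (t gs) := Eventually.of_forall fun s => by
    simp only [φ, Function.update_eq_self]
    exact ht _
  have hde : ∀ k, HasDerivAt (fun s => e (Function.update t gs s) k)
      (if k = g then e t g else 0) (t gs) := by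
    intro k
    by_cases hk : k = g
    · subst hk
      simp only [e, dif_pos hgS, if_true, gs, Function.update_self]
      exact Real.hasDerivAt_exp _
    · simp only [if_neg hk]
      refine (hasDerivAt_const (t gs) (e t k)).congr_of_eventuallyEq (Eventually.of_forall fun s => ?_)
      simp only [e]
      split_ifs with h
      · rw [Function.update_of_ne]
        simp [gs, hk]
      · rfl
  have het : e (Function.update t gs (t gs)) = e t := by rw [Function.update_eq_self]
  have hdq : HasDerivAt (fun s => ∑ i, e (Function.update t gs s) i *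
      (K *ᵥ e (Function.update t gs s)) i) (2 * (e t g * (K *ᵥ e t) g)) (t gs) := by
    have h := HasDerivAt.fun_sum (u := Finset.univ) fun i _ =>
      (hde i).mul (HasDerivAt.fun_sum (u := Finset.univ) fun j _ => (hde j).const_mul (K i j))
    simp only [Matrix.mulVec, dotProduct]
    refine h.congr_deriv ?_
    simp only [het, ite_mul, zero_mul, mul_ite, mul_zero, Finset.sum_add_distrib,
      Finset.sum_ite_eq', Finset.mem_univ, if_true]
    have := bilin_symm hK.symm (e t) (Pi.single g (e t g))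
    simp only [Matrix.mulVec, dotProduct, Pi.single_apply, mul_ite, mul_zero, ite_mul, zero_mul,
      Finset.sum_ite_eq', Finset.mem_univ, if_true] at this
    rw [this]; ring
  have hdl : HasDerivAt (fun s => ∑ k : S, ν k * Function.update t gs s k) (ν g) (t gs) := by
    have h := HasDerivAt.fun_sum (u := Finset.univ) fun k _ =>
      (hasDerivAt_pi.1 (hasDerivAt_update t gs (t gs)) k).const_mul (ν (k : P))
    refine h.congr_deriv ?_
    simp [Pi.single_apply, gs]
  have hder := hmin.hasDerivAt_eq_zero ((hdq.div_const 2).sub hdl)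
  linarith

/-- The weights. -/
def weights {c : ℝ} (hc : 0 < c) {ν : P → ℝ} (hν : ∀ g, 0 ≤ ν g)
    (K : {K : Matrix P P ℝ // Admissible c K}) : P → ℝ :=
  (exists_balanced hc K.2 hν).choose

lemma weights_spec {c : ℝ} (hc : 0 < c) {ν : P → ℝ} (hν : ∀ g, 0 ≤ ν g)
    (K : {K : Matrix P P ℝ // Admissible c K}) : Balanced K.1 ν (weights hc hν K) :=
  (exists_balanced hc K.2 hν).choose_spec

/-- The weights depend continuously on the matrix. -/
lemma continuous_weights {c : ℝ} (hc : 0 < c) {ν : P → ℝ} (hν : ∀ g, 0 ≤ ν g) :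
    Continuous (weights hc hν) := by
  rw [continuous_iff_continuousAt]
  intro K
  have hbox : IsCompact (Set.pi Set.univ fun g => Set.Icc 0 (Real.sqrt (ν g / c))) :=
    isCompact_univ_pi fun g => isCompact_Icc
  have hmem : ∀ L, weights hc hν L ∈ Set.pi Set.univ fun g => Set.Icc 0 (Real.sqrt (ν g / c)) :=
    fun L g _ => ⟨(weights_spec hc hν L).1 g, by
      rw [Real.le_sqrt ((weights_spec hc hν L).1 g) (div_nonneg (hν g) hc.le),
        le_div_iff₀ hc, mul_comm]
      exact (weights_spec hc hν L).sq_le L.2 g⟩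
  refine hbox.tendsto_nhds_of_unique_mapClusterPt (Eventually.of_forall hmem) fun u _ hu => ?_
  obtain ⟨G, hG, hGu⟩ := mapClusterPt_iff_ultrafilter.1 hu
  refine Balanced.unique K.2 ⟨fun g => ?_, fun g hg => ?_, fun g => ?_⟩ (weights_spec hc hν K)
  · exact ge_of_tendsto' (((continuous_apply g).tendsto u).comp hGu) fun L =>
      (weights_spec hc hν L).1 g
  · exact tendsto_nhds_unique (((continuous_apply g).tendsto u).comp hGu)
      (tendsto_const_nhds.congr fun L => ((weights_spec hc hν L).2.1 g hg).symm)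
  · have hK : Tendsto (fun L : {K : Matrix P P ℝ // Admissible c K} => L.1) G (𝓝 K.1) :=
      (continuous_subtype_val.tendsto K).mono_left hG
    have h := (((continuous_apply g).tendsto u).comp hGu).mul
      (tendsto_finsetSum Finset.univ fun h _ =>
        ((((continuous_apply h).tendsto _).comp (((continuous_apply g).tendsto _).comp hK))).mul
          (((continuous_apply h).tendsto u).comp hGu))
    refine tendsto_nhds_unique h (tendsto_const_nhds.congr fun L => ?_)
    exact ((weights_spec hc hν L).2.2 g).symm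

end Vale.Agent.P095
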