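import Mathlib
import Vale.Agent.P095.Weights

/-!
Polynomial approximation of the balanced weights on bounded admissible matrices.
-/

noncomputable section

open Filter Topology Finset Matrix

namespace Vale.Agent.P095

variable {P : Type*} [Fintype P]

/-- Bounded admissible matrices form a compact set. -/
lemma isCompact_admissible (c B : ℝ) :
    IsCompact {K : Matrix P P ℝ | Admissible c K ∧ ∀ g h, K g h ≤ B} := by
  have hbox : IsCompact (Set.pi Set.univ fun _ : P => Set.pi Set.univ fun _ : P => Set.Icc (0 : ℝ) B) :=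
    isCompact_univ_pi fun _ => isCompact_univ_pi fun _ => isCompact_Icc
  refine hbox.of_isClosed_subset ?_ fun K hK g _ h _ => ⟨hK.1.nonneg g h, hK.2 g h⟩
  have : {K : Matrix P P ℝ | Admissible c K ∧ ∀ g h, K g h ≤ B}
      = (⋂ g, ⋂ h, {K | K g h = K h g} ∩ {K | 0 ≤ K g h} ∩ {K | K g h ≤ B}) ∩
        (⋂ g, {K | c ≤ K g g}) ∩ ⋂ x : P → ℝ, {K | 0 ≤ ∑ g, x g * (K *ᵥ x) g} := by
    ext K
    simp only [Set.mem_inter_iff, Set.mem_iInter, Set.mem_ofPred_eq]
    exact ⟨fun h => ⟨⟨fun g k => ⟨⟨h.1.symm g k, h.1.nonneg g k⟩, h.2 g k⟩, h.1.diag⟩, h.1.psd⟩,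
      fun h => ⟨⟨fun g k => (h.1.1 g k).1.1, fun g k => (h.1.1 g k).1.2, h.1.2, h.2⟩,
        fun g k => (h.1.1 g k).2⟩⟩
  rw [this]
  have hco : ∀ g h : P, Continuous fun K : Matrix P P ℝ => K g h := fun g h =>
    (continuous_apply h).comp (continuous_apply g)
  refine ((isClosed_iInter fun g => isClosed_iInter fun h => ((isClosed_eq (hco g h) (hco h g)).inter
    (isClosed_le continuous_const (hco g h))).inter (isClosed_le (hco g h) continuous_const)).inter
    (isClosed_iInter fun g => isClosed_le continuous_const (hco g g))).inter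
    (isClosed_iInter fun x => isClosed_le continuous_const ?_)
  simp only [Matrix.mulVec, dotProduct]
  exact continuous_finsetSum _ fun g _ => continuous_const.mul
    (continuous_finsetSum _ fun h _ => (hco g h).mul continuous_const)

/-- The weights are uniformly approximated by polynomials in the entries. -/
lemma exists_poly_weights {c : ℝ} (hc : 0 < c) (B : ℝ) {ν : P → ℝ} (hν : ∀ g, 0 ≤ ν g) {ε : ℝ}
    (hε : 0 < ε) :
    ∃ p : P → MvPolynomial (P × P) ℝ, ∀ (K : {K : Matrix P P ℝ // Admissible c K}),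
      (∀ g h, K.1 g h ≤ B) → ∀ g,
        |weights hc hν K g - MvPolynomial.eval (fun q => K.1 q.1 q.2) (p g)| < ε := by
  set T : Set (Matrix P P ℝ) := {K | Admissible c K ∧ ∀ g h, K g h ≤ B}
  have : CompactSpace T := isCompact_iff_compactSpace.1 (isCompact_admissible c B)
  let entry : P × P → C(T, ℝ) := fun q =>
    ⟨fun K => K.1 q.1 q.2, (((continuous_apply q.2).comp (continuous_apply q.1) :
      Continuous fun K : P → P → ℝ => K q.1 q.2)).comp continuous_subtype_val⟩
  have hsep : (Algebra.adjoin ℝ (Set.range entry)).SeparatesPoints := by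
    intro K L hKL
    obtain ⟨g, h, hgh⟩ : ∃ g h, K.1 g h ≠ L.1 g h := by
      by_contra hne
      push Not at hne
      exact hKL (Subtype.ext (Matrix.ext hne))
    exact ⟨entry (g, h), ⟨entry (g, h), Algebra.subset_adjoin ⟨(g, h), rfl⟩, rfl⟩, hgh⟩
  have key : ∀ g, ∃ p : MvPolynomial (P × P) ℝ, ∀ K : T,
      |weights hc hν ⟨K.1, K.2.1⟩ g - MvPolynomial.eval (fun q => K.1 q.1 q.2) p| < ε := by
    intro g
    let F : C(T, ℝ) := ⟨fun K => weights hc hν ⟨K.1, K.2.1⟩ g,
      (continuous_apply g).comp ((continuous_weights hc hν).comp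
        (continuous_subtype_val.subtype_mk _))⟩
    obtain ⟨⟨G, hG⟩, hFG⟩ :=
      ContinuousMap.exists_mem_subalgebra_near_continuousMap_of_separatesPoints
        (Algebra.adjoin ℝ (Set.range entry)) hsep F ε hε
    rw [Algebra.adjoin_range_eq_range_aeval] at hG
    obtain ⟨p, hp⟩ := hG
    refine ⟨p, fun K => ?_⟩
    have he : MvPolynomial.eval (fun q => K.1 q.1 q.2) p = G K := by
      rw [← hp]
      clear hp hFG
      induction p using MvPolynomial.induction_on with
      | C a => simp
      | add p q hp hq => simp [hp, hq]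
      | mul_X p q hp => simp [hp, entry]
    rw [he]
    have h1 := (G - F).norm_coe_le_norm K
    rw [Real.norm_eq_abs, ContinuousMap.sub_apply] at h1
    rw [abs_sub_comm]
    exact lt_of_le_of_lt h1 hFG
  choose p hp using key
  exact ⟨p, fun K hK g => hp g ⟨K.1, K.2, hK⟩⟩

end Vale.Agent.P095
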