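import Mathlib
import Vale.Agent.P095.Defs
import Vale.Agent.P095.Poly
import Vale.Agent.P095.WeightsApprox

/-!
The weights module: polynomial almost balanced weights for the uniform distribution, natural under
injective maps of indices, with the distance controlled by the symmetric difference.
-/

noncomputable section

open Filter Topology Finset Matrix

namespace Vale.Agent.P095

universe v

variable {P : Type v} [Fintype P]

lemma quad_eq_mulVec (K : P → P → ℝ) (t : P → ℝ) :
    quad K t = ∑ g, t g * ((Matrix.of K) *ᵥ t) g := by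
  simp only [quad, Matrix.mulVec, dotProduct, Matrix.of_apply, Finset.mul_sum]
  exact Finset.sum_congr rfl fun a _ => Finset.sum_congr rfl fun b _ => by ring

lemma admissible_of_mem_Dom {K : P → P → ℝ} (hK : K ∈ Dom P) :
    Admissible 1 (Matrix.of K) :=
  ⟨hK.1, hK.2.1, fun g => (hK.2.2.1 g).ge, fun t => (quad_eq_mulVec K t) ▸ hK.2.2.2 t⟩

lemma le_one_of_mem_Dom {K : P → P → ℝ} (hK : K ∈ Dom P) (a b : P) : K a b ≤ 1 := by
  classical
  rcases eq_or_ne a b with rfl | hab
  · exact (hK.2.2.1 a).le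
  · have h := hK.2.2.2 (fun x => (if x = a then (1 : ℝ) else 0) - if x = b then 1 else 0)
    simp only [sub_mul, mul_sub, ite_mul, one_mul, zero_mul, mul_ite, mul_one, mul_zero,
      Finset.sum_sub_distrib, Finset.sum_ite_eq', Finset.mem_univ, if_true] at h
    linarith [hK.1 a b, hK.2.2.1 a, hK.2.2.1 b]

lemma sum_push_mul {ι : Type v} [Fintype ι] [DecidableEq ι] (j : P → ι) (t : P → ℝ) (F : ι → ℝ) :
    ∑ k, push j t k * F k = ∑ a, t a * F (j a) := by
  simp only [push, Finset.sum_mul]
  rw [Finset.sum_comm]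
  refine Finset.sum_congr rfl fun a _ => ?_
  simp [ite_mul]

lemma quad_push {ι : Type v} [Fintype ι] [DecidableEq ι] (K : ι → ι → ℝ) (j : P → ι) (t : P → ℝ) :
    quad K (push j t) = quad (fun s r => K (j s) (j r)) t := by
  simp only [quad, mul_assoc, ← Finset.mul_sum, sum_push_mul]

lemma pull_mem_Dom {ι : Type v} [Fintype ι] {K : ι → ι → ℝ} (hK : K ∈ Dom ι) (j : P → ι) :
    (fun s r => K (j s) (j r)) ∈ Dom P := by
  classical
  exact ⟨fun a b => hK.1 _ _, fun a b => hK.2.1 _ _, fun a => hK.2.2.1 _, fun t =>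
    le_of_le_of_eq (hK.2.2.2 (push j t)) (quad_push K j t)⟩

lemma push_apply_of_injective {ι : Type v} [DecidableEq ι] {j : P → ι} (hj : Function.Injective j)
    (t : P → ℝ) (a : P) : push j t (j a) = t a := by
  classical
  simp [push, hj.eq_iff]

lemma push_apply_of_notMem {ι : Type v} [DecidableEq ι] {j : P → ι} (t : P → ℝ) {k : ι}
    (hk : k ∉ Set.range j) : push j t k = 0 :=
  Finset.sum_eq_zero fun a _ => if_neg fun h => hk ⟨a, h⟩

lemma push_sub {ι : Type v} [DecidableEq ι] (j : P → ι) (s t : P → ℝ) (k : ι) :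
    push j (s - t) k = push j s k - push j t k := by
  simp only [push, ← Finset.sum_sub_distrib]
  exact Finset.sum_congr rfl fun a _ => by split_ifs <;> simp

lemma sum_abs_push_le {ι : Type v} [Fintype ι] [DecidableEq ι] (j : P → ι) (t : P → ℝ) :
    ∑ k, |push j t k| ≤ ∑ a, |t a| := by
  calc ∑ k, |push j t k| ≤ ∑ k, push j (fun a => |t a|) k * 1 := Finset.sum_le_sum fun k _ => by
        rw [mul_one]
        refine (Finset.abs_sum_le_sum_abs _ _).trans (Finset.sum_le_sum fun a _ => ?_)
        split_ifs <;> simp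
    _ = ∑ a, |t a| := by rw [sum_push_mul]; simp

/-- Pushing balanced weights along an injection gives balanced weights. -/
lemma balanced_push {ι : Type v} [Fintype ι] [DecidableEq ι] {j : P → ι}
    (hj : Function.Injective j) (K : ι → ι → ℝ) {ν u : P → ℝ} (hν : ∀ a, 0 < ν a)
    (h : Balanced (Matrix.of fun s r => K (j s) (j r)) ν u) :
    Balanced (Matrix.of K) (push j ν) (push j u) := by
  refine ⟨fun k => ?_, fun k hk => ?_, fun k => ?_⟩
  · exact Finset.sum_nonneg fun a _ => by
      split_ifs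
      · exact h.1 a
      · exact le_rfl
  · refine push_apply_of_notMem u fun ⟨a, ha⟩ => ?_
    rw [← ha, push_apply_of_injective hj] at hk
    exact (hν a).ne' hk
  · by_cases hk : k ∈ Set.range j
    · obtain ⟨a, rfl⟩ := hk
      rw [push_apply_of_injective hj, push_apply_of_injective hj, ← h.2.2 a]
      congr 1
      simp only [Matrix.mulVec, dotProduct, Matrix.of_apply]
      rw [Finset.sum_congr rfl fun x _ => mul_comm (K (j a) x) _, sum_push_mul]
      exact Finset.sum_congr rfl fun x _ => mul_comm _ _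
    · simp [push_apply_of_notMem _ hk]

/-- The quadratic form of a matrix with entries in the unit interval is locally Lipschitz in the
sum norm. -/
lemma abs_quad_sub_le {K : P → P → ℝ} (hK : ∀ a b, |K a b| ≤ 1) (s t : P → ℝ) :
    |quad K s - quad K t| ≤ (∑ a, |s a - t a|) * (2 * ∑ a, |t a| + ∑ a, |s a - t a|) := by
  have h1 : ∀ x y : P → ℝ, |∑ a, ∑ b, x a * y b * K a b| ≤ (∑ a, |x a|) * ∑ b, |y b| := by
    intro x y
    rw [Finset.sum_mul_sum]
    refine (Finset.abs_sum_le_sum_abs _ _).trans (Finset.sum_le_sum fun a _ => ?_)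
    refine (Finset.abs_sum_le_sum_abs _ _).trans (Finset.sum_le_sum fun b _ => ?_)
    rw [abs_mul, abs_mul]
    exact mul_le_of_le_one_right (by positivity) (hK a b)
  have e : quad K s - quad K t = ∑ a, ∑ b, (s a - t a) * t b * K a b
      + ∑ a, ∑ b, t a * (s b - t b) * K a b
      + ∑ a, ∑ b, (s a - t a) * (s b - t b) * K a b := by
    simp only [quad, ← Finset.sum_add_distrib, ← Finset.sum_sub_distrib]
    exact Finset.sum_congr rfl fun a _ => Finset.sum_congr rfl fun b _ => by ring
  rw [e]
  refine (abs_add_le _ _).trans ((add_le_add (abs_add_le _ _) le_rfl).trans ?_)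
  linarith [h1 (fun a => s a - t a) t, h1 t (fun a => s a - t a),
    h1 (fun a => s a - t a) (fun a => s a - t a)]

omit [Fintype P] in
lemma exists_free_of_mv (p : MvPolynomial (P × P) ℝ) :
    ∃ q : Poly P, ∀ K : P → P → ℝ, evR K q = MvPolynomial.eval (fun x => K x.1 x.2) p := by
  induction p using MvPolynomial.induction_on with
  | C a => exact ⟨algebraMap ℝ _ a, fun K => by simp⟩
  | add p q hp hq =>
    obtain ⟨p', hp⟩ := hp
    obtain ⟨q', hq⟩ := hq
    exact ⟨p' + q', fun K => by simp [hp, hq]⟩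
  | mul_X p x hp =>
    obtain ⟨p', hp⟩ := hp
    obtain ⟨a, b⟩ := x
    exact ⟨p' * FreeAlgebra.ι ℝ (a, b), fun K => by simp [hp, evR_ι]⟩

/-- Module Weights. -/
theorem weights_ok : WeightsStatement.{v} := by
  intro P _ _ _ ε hε
  set n : ℝ := (Fintype.card P : ℝ) with hn_def
  have hn : 1 ≤ n := Nat.one_le_cast.2 Fintype.card_pos
  let ν : P → ℝ := fun _ => n⁻¹
  have hνpos : ∀ a, 0 < ν a := fun _ => by positivity
  have hν : ∀ a, 0 ≤ ν a := fun a => (hνpos a).le
  have hν1 : ∀ a, ν a ≤ 1 := fun _ => inv_le_one_of_one_le₀ hn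
  have hνsum : ∑ a, ν a = 1 := by
    have : n ≠ 0 := by linarith
    simp [ν, n, Finset.card_univ] at this ⊢
  set δ : ℝ := min 1 (ε / (12 * n ^ 2))
  have hδ0 : 0 < δ := lt_min one_pos (by positivity)
  have hδ1 : δ ≤ 1 := min_le_left _ _
  have hδε : 12 * n ^ 2 * δ ≤ ε := by
    have := min_le_right 1 (ε / (12 * n ^ 2))
    rw [mul_comm]
    exact (le_div_iff₀ (by positivity)).1 this
  obtain ⟨q, hq⟩ := exists_poly_weights (P := P) one_pos 1 hν hδ0
  choose p hp using fun a => exists_free_of_mv (q a)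
  have key : ∀ K : P → P → ℝ, K ∈ Dom P → ∃ u : P → ℝ, Balanced (Matrix.of K) ν u ∧
      ∑ a, |evR K (p a) - u a| ≤ n * δ ∧ ∑ a, |u a| ≤ n := by
    intro K hK
    let M : {K : Matrix P P ℝ // Admissible 1 K} := ⟨Matrix.of K, admissible_of_mem_Dom hK⟩
    refine ⟨weights one_pos hν M, weights_spec one_pos hν M, ?_, ?_⟩
    · calc ∑ a, |evR K (p a) - weights one_pos hν M a| ≤ ∑ _a : P, δ :=
            Finset.sum_le_sum fun a _ => by
              have := hq M (fun g h => le_one_of_mem_Dom hK g h) a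
              rw [abs_sub_comm, hp a K]
              exact this.le
        _ = n * δ := by simp [n]
    · calc ∑ a, |weights one_pos hν M a| ≤ ∑ _a : P, (1 : ℝ) :=
            Finset.sum_le_sum fun a _ => by
              have hb := weights_spec one_pos hν M
              have h2 := hb.sq_le M.2 a
              rw [abs_of_nonneg (hb.1 a)]
              nlinarith [hν1 a, hb.1 a]
        _ = n := by simp [n]
  refine ⟨p, fun K hK => ?_, fun ι _ _ j₁ j₂ hj₁ hj₂ K hK => ?_⟩
  · obtain ⟨u, hu, h1, h2⟩ := key K hK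
    have hquad : quad K u = 1 := by rw [quad_eq_mulVec, hu.quad, hνsum]
    rw [← hquad]
    refine (abs_quad_sub_le (fun a b => ?_) _ _).trans (le_trans ?_ hδε)
    · rw [abs_of_nonneg (hK.2.1 a b)]; exact le_one_of_mem_Dom hK a b
    · calc (∑ a, |evR K (p a) - u a|) * (2 * ∑ a, |u a| + ∑ a, |evR K (p a) - u a|)
          ≤ n * δ * (2 * n + n * δ) :=
            mul_le_mul h1 (by linarith) (add_nonneg (by positivity)
              (Finset.sum_nonneg fun a _ => abs_nonneg _)) (by positivity)
        _ ≤ 12 * n ^ 2 * δ := by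
            nlinarith [mul_nonneg (mul_nonneg (by linarith : (0:ℝ) ≤ n) (by linarith : (0:ℝ) ≤ n))
              hδ0.le, mul_le_mul_of_nonneg_left hδ1 (by positivity : (0:ℝ) ≤ n ^ 2 * δ)]
  · obtain ⟨u₁, hu₁, h11, h12⟩ := key _ (pull_mem_Dom hK j₁)
    obtain ⟨u₂, hu₂, h21, h22⟩ := key _ (pull_mem_Dom hK j₂)
    set A₁ : P → ℝ := fun a => evR (fun s t => K (j₁ s) (j₁ t)) (p a)
    set A₂ : P → ℝ := fun a => evR (fun s t => K (j₂ s) (j₂ t)) (p a)
    set x : ι → ℝ := fun k => push j₁ u₁ k - push j₂ u₂ k with hx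
    set y : ι → ℝ := fun k => push j₁ A₁ k - push j₂ A₂ k with hy
    have hb₁ := balanced_push hj₁ K hνpos hu₁
    have hb₂ := balanced_push hj₂ K hνpos hu₂
    have hexact : quad K x ≤ (Set.ncard (symmDiff (Set.range j₁) (Set.range j₂)) : ℝ) / n := by
      rw [quad_eq_mulVec]
      refine (hb₁.dist_le hK.2.1 hb₂).trans ((sum_sqrt_sub_sq_le (fun k => ?_) fun k => ?_).trans ?_)
      · exact Finset.sum_nonneg fun a _ => by split_ifs <;> [exact hν a; exact le_rfl]
      · exact Finset.sum_nonneg fun a _ => by split_ifs <;> [exact hν a; exact le_rfl]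
      classical
      have hval : ∀ j : P → ι, Function.Injective j → ∀ k,
          push j ν k = if k ∈ Set.range j then n⁻¹ else 0 := by
        intro j hj k
        by_cases hk : k ∈ Set.range j
        · obtain ⟨a, rfl⟩ := hk
          rw [push_apply_of_injective hj, if_pos ⟨a, rfl⟩]
        · rw [push_apply_of_notMem _ hk, if_neg hk]
      have hterm : ∀ k, |push j₁ ν k - push j₂ ν k|
          = if k ∈ symmDiff (Set.range j₁) (Set.range j₂) then n⁻¹ else 0 := by
        intro k
        have hn0 : 0 ≤ n⁻¹ := by positivity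
        rw [hval j₁ hj₁, hval j₂ hj₂]
        by_cases h1 : k ∈ Set.range j₁ <;> by_cases h2 : k ∈ Set.range j₂ <;>
          simp [h1, h2, Set.mem_symmDiff, abs_of_nonneg hn0]
      rw [Finset.sum_congr rfl fun k _ => hterm k, ← Finset.sum_filter, Finset.sum_const,
        nsmul_eq_mul, ← div_eq_mul_inv, Set.ncard_eq_toFinset_card']
      exact le_of_eq (by congr 3; ext k; simp [Set.mem_symmDiff, Finset.mem_symmDiff])
    have hd : ∑ k, |y k - x k| ≤ 2 * (n * δ) := by
      calc ∑ k, |y k - x k| ≤ ∑ k, (|push j₁ (A₁ - u₁) k| + |push j₂ (A₂ - u₂) k|) := by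
            refine Finset.sum_le_sum fun k _ => ?_
            have : y k - x k = push j₁ (A₁ - u₁) k - push j₂ (A₂ - u₂) k := by
              rw [push_sub, push_sub, hx, hy]; ring
            rw [this]
            exact abs_sub _ _
        _ ≤ 2 * (n * δ) := by
            rw [Finset.sum_add_distrib, two_mul]
            exact add_le_add ((sum_abs_push_le j₁ _).trans h11) ((sum_abs_push_le j₂ _).trans h21)
    have hxl : ∑ k, |x k| ≤ 2 * n := by
      calc ∑ k, |x k| ≤ ∑ k, (|push j₁ u₁ k| + |push j₂ u₂ k|) :=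
            Finset.sum_le_sum fun k _ => abs_sub _ _
        _ ≤ 2 * n := by
            rw [Finset.sum_add_distrib, two_mul]
            exact add_le_add ((sum_abs_push_le j₁ _).trans h12) ((sum_abs_push_le j₂ _).trans h22)
    have herr : |quad K y - quad K x| ≤ ε := by
      refine (abs_quad_sub_le (fun a b => ?_) _ _).trans (le_trans ?_ hδε)
      · rw [abs_of_nonneg (hK.2.1 a b)]; exact le_one_of_mem_Dom hK a b
      · calc (∑ k, |y k - x k|) * (2 * ∑ k, |x k| + ∑ k, |y k - x k|)
            ≤ 2 * (n * δ) * (2 * (2 * n) + 2 * (n * δ)) :=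
              mul_le_mul hd (by linarith) (add_nonneg (by positivity)
                (Finset.sum_nonneg fun a _ => abs_nonneg _)) (by positivity)
          _ ≤ 12 * n ^ 2 * δ := by
              nlinarith [mul_le_mul_of_nonneg_left hδ1 (by positivity : (0:ℝ) ≤ n ^ 2 * δ)]
    linarith [abs_le.1 herr]

end Vale.Agent.P095
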