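import Mathlib
import Vale.Agent.P095.Defs
import Vale.Agent.P095.Unfold
import Vale.Agent.P095.WeightsMain
import Vale.Agent.P095.Asymp
import Vale.Agent.P095.Sweep
import Vale.Agent.P095.Reduce
import Vale.Agent.P095.Stage1.Approx
import Vale.Agent.P095.Stage1.Odd
import Vale.Agent.P095.Stage1.PairBlocks

/-!
P095: assembly of the main statement from the modules.
-/

noncomputable section

namespace Vale.Agent.P095

universe u v

theorem final_of_gauss (hGa : GaussStatement.{u, v}) (hLip : ExpLipStatement.{u})
    (hS2 : Stage2Statement.{u, v}) : Final.{u, v} :=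
  final_of (stage1_of weights_ok asymp_ok hGa sweep_ok hLip pairBlocks_ok odd_ok) hS2 reduce_ok

end Vale.Agent.P095
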