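import Mathlib
import Vale.Agent.P095.Basic

/-!
Exponentials of self-adjoint elements: perturbation bounds in norm and in trace two-norms.
-/

noncomputable section

namespace Vale.Agent.P095

universe u

variable {A : Type u} [CStarAlgebra A]

/-- The one-parameter group generated by a self-adjoint element. -/
def gex (a : A) (t : ℝ) : A := NormedSpace.exp (t • (Complex.I • a))

lemma gex_eq (a : A) (θ : ℝ) : gex a θ = NormedSpace.exp ((Complex.I * θ) • a) := by
  rw [gex, ← Complex.coe_smul, smul_smul, mul_comm]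

@[simp] lemma gex_zero (a : A) : gex a 0 = 1 := by simp [gex]

lemma hasDerivAt_gex (a : A) (t : ℝ) : HasDerivAt (gex a) ((Complex.I • a) * gex a t) t :=
  hasDerivAt_exp_smul_const' (Complex.I • a) t

lemma hasDerivAt_gex' (a : A) (t : ℝ) : HasDerivAt (gex a) (gex a t * (Complex.I • a)) t :=
  hasDerivAt_exp_smul_const (Complex.I • a) t

lemma gex_mem_unitary {a : A} (ha : IsSelfAdjoint a) (t : ℝ) : gex a t ∈ unitary A := by
  let +nondep : NormedAlgebra ℚ A := .restrictScalars ℚ ℂ A
  refine NormedSpace.exp_mem_unitary_of_mem_skewAdjoint ?_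
  exact skewAdjoint.smul_mem t (ha.smul_mem_skewAdjoint Complex.conj_I)

lemma norm_gex_le {a : A} (ha : IsSelfAdjoint a) (t : ℝ) : ‖gex a t‖ ≤ 1 := by
  refine (sq_le_one_iff₀ (norm_nonneg _)).1 ?_
  rw [sq, ← CStarRing.norm_star_mul_self, Unitary.star_mul_self_of_mem (gex_mem_unitary ha t)]
  rcases subsingleton_or_nontrivial A with _ | _
  · rw [Subsingleton.elim (1 : A) 0, norm_zero]; exact zero_le_one
  · rw [norm_one]

lemma commute_gex {a x : A} (h : Commute x a) (t : ℝ) : Commute x (gex a t) :=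
  ((h.smul_right Complex.I).smul_right t).exp_right

/-- Conjugation by a symmetry. -/
lemma conj_gex {z : A} (hz : z * z = 1) (a : A) (t : ℝ) : z * gex a t * z = gex (z * a * z) t := by
  let +nondep : NormedAlgebra ℚ A := .restrictScalars ℚ ℂ A
  have h := NormedSpace.exp_units_conj (⟨z, z, hz, hz⟩ : Aˣ) (t • (Complex.I • a))
  simp only [Units.inv_mk, mul_smul_comm, smul_mul_assoc] at h
  exact h.symm

/-- First order perturbation in norm. -/
lemma norm_gex_add_sub_le {a s : A} (ha : IsSelfAdjoint a) (hs : IsSelfAdjoint s) (t : ℝ) :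
    ‖gex (a + s) t - gex a t‖ ≤ |t| * ‖s‖ := by
  have hd : ∀ u : ℝ, HasDerivAt (fun u => gex (a + s) (t - u) * gex a u)
      (gex (a + s) (t - u) * (-(Complex.I • s)) * gex a u) u := by
    intro u
    have h1 := (hasDerivAt_gex' (a + s) (t - u)).scomp u ((hasDerivAt_id u).const_sub t)
    refine (h1.mul (hasDerivAt_gex a u)).congr_deriv ?_
    simp only [Function.comp_apply, neg_smul, one_smul, smul_add, mul_add]
    noncomm_ring
  have h := Convex.norm_image_sub_le_of_norm_hasDerivWithin_le (s := Set.univ) (x := t) (y := 0)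
    (fun u _ => (hd u).hasDerivWithinAt) (C := ‖s‖) (fun u _ => ?_) convex_univ trivial trivial
  · simpa [mul_comm] using h
  · refine (norm_mul_le _ _).trans ((mul_le_of_le_one_right (norm_nonneg _) (norm_gex_le ha u)).trans
      ((norm_mul_le _ _).trans ((mul_le_of_le_one_left (norm_nonneg _)
        (norm_gex_le (ha.add hs) _)).trans ?_)))
    simp [norm_smul]

/-- Second order perturbation in norm. -/
lemma norm_gex_add_sub_sub_le {a s : A} (ha : IsSelfAdjoint a) (hs : IsSelfAdjoint s) (t : ℝ) :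
    ‖gex (a + s) t - gex a t - (Complex.I * t) • (s * gex a t)‖ ≤
      t ^ 2 * (‖s‖ ^ 2 + ‖br a s‖) := by
  set e : A := Complex.I • s with he
  have hd : ∀ u : ℝ, HasDerivAt (fun u => gex (a + s) (t - u) * (1 + u • e) * gex a u)
      (gex (a + s) (t - u) * (u • (e * (Complex.I • a) - (Complex.I • a) * e - e * e)) * gex a u) u := by
    intro u
    have h1 := (hasDerivAt_gex' (a + s) (t - u)).scomp u ((hasDerivAt_id u).const_sub t)
    have h2 : HasDerivAt (fun v : ℝ => (1 : A) + v • e) ((1 : ℝ) • e) u :=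
      ((hasDerivAt_id u).smul_const e).const_add 1
    refine ((h1.mul h2).mul (hasDerivAt_gex a u)).congr_deriv ?_
    simp only [Pi.mul_apply, Function.comp_apply, neg_smul, one_smul, smul_add, mul_add, ← he]
    simp only [smul_sub, mul_sub, sub_mul, add_mul, neg_mul, mul_one,
      mul_smul_comm, smul_mul_assoc, mul_assoc, one_mul]
    module
  have hb : ∀ u ∈ Set.uIcc 0 t,
      ‖gex (a + s) (t - u) * (u • (e * (Complex.I • a) - (Complex.I • a) * e - e * e)) * gex a u‖ ≤
        |t| * (‖s‖ ^ 2 + ‖br a s‖) := by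
    intro u hu
    refine (norm_mul_le _ _).trans ((mul_le_of_le_one_right (norm_nonneg _) (norm_gex_le ha u)).trans
      ((norm_mul_le _ _).trans ((mul_le_of_le_one_left (norm_nonneg _)
        (norm_gex_le (ha.add hs) _)).trans ?_)))
    rw [norm_smul, Real.norm_eq_abs]
    refine mul_le_mul ?_ ?_ (norm_nonneg _) (abs_nonneg _)
    · simpa using Set.abs_sub_left_of_mem_uIcc hu
    · have e1 : e * (Complex.I • a) - (Complex.I • a) * e - e * e = br a s + s * s := by
        simp only [he, br, smul_mul_assoc, mul_smul_comm, smul_smul, Complex.I_mul_I, neg_smul,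
          one_smul]
        abel
      rw [e1, add_comm (‖s‖ ^ 2), sq]
      exact (norm_add_le _ _).trans (add_le_add le_rfl (norm_mul_le _ _))
  have h := Convex.norm_image_sub_le_of_norm_hasDerivWithin_le (s := Set.uIcc 0 t) (x := t) (y := 0)
    (fun u _ => (hd u).hasDerivWithinAt) hb (convex_uIcc 0 t) Set.right_mem_uIcc Set.left_mem_uIcc
  simp only [sub_self, gex_zero, one_mul, sub_zero, zero_smul, add_zero, mul_one, zero_sub,
    norm_neg, Real.norm_eq_abs, add_mul] at h
  rw [show |t| * (‖s‖ ^ 2 + ‖br a s‖) * |t| = t ^ 2 * (‖s‖ ^ 2 + ‖br a s‖) by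
    rw [← sq_abs t]; ring] at h
  refine le_trans (le_of_eq ?_) h
  congr 1
  rw [he, smul_mul_assoc, smul_mul_assoc, ← Complex.coe_smul, smul_smul, mul_comm Complex.I]
  abel

variable {τ : A →ₗ[ℂ] ℂ}

/-- A tracial state as a continuous real linear map. -/
def IsTr.toCLM (hτ : IsTr τ) : A →L[ℝ] ℂ :=
  LinearMap.mkContinuous (τ.restrictScalars ℝ) 1 fun x => by simpa using hτ.norm_map_le x

lemma IsTr.toCLM_apply (hτ : IsTr τ) (x : A) : hτ.toCLM x = τ x := rfl

lemma IsTr.hasDerivAt_tr (hτ : IsTr τ) {f : ℝ → A} {f' : A} {t : ℝ} (h : HasDerivAt f f' t) :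
    HasDerivAt (fun u => τ (f u)) (τ f') t := by
  have h2 := hτ.toCLM.hasFDerivAt.comp_hasDerivAt t h
  exact h2

/-- The two-norm Lipschitz bound. -/
lemma IsTr.sn_gex_sub_le (hτ : IsTr τ) {a b : A} (ha : IsSelfAdjoint a) (hb : IsSelfAdjoint b)
    (t : ℝ) : sn τ (gex a t - gex b t) ≤ |t| * sn τ (a - b) := by
  set Z := gex a t - gex b t with hZ
  have hd : ∀ u : ℝ, HasDerivAt (fun u => τ (star Z * (gex a u * gex b (t - u))))
      (τ (star Z * (gex a u * (Complex.I • (a - b)) * gex b (t - u)))) u := by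
    intro u
    have h1 := (hasDerivAt_gex b (t - u)).scomp u ((hasDerivAt_id u).const_sub t)
    refine (hτ.hasDerivAt_tr (((hasDerivAt_gex' a u).mul h1).const_mul (star Z))).congr_deriv ?_
    congr 2
    simp only [Function.comp_apply, neg_smul, one_smul, smul_sub]
    noncomm_ring
  have h := Convex.norm_image_sub_le_of_norm_hasDerivWithin_le (s := Set.univ) (x := 0) (y := t)
    (fun u _ => (hd u).hasDerivWithinAt) (C := sn τ Z * sn τ (a - b)) (fun u _ => ?_) convex_univ
    trivial trivial
  · simp only [sub_self, gex_zero, mul_one, sub_zero, one_mul] at h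
    rw [← map_sub, ← mul_sub, ← hZ, hτ.map_star_mul_self, Complex.norm_real, Real.norm_eq_abs,
      Real.norm_eq_abs, abs_of_nonneg (sq_nonneg _)] at h
    rcases (sn_nonneg (τ := τ) Z).eq_or_lt with h0 | h0
    · rw [← h0]; exact mul_nonneg (abs_nonneg _) (sn_nonneg _)
    · nlinarith
  · refine (hτ.norm_map_mul_le _ _).trans ?_
    rw [hτ.sn_star]
    refine mul_le_mul_of_nonneg_left ?_ (sn_nonneg _)
    refine (hτ.sn_mul_le_right _ _).trans ((mul_le_of_le_one_right (sn_nonneg _)
      (norm_gex_le hb _)).trans ((hτ.sn_mul_le_left _ _).trans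
        ((mul_le_of_le_one_left (sn_nonneg _) (norm_gex_le ha u)).trans (le_of_eq ?_))))
    rw [hτ.sn_smul, Complex.norm_I, one_mul]

/-- The commutator of a symmetry with an exponential. -/
lemma IsTr.sn_br_gex_le (hτ : IsTr τ) {z a : A} (hz : z * z = 1) (hza : IsSelfAdjoint z)
    (ha : IsSelfAdjoint a) (t : ℝ) : sn τ (br z (gex a t)) ≤ |t| * sn τ (br z a) := by
  have hn : ‖z‖ ≤ 1 := by
    refine (sq_le_one_iff₀ (norm_nonneg z)).1 ?_
    rw [sq, ← CStarRing.norm_star_mul_self, hza.star_eq, hz]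
    rcases subsingleton_or_nontrivial A with _ | _
    · rw [Subsingleton.elim (1 : A) 0, norm_zero]; exact zero_le_one
    · rw [norm_one]
  have key : ∀ x : A, z * x * z - x = br z x * z ∧ br z x = (z * x * z - x) * z := by
    intro x
    constructor <;> simp only [br, sub_mul, mul_assoc, hz, mul_one]
  have hc : IsSelfAdjoint (z * a * z) := by
    have := ha.conjugate z
    rwa [hza.star_eq] at this
  rw [(key _).2, conj_gex hz]
  refine (hτ.sn_mul_le_right _ _).trans ((mul_le_of_le_one_right (sn_nonneg _) hn).trans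
    ((hτ.sn_gex_sub_le hc ha t).trans (mul_le_mul_of_nonneg_left ?_ (abs_nonneg t))))
  rw [(key _).1]
  exact (hτ.sn_mul_le_right _ _).trans (mul_le_of_le_one_right (sn_nonneg _) hn)

end Vale.Agent.P095
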