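import Mathlib
import Vale.Agent.P095.Defs
import Vale.Agent.P095.Basic
import Vale.Agent.P095.Haar
import Vale.Agent.P095.Stage1.Approx

/-!
The exponential is Lipschitz for the two-norm: mean value inequality along one functional.
-/

noncomputable section

open Filter Topology

namespace Vale.Agent.P095

universe u

variable {A : Type u} [CStarAlgebra A]

lemma hasDerivAt_ex (a : A) (s : ℝ) :
    HasDerivAt (ex a) (ex a s * (Complex.I • a)) s := by
  have h := hasDerivAt_exp_smul_const (𝕂 := ℝ) (Complex.I • a) s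
  have e : ex a = fun r : ℝ => NormedSpace.exp (r • (Complex.I • a)) := by
    funext r
    rw [ex, ← Complex.coe_smul, smul_smul, mul_comm]
  rw [e]
  exact h

/-- The two-norm Lipschitz bound. -/
theorem expLip_ok : ExpLipStatement.{u} := by
  intro A _ τ hτ a b ha hb t
  set w : A := ex a t * ex b (-t) - 1 with hw
  have h0 : sn τ (ex a t - ex b t) ≤ sn τ w := by
    have e : ex a t - ex b t = w * ex b t := by
      rw [hw, sub_mul, one_mul, mul_assoc, ex_neg_mul, mul_one]
    rw [e]
    exact (hτ.sn_mul_le_right _ _).trans (mul_le_of_le_one_right (sn_nonneg _) (norm_ex_le hb t))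
  refine h0.trans ?_
  let L : A →L[ℝ] ℂ := ((τ.comp (LinearMap.mulLeft ℂ (star w))).mkContinuous ‖star w‖
    fun x => (hτ.norm_map_le _).trans (norm_mul_le _ _)).restrictScalars ℝ
  have hL : ∀ x, L x = τ (star w * x) := fun x => rfl
  set f : ℝ → ℂ := fun s => L (ex a s * ex b (-s)) with hf
  have hd : ∀ s, HasDerivAt f (L (ex a s * (Complex.I • (a - b)) * ex b (-s))) s := fun s => by
    have hb' : HasDerivAt (fun s => ex b (-s)) (-(ex b (-s) * (Complex.I • b))) s := by
      have h := (hasDerivAt_ex b (-s)).scomp s (hasDerivAt_neg s)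
      rw [neg_one_smul] at h
      exact h
    have h := (hasDerivAt_ex a s).mul hb'
    have hc : ex b (-s) * (Complex.I • b) = (Complex.I • b) * ex b (-s) :=
      ((commute_ex (Commute.refl b) _).smul_left Complex.I).eq.symm
    have e : ex a s * (Complex.I • a) * ex b (-s) + ex a s * -(ex b (-s) * (Complex.I • b))
        = ex a s * (Complex.I • (a - b)) * ex b (-s) := by
      rw [hc, smul_sub, mul_sub, sub_mul]
      noncomm_ring
    rw [e] at h
    exact L.hasFDerivAt.comp_hasDerivAt s h
  have hbound : ∀ s, ‖L (ex a s * (Complex.I • (a - b)) * ex b (-s))‖ ≤ sn τ w * sn τ (a - b) :=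
    fun s => by
      rw [hL]
      refine (hτ.norm_map_mul_le _ _).trans ?_
      rw [hτ.sn_star]
      refine mul_le_mul_of_nonneg_left ?_ (sn_nonneg _)
      refine (hτ.sn_mul_le_right _ _).trans ((mul_le_of_le_one_right (sn_nonneg _)
        (norm_ex_le hb _)).trans ?_)
      refine (hτ.sn_mul_le_left _ _).trans ((mul_le_of_le_one_left (sn_nonneg _)
        (norm_ex_le ha _)).trans (le_of_eq ?_))
      rw [hτ.sn_smul, Complex.norm_I, one_mul]
  have hmv := Convex.norm_image_sub_le_of_norm_hasDerivWithin_le (f := f) (s := Set.univ)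
    (fun s _ => (hd s).hasDerivWithinAt) (fun s _ => hbound s) convex_univ (Set.mem_univ 0)
    (Set.mem_univ t)
  have e1 : f t - f 0 = τ (star w * w) := by
    show L (ex a t * ex b (-t)) - L (ex a 0 * ex b (-0)) = τ (star w * w)
    rw [hL, hL, neg_zero, ex_zero, ex_zero, one_mul, ← map_sub, ← mul_sub]
  rw [e1, hτ.map_star_mul_self, Complex.norm_real, Real.norm_eq_abs,
    abs_of_nonneg (sq_nonneg _), sub_zero, Real.norm_eq_abs] at hmv
  rcases (sn_nonneg (τ := τ) w).eq_or_lt with h | h
  · rw [← h]; exact mul_nonneg (abs_nonneg _) (sn_nonneg _)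
  · exact le_of_mul_le_mul_left (by linarith [sq (sn τ w)]) h

end Vale.Agent.P095
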