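import Mathlib
import Vale.Agent.P095.Gauss.Trace
import Vale.Agent.P095.Poly

/-!
Module Gauss: second moment and characteristic function of sums of almost independent blocks.
-/

noncomputable section

open Finset

namespace Vale.Agent.P095

universe u v

namespace Blocks

variable {A : Type u} [CStarAlgebra A] {ι E κ : Type v} [Fintype ι] [Fintype E]
  {R : ℕ} {C D : ℝ} (B : Blocks A ι E κ R C) {w : ι → A}

/-- Size of one block. -/
def c1 (m n : ℕ) (C D : ℝ) : ℝ := m * (D * (Real.sqrt n * C))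

/-- Size of a commutator error. -/
def c2 (m n : ℕ) (D : ℝ) : ℝ := m * (Real.sqrt n * D)

/-- The constant. -/
def bigL (m n : ℕ) (C D : ℝ) : ℝ :=
  10 * (1 + c1 m n C D + c2 m n D + m * (m * (n * (C * C))) + m * (m * (D * D * (C * C))) +
    (m : ℝ) * (Real.sqrt n * C) + D) ^ 6

omit [Fintype E] in
lemma one_le_R (r : Fin R) : (1 : ℝ) ≤ R := by
  exact_mod_cast Nat.one_le_of_lt r.2

omit [Fintype ι] [Fintype E] in
lemma sqrt_div (a : ℝ) : Real.sqrt R * (a / R) = a * (Real.sqrt R)⁻¹ := by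
  rcases Nat.eq_zero_or_pos R with rfl | hR
  · simp
  · have h : Real.sqrt R ≠ 0 := by positivity
    field_simp
    rw [Real.sq_sqrt (Nat.cast_nonneg R)]; ring

lemma lin_X (w : ι → A) : lin w B.X = (Real.sqrt R)⁻¹ • ∑ r, B.S w r := by
  simp only [S, X, lin, mul_smul_comm, smul_mul_assoc, smul_sum, mul_sum, sum_mul, smul_add,
    sum_add_distrib, smul_comm (Real.sqrt R)⁻¹ (2 : ℝ)⁻¹]
  congr 1 <;> rw [sum_comm]

lemma lin_X_split (w : ι → A) (r : Fin R) :
    lin w B.X = B.Tr w r + (Real.sqrt R)⁻¹ • B.S w r := by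
  have h : ∀ a, B.X a = B.Xr r a + (Real.sqrt R)⁻¹ • B.q r a := fun a => by
    rw [X, Xr, ← smul_add, sum_erase_add _ _ (mem_univ r)]
  simp only [Tr, S, lin, h, mul_add, add_mul, mul_smul_comm, smul_mul_assoc, smul_sum,
    sum_add_distrib, smul_add, smul_comm (Real.sqrt R)⁻¹ (2 : ℝ)⁻¹]
  abel

lemma sum_M (w : ι → A) :
    (R : ℝ)⁻¹ • ∑ r, M B w r = ∑ a, ∑ b, w a * w b * B.Kbar a b := by
  simp only [M, Kbar, mul_smul_comm, mul_sum, smul_sum]
  rw [sum_comm]
  exact sum_congr rfl fun a _ => sum_comm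

omit [Fintype ι] in
lemma sum_blocks (f : Fin R → A) :
    ∑ r, (Real.sqrt R)⁻¹ • ((Real.sqrt R)⁻¹ • f r) = (R : ℝ)⁻¹ • ∑ r, f r := by
  rw [smul_sum]
  refine sum_congr rfl fun r _ => ?_
  rw [smul_smul, ← mul_inv, Real.mul_self_sqrt (Nat.cast_nonneg R)]

lemma sa_S (hw : B.Soft w D) (r : Fin R) : IsSelfAdjoint (B.S w r) :=
  isSelfAdjoint_lin hw.sa (B.sa_q r)

lemma sa_Tr (hw : B.Soft w D) (r : Fin R) : IsSelfAdjoint (B.Tr w r) :=
  isSelfAdjoint_lin hw.sa (B.sa_Xr r)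

lemma norm_S (hw : B.Soft w D) (r : Fin R) :
    ‖B.S w r‖ ≤ c1 (Fintype.card ι) (Fintype.card E) C D :=
  norm_lin_le hw.norm_w (B.norm_q r)

lemma norm_M (hC : 0 ≤ C) (hD : 0 ≤ D) (hw : B.Soft w D) (r : Fin R) :
    ‖M B w r‖ ≤ Fintype.card ι * (Fintype.card ι * (D * D * (C * C))) := by
  refine (norm_sum_le _ _).trans ((sum_le_card_nsmul _ _ _ fun a _ => (norm_sum_le _ _).trans
    ((sum_le_card_nsmul _ _ (D * D * (C * C)) fun b _ => (norm_mul_le _ _).trans
      (mul_le_mul ((norm_mul_le _ _).trans (mul_le_mul (hw.norm_w a) (hw.norm_w b) (norm_nonneg _) hD))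
        (B.norm_K hC r a b) (norm_nonneg _) (by positivity))).trans
      (le_of_eq (by rw [card_univ, nsmul_eq_mul])))).trans
      (le_of_eq (by rw [card_univ, nsmul_eq_mul])))

variable {τ : A →ₗ[ℂ] ℂ}

lemma sn_Tr (hτ : IsTr τ) (hC : 0 ≤ C) (hw : B.Soft w D) (r : Fin R) :
    sn τ (B.Tr w r) ≤ c1 (Fintype.card ι) (Fintype.card E) C D :=
  sn_lin_le hτ hw.norm_w (B.sn_Xr_le hτ hC r)

lemma sn_br_Tr (hτ : IsTr τ) (hC : 0 ≤ C) (hw : B.Soft w D) (r : Fin R) (j : κ) :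
    sn τ (br (B.z r j) (B.Tr w r)) ≤ c1 (Fintype.card ι) (Fintype.card E) C D / R := by
  rw [Tr, br_lin_of_commute fun a => B.commute_z_Xr r j a]
  refine (sn_lin_le hτ (fun a => hw.comm_z a r j) (B.sn_Xr_le hτ hC r)).trans (le_of_eq ?_)
  rw [c1]; ring

/-- Operator commutator of a block with the others. -/
lemma norm_br_Tr_S (hC : 0 ≤ C) (hD : 0 ≤ D) (hw : B.Soft w D) (r : Fin R) :
    ‖br (B.Tr w r) (B.S w r)‖ ≤ (Real.sqrt R)⁻¹ *
      (c1 (Fintype.card ι) (Fintype.card E) C D *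
        (Fintype.card ι * (Real.sqrt (Fintype.card E) * C) +
          2 * c2 (Fintype.card ι) (Fintype.card E) D)) := by
  set N := Real.sqrt (Fintype.card E) with hN
  set k : ℝ := ((Fintype.card ι : ℕ) : ℝ) with hk
  have h1 : ∀ b, ‖br (B.Tr w r) (w b)‖ ≤
      k * (D * (N * C) + D * (N * D)) * (Real.sqrt R)⁻¹ := by
    intro b
    rw [br_comm_norm, Tr]
    refine (norm_br_lin_le hw.norm_w (B.norm_Xr hC r) (fun a => hw.comm_w b a)
      (fun a => B.norm_br_Xr_w hD hw r b a)).trans (le_of_eq ?_)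
    linear_combination (k * (N * C) + k * (D * N)) * sqrt_div (R := R) D
  have h2 : ∀ b, ‖br (B.Tr w r) (B.q r b)‖ ≤ k * (N * D * (N * C)) * (Real.sqrt R)⁻¹ := by
    intro b
    rw [br_comm_norm, Tr]
    refine (norm_br_lin_le (a' := N * (D / R)) (b' := 0) hw.norm_w (B.norm_Xr hC r)
      (fun a => by rw [br_comm_norm]; exact B.norm_br_q_w hw r a b)
      (fun a => by rw [br_of_commute (B.commute_q_Xr r b a), norm_zero])).trans (le_of_eq ?_)
    linear_combination (k * N * (N * C)) * sqrt_div (R := R) D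
  refine (norm_br_lin_le hw.norm_w (B.norm_q r) h1 h2).trans (le_of_eq ?_)
  simp only [c1, c2]
  ring

/-- The atoms of the constant are below its root. -/
lemma atoms (m n : ℕ) (hC : 0 ≤ C) (hD : 0 ≤ D) : ∃ s : ℝ, 1 ≤ s ∧ bigL m n C D = 10 * s ^ 6 ∧
    c1 m n C D ≤ s ∧ c2 m n D ≤ s ∧ (m : ℝ) * (Real.sqrt n * C) ≤ s ∧
    (m : ℝ) * (m * (n * (C * C))) ≤ s ∧ (m : ℝ) * (m * (D * D * (C * C))) ≤ s ∧ D ≤ s := by
  have h1 : 0 ≤ c1 m n C D := by unfold c1; positivity
  have h2 : 0 ≤ c2 m n D := by unfold c2; positivity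
  have h3 : 0 ≤ (m : ℝ) * (Real.sqrt n * C) := by positivity
  have h4 : 0 ≤ (m : ℝ) * (m * (n * (C * C))) := by positivity
  have h5 : 0 ≤ (m : ℝ) * (m * (D * D * (C * C))) := by positivity
  refine ⟨_, ?_, rfl, ?_, ?_, ?_, ?_, ?_, ?_⟩ <;> linarith

omit [Fintype ι] [Fintype E] in
lemma inv_sqrt_le_one (r : Fin R) : (Real.sqrt R)⁻¹ ≤ 1 :=
  inv_le_one_of_one_le₀ (Real.one_le_sqrt.2 (one_le_R r))

/-- The arithmetic of the derivative bound. -/
lemma phase_arith {s ρ u v k N C D t δ n' R' : ℝ} (hs1 : 1 ≤ s) (hR : 1 ≤ R') (hρ0 : 0 ≤ ρ)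
    (hρ1 : ρ ≤ 1) (hρρ : ρ * ρ = 1 / R') (hu0 : 0 ≤ u) (a1 : u ≤ s) (hv0 : 0 ≤ v) (a2 : v ≤ s)
    (hk : 0 ≤ k) (hN : 0 ≤ N) (hC : 0 ≤ C) (hD : 0 ≤ D) (aD : D ≤ s) (hδ : 0 ≤ δ)
    (a3 : k * (N * C) ≤ s) (h5 : 0 ≤ k * (k * (n' * (C * C)))) (a5 : k * (k * (n' * (C * C))) ≤ s)
    (_h4 : 0 ≤ k * (k * (D * D * (C * C)))) (a4 : k * (k * (D * D * (C * C))) ≤ s) :
    k * (N * C * ((|t| * (u / R') * D + δ) * D + D * (D / R'))) +
      u * ((t ^ 2 * (ρ * ρ * (u * u) + ρ * ρ * (u * (k * (N * C) + 2 * v)))) * D) +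
      |t| * ρ * (3 * u * (v / R') * D +
        k * (k * (n' * (C * C))) * ((|t| * (u / R') * D + δ) * (D * D) + D * (2 * D * (D / R')))) +
      |t| * ρ * (k * (k * (D * D * (C * C))) * (|t| * (ρ * u) * D)) ≤
    10 * s ^ 6 * (1 + t ^ 2) * (1 / R' + δ) := by
  have hR0 : 0 < R' := by linarith
  have q : ∀ i ≤ 6, s ^ i ≤ s ^ 6 := fun i hi => pow_le_pow_right₀ hs1 hi
  have p1 : k * (N * C * ((|t| * (u / R') * D + δ) * D + D * (D / R'))) ≤
      s ^ 6 * (|t| / R' + δ + 1 / R') := by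
    calc _ = k * (N * C) * (u * D * D * (|t| / R') + D * δ + D * D * (1 / R')) := by ring
      _ ≤ s * (s * s * s * (|t| / R') + s * δ + s * s * (1 / R')) := by gcongr
      _ = s ^ 4 * (|t| / R') + s ^ 2 * δ + s ^ 3 * (1 / R') := by ring
      _ ≤ s ^ 6 * (|t| / R') + s ^ 6 * δ + s ^ 6 * (1 / R') := by
        gcongr ?_ * _ + ?_ * _ + ?_ * _ <;> exact q _ (by norm_num)
      _ = _ := by ring
  have p2 : u * ((t ^ 2 * (ρ * ρ * (u * u) + ρ * ρ * (u * (k * (N * C) + 2 * v)))) * D) ≤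
      4 * s ^ 6 * (t ^ 2 / R') := by
    rw [hρρ]
    calc _ = u * (u * u + u * (k * (N * C) + 2 * v)) * D * (t ^ 2 / R') := by ring
      _ ≤ s * (s * s + s * (s + 2 * s)) * s * (t ^ 2 / R') := by gcongr
      _ = 4 * s ^ 4 * (t ^ 2 / R') := by ring
      _ ≤ _ := mul_le_mul_of_nonneg_right (by linarith [q 4 (by norm_num)]) (by positivity)
  have p3 : |t| * ρ * (3 * u * (v / R') * D +
      k * (k * (n' * (C * C))) * ((|t| * (u / R') * D + δ) * (D * D) + D * (2 * D * (D / R')))) ≤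
      s ^ 6 * (5 * (|t| / R') + t ^ 2 / R' + |t| * δ) := by
    calc _ ≤ |t| * 1 * (3 * s * (s / R') * s +
          s * ((|t| * (s / R') * s + δ) * (s * s) + s * (2 * s * (s / R')))) := by gcongr
      _ = 3 * s ^ 3 * (|t| / R') + s ^ 5 * (|t| * |t| / R') + s ^ 3 * (|t| * δ) +
          2 * s ^ 4 * (|t| / R') := by ring
      _ ≤ _ := by
        rw [abs_mul_abs_self, ← sq]
        have := mul_le_mul_of_nonneg_right (q 3 (by norm_num)) (show 0 ≤ |t| / R' by positivity)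
        have := mul_le_mul_of_nonneg_right (q 4 (by norm_num)) (show 0 ≤ |t| / R' by positivity)
        have := mul_le_mul_of_nonneg_right (q 5 (by norm_num)) (show 0 ≤ t ^ 2 / R' by positivity)
        have := mul_le_mul_of_nonneg_right (q 3 (by norm_num)) (show 0 ≤ |t| * δ by positivity)
        linarith
  have p4 : |t| * ρ * (k * (k * (D * D * (C * C))) * (|t| * (ρ * u) * D)) ≤
      s ^ 6 * (t ^ 2 / R') := by
    calc _ = k * (k * (D * D * (C * C))) * u * D * (|t| * |t| * (ρ * ρ)) := by ring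
      _ ≤ s * s * s * (|t| * |t| * (ρ * ρ)) := by gcongr
      _ = s ^ 3 * (t ^ 2 / R') := by rw [hρρ, abs_mul_abs_self]; ring
      _ ≤ s ^ 6 * (t ^ 2 / R') := mul_le_mul_of_nonneg_right (q 3 (by norm_num)) (by positivity)
  have ht : 2 * |t| ≤ 1 + t ^ 2 := by nlinarith [sq_abs t, sq_nonneg (|t| - 1)]
  have b1 : |t| / R' + 5 * (|t| / R') + 1 / R' + 6 * (t ^ 2 / R') ≤
      10 * (1 + t ^ 2) * (1 / R') := by
    calc _ = (6 * |t| + 1 + 6 * t ^ 2) * (1 / R') := by ring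
      _ ≤ _ := mul_le_mul_of_nonneg_right (by linarith [sq_nonneg t]) (by positivity)
  have b2 : δ + |t| * δ ≤ 10 * (1 + t ^ 2) * δ := by
    calc δ + |t| * δ = (1 + |t|) * δ := by ring
      _ ≤ _ := mul_le_mul_of_nonneg_right (by linarith [sq_nonneg t, abs_nonneg t]) hδ
  have h6 : 0 ≤ s ^ 6 := by positivity
  have := mul_le_mul_of_nonneg_left b1 h6
  have := mul_le_mul_of_nonneg_left b2 h6
  linarith

/-- The second moment, one block. -/
lemma moment_block (hτ : IsTr τ) (hC : 0 ≤ C) (hD : 0 ≤ D) (hw : B.Soft w D) (r : Fin R) :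
    ‖τ (B.S w r * lin w B.X) - τ ((Real.sqrt R)⁻¹ • M B w r)‖ ≤
      bigL (Fintype.card ι) (Fintype.card E) C D / R := by
  obtain ⟨s, hs1, hs, a1, a2, a3, a5, a4, aD⟩ :=
    atoms (C := C) (D := D) (Fintype.card ι) (Fintype.card E) hC hD
  set ρ := (Real.sqrt R)⁻¹ with hρ
  set k : ℝ := ((Fintype.card ι : ℕ) : ℝ) with hk
  set N := Real.sqrt (Fintype.card E) with hN
  set u := c1 (Fintype.card ι) (Fintype.card E) C D with hu
  have hR := one_le_R r
  have hρ0 : 0 ≤ ρ := by positivity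
  have hu0 : 0 ≤ u := by rw [hu, c1]; positivity
  have e : τ (B.S w r * lin w B.X) - τ (ρ • M B w r) = τ (B.S w r * B.Tr w r) +
      (ρ : ℂ) * (τ (B.S w r * B.S w r * 1) - τ (M B w r * 1)) := by
    rw [lin_X_split, mul_add, mul_smul_comm, map_add, ← hρ, ← Complex.coe_smul, ← Complex.coe_smul,
      map_smul, map_smul, mul_one, mul_one, smul_eq_mul, smul_eq_mul]
    ring
  rw [e]
  refine (norm_add_le _ _).trans ?_
  rw [norm_mul, Complex.norm_real, Real.norm_eq_abs, abs_of_nonneg hρ0]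
  have hA := B.norm_tr_S_le hτ hC hw r (B.sn_Tr hτ hC hw r) (B.sn_br_Tr hτ hC hw r)
  have hB := (B.norm_tr_SS_le hτ hC hD hw r (Z := 1) le_rfl
    (show ‖(1 : A)‖ ≤ 1 by simpa using norm_gex_le (IsSelfAdjoint.zero A) 0) fun j => by
      rw [br_of_commute (Commute.one_right _), hτ.sn_zero])
  have hA' : ‖τ (B.S w r * B.Tr w r)‖ ≤ 2 * s ^ 6 / R := by
    refine hA.trans ?_
    calc k * (N * C * (u / R * D + u * (D / R))) = k * (N * C) * u * D * 2 / R := by ring
      _ ≤ s * s * s * 2 / R := by gcongr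
      _ ≤ 2 * s ^ 6 / R := by
        refine div_le_div_of_nonneg_right ?_ (by linarith)
        linarith [pow_le_pow_right₀ hs1 (show 3 ≤ 6 by norm_num)]
  have hB' : ρ * ‖τ (B.S w r * B.S w r * 1) - τ (M B w r * 1)‖ ≤ 5 * s ^ 6 / R := by
    refine (mul_le_of_le_one_left (norm_nonneg _) (inv_sqrt_le_one r)).trans (hB.trans ?_)
    calc _ = (3 * u * c2 (Fintype.card ι) (Fintype.card E) D +
          k * (k * (Fintype.card E * (C * C))) * (2 * D * D)) / R := by
            simp only [hu, c1, c2]; ring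
      _ ≤ (3 * s * s + s * (2 * s * s)) / R := by
            have : 0 ≤ c2 (Fintype.card ι) (Fintype.card E) D := by unfold c2; positivity
            gcongr
      _ ≤ 5 * s ^ 6 / R := by
        refine div_le_div_of_nonneg_right ?_ (by linarith)
        linarith [pow_le_pow_right₀ hs1 (show 3 ≤ 6 by norm_num),
          pow_le_pow_right₀ hs1 (show 2 ≤ 6 by norm_num)]
  rw [hs]
  have e2 : 10 * s ^ 6 / (R : ℝ) = 2 * s ^ 6 / R + 5 * s ^ 6 / R + 3 * s ^ 6 / R := by ring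
  rw [e2]
  have : 0 ≤ 3 * s ^ 6 / (R : ℝ) := by positivity
  linarith

/-- The derivative, one block. -/
lemma phase_block (hτ : IsTr τ) (hC : 0 ≤ C) (hD : 0 ≤ D) (hw : B.Soft w D) (r : Fin R) {y : A}
    {δ : ℝ} (hy : ‖y‖ ≤ D) (hδ : 0 ≤ δ) (hyz : ∀ r j, sn τ (br (B.z r j) y) ≤ δ) (t : ℝ) :
    ‖τ (B.S w r * (gex (lin w B.X) t * y)) -
        (Complex.I * t) * τ ((Real.sqrt R)⁻¹ • (M B w r * (gex (lin w B.X) t * y)))‖ ≤
      bigL (Fintype.card ι) (Fintype.card E) C D * (1 + t ^ 2) * (1 / R + δ) := by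
  obtain ⟨s, hs1, hs, a1, a2, a3, a5, a4, aD⟩ :=
    atoms (C := C) (D := D) (Fintype.card ι) (Fintype.card E) hC hD
  set ρ := (Real.sqrt R)⁻¹ with hρ
  set k : ℝ := ((Fintype.card ι : ℕ) : ℝ) with hk
  set N := Real.sqrt (Fintype.card E) with hN
  set u := c1 (Fintype.card ι) (Fintype.card E) C D with hu
  set Er := gex (B.Tr w r) t with hEr
  set Es := gex (B.Tr w r + ρ • B.S w r) t with hEs
  rw [show gex (lin w B.X) t = Es by rw [hEs, lin_X_split]]
  have hR := one_le_R r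
  have hρ0 : 0 ≤ ρ := by positivity
  have hρ1 : ρ ≤ 1 := inv_sqrt_le_one r
  have hρρ : ρ * ρ = 1 / R := by
    rw [hρ, ← mul_inv, Real.mul_self_sqrt (Nat.cast_nonneg R), one_div]
  have hu0 : 0 ≤ u := by rw [hu, c1]; positivity
  have hv0 : 0 ≤ c2 (Fintype.card ι) (Fintype.card E) D := by unfold c2; positivity
  have hsaT := B.sa_Tr hw r
  have hsaS : IsSelfAdjoint (ρ • B.S w r) := (IsSelfAdjoint.all _).smul (B.sa_S hw r)
  have hY : ∀ j, sn τ (br (B.z r j) (Er * y)) ≤ |t| * (u / R) * D + δ := fun j => by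
    rw [br_mul']
    refine (hτ.sn_add_le _ _).trans (add_le_add ?_ ?_)
    · refine (hτ.sn_mul_le_right _ _).trans (mul_le_mul ?_ hy (norm_nonneg _) (by positivity))
      exact (hτ.sn_br_gex_le (B.z_sq r j) (B.z_sa r j) hsaT t).trans
        (mul_le_mul_of_nonneg_left (B.sn_br_Tr hτ hC hw r j) (abs_nonneg t))
    · exact (hτ.sn_mul_le_left _ _).trans ((mul_le_of_le_one_left (sn_nonneg _)
        (norm_gex_le hsaT t)).trans (hyz r j))
  have hYn : ‖Er * y‖ ≤ D :=
    (norm_mul_le _ _).trans ((mul_le_of_le_one_left (norm_nonneg _) (norm_gex_le hsaT t)).trans hy)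
  set rem := Es - Er - (Complex.I * t) • ((ρ • B.S w r) * Er) with hrem
  have e : τ (B.S w r * (Es * y)) - (Complex.I * t) * τ (ρ • (M B w r * (Es * y))) =
      τ (B.S w r * (Er * y)) + τ (B.S w r * (rem * y)) +
        (Complex.I * t) * ρ * (τ (B.S w r * B.S w r * (Er * y)) - τ (M B w r * (Er * y))) -
        (Complex.I * t) * ρ * τ (M B w r * ((Es - Er) * y)) := by
    simp only [hrem, ← Complex.coe_smul, sub_mul, mul_sub, smul_mul_assoc, mul_smul_comm, map_sub,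
      map_smul, smul_eq_mul, mul_assoc]
    ring
  rw [e]
  have n1 : ‖τ (B.S w r * (Er * y))‖ ≤ k * (N * C * ((|t| * (u / R) * D + δ) * D + D * (D / R))) :=
    B.norm_tr_S_le hτ hC hw r ((hτ.sn_le_norm _).trans hYn) hY
  have n2 : ‖τ (B.S w r * (rem * y))‖ ≤
      u * ((t ^ 2 * (ρ * ρ * (u * u) + ρ * ρ * (u * (k * (N * C) +
        2 * c2 (Fintype.card ι) (Fintype.card E) D)))) * D) := by
    refine (hτ.norm_map_le _).trans ((norm_mul_le _ _).trans (mul_le_mul (B.norm_S hw r)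
      ((norm_mul_le _ _).trans (mul_le_mul ?_ hy (norm_nonneg _) (by positivity))) (norm_nonneg _)
      hu0))
    refine (norm_gex_add_sub_sub_le hsaT hsaS t).trans
      (mul_le_mul_of_nonneg_left (add_le_add ?_ ?_) (sq_nonneg t))
    · rw [norm_smul, Real.norm_eq_abs, abs_of_nonneg hρ0, mul_pow, sq, sq]
      exact mul_le_mul_of_nonneg_left (mul_self_le_mul_self (norm_nonneg _) (B.norm_S hw r))
        (mul_nonneg hρ0 hρ0)
    · rw [br_smul, norm_smul, Real.norm_eq_abs, abs_of_nonneg hρ0, mul_assoc]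
      exact mul_le_mul_of_nonneg_left (B.norm_br_Tr_S hC hD hw r) hρ0
  have n3 : ‖(Complex.I * t) * ρ * (τ (B.S w r * B.S w r * (Er * y)) - τ (M B w r * (Er * y)))‖ ≤
      |t| * ρ * (3 * u * (c2 (Fintype.card ι) (Fintype.card E) D / R) * D +
        k * (k * (Fintype.card E * (C * C))) *
          ((|t| * (u / R) * D + δ) * (D * D) + D * (2 * D * (D / R)))) := by
    rw [norm_mul, norm_mul, norm_mul, Complex.norm_I, one_mul, Complex.norm_real, Complex.norm_real,
      Real.norm_eq_abs, Real.norm_eq_abs, abs_of_nonneg hρ0]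
    refine mul_le_mul_of_nonneg_left ((B.norm_tr_SS_le hτ hC hD hw r (by positivity) hYn hY).trans
      (le_of_eq ?_)) (by positivity)
    simp only [hu, c1, c2, hk]; ring
  have n4 : ‖(Complex.I * t) * ρ * τ (M B w r * ((Es - Er) * y))‖ ≤
      |t| * ρ * (k * (k * (D * D * (C * C))) * (|t| * (ρ * u) * D)) := by
    rw [norm_mul, norm_mul, norm_mul, Complex.norm_I, one_mul, Complex.norm_real, Complex.norm_real,
      Real.norm_eq_abs, Real.norm_eq_abs, abs_of_nonneg hρ0]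
    refine mul_le_mul_of_nonneg_left ((hτ.norm_map_le _).trans ((norm_mul_le _ _).trans
      (mul_le_mul (B.norm_M hC hD hw r) ((norm_mul_le _ _).trans
        (mul_le_mul ?_ hy (norm_nonneg _) (by positivity))) (norm_nonneg _) (by positivity))))
      (by positivity)
    refine (norm_gex_add_sub_le hsaT hsaS t).trans (mul_le_mul_of_nonneg_left ?_ (abs_nonneg t))
    rw [norm_smul, Real.norm_eq_abs, abs_of_nonneg hρ0]
    exact mul_le_mul_of_nonneg_left (B.norm_S hw r) hρ0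
  refine (norm_sub_le _ _).trans ((add_le_add ((norm_add_le _ _).trans (add_le_add
    (norm_add_le _ _) le_rfl)) le_rfl).trans ?_)
  refine (add_le_add (add_le_add (add_le_add n1 n2) n3) n4).trans ?_
  rw [hs]
  exact phase_arith hs1 hR hρ0 hρ1 hρρ hu0 a1 hv0 a2 (by positivity) (by positivity) hC hD aD hδ
    a3 (by positivity) a5 (by positivity) a4

end Blocks

/-- Integrating the differential inequality. -/
lemma gaussian_decay {φ φ' : ℝ → ℂ} (hd : ∀ t, HasDerivAt φ (φ' t) t) {θ K : ℝ}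
    (hb : ∀ t ∈ Set.uIcc 0 θ, ‖φ' t + (t : ℂ) * φ t‖ ≤ K) :
    ‖φ θ‖ ≤ Real.exp (-(θ ^ 2) / 2) * ‖φ 0‖ + |θ| * K := by
  set g : ℝ → ℂ := fun t => Real.exp (t ^ 2 / 2) • φ t with hg
  have hdg : ∀ t, HasDerivAt g (Real.exp (t ^ 2 / 2) • (φ' t + (t : ℂ) * φ t)) t := by
    intro t
    have h1 : HasDerivAt (fun t : ℝ => Real.exp (t ^ 2 / 2)) (Real.exp (t ^ 2 / 2) * t) t := by
      have := (((hasDerivAt_id t).pow 2).div_const 2).exp
      refine this.congr_deriv ?_
      simp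
    refine (h1.smul (hd t)).congr_deriv ?_
    simp only [Complex.real_smul]
    push_cast
    ring
  have hK : 0 ≤ K := (norm_nonneg _).trans (hb 0 Set.left_mem_uIcc)
  have h := Convex.norm_image_sub_le_of_norm_hasDerivWithin_le (s := Set.uIcc 0 θ) (x := 0) (y := θ)
    (fun t _ => (hdg t).hasDerivWithinAt) (C := Real.exp (θ ^ 2 / 2) * K) (fun t ht => ?_)
    (convex_uIcc 0 θ) Set.left_mem_uIcc Set.right_mem_uIcc
  · have h0 : g 0 = φ 0 := by simp [hg]
    have hn : ‖g θ‖ = Real.exp (θ ^ 2 / 2) * ‖φ θ‖ := by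
      rw [hg]; simp only [norm_smul, Real.norm_eq_abs, abs_of_pos (Real.exp_pos _)]
    rw [h0, sub_zero, Real.norm_eq_abs] at h
    have h2 := norm_le_norm_add_norm_sub' (g θ) (φ 0)
    rw [hn] at h2
    have he : Real.exp (-(θ ^ 2) / 2) * Real.exp (θ ^ 2 / 2) = 1 := by
      rw [← Real.exp_add]; ring_nf; exact Real.exp_zero
    have h3 := mul_le_mul_of_nonneg_left (h2.trans (add_le_add le_rfl h))
      (Real.exp_pos (-(θ ^ 2) / 2)).le
    rw [← mul_assoc, he, one_mul, mul_add, mul_assoc (Real.exp (θ ^ 2 / 2)), ← mul_assoc, he,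
      one_mul, mul_comm K] at h3
    exact h3
  · rw [norm_smul, Real.norm_eq_abs, abs_of_pos (Real.exp_pos _)]
    refine mul_le_mul (Real.exp_le_exp.2 ?_) (hb t ht) (norm_nonneg _) (Real.exp_pos _).le
    have : |t| ≤ |θ| := by simpa using Set.abs_sub_left_of_mem_uIcc ht
    have := sq_abs t
    have := sq_abs θ
    nlinarith [abs_nonneg t]

theorem gauss_ok : GaussStatement.{u, v} := by
  intro C₀ D₀ m n _
  refine ⟨Blocks.bigL m n (max C₀ 0) (max D₀ 0), by unfold Blocks.bigL; positivity, ?_⟩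
  intro A _ τ hτ ι E κ _ _ hm hn R hR B₀ w hw₀
  set C := max C₀ 0 with hCdef
  set D := max D₀ 0 with hDdef
  have hC : 0 ≤ C := le_max_right _ _
  have hD : 0 ≤ D := le_max_right _ _
  let B : Blocks A ι E κ R C := ⟨B₀.v, B₀.z, B₀.sa,
    fun r e a => (B₀.norm_v r e a).trans (le_max_left _ _), B₀.z_sa, B₀.z_sq, B₀.comm_vv,
    B₀.comm_zv, B₀.single, B₀.pair⟩
  have hDR : D₀ / R ≤ D / R := div_le_div_of_nonneg_right (le_max_left _ _) (Nat.cast_nonneg R)
  have hw : B.Soft w D := ⟨hw₀.sa, fun a => (hw₀.norm_w a).trans (le_max_left _ _),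
    fun a r j => (hw₀.comm_z a r j).trans hDR, fun a r e b => (hw₀.comm_v a r e b).trans hDR,
    fun a b => (hw₀.comm_w a b).trans hDR⟩
  subst hm hn
  set L := Blocks.bigL (Fintype.card ι) (Fintype.card E) C D
  set T := lin w B.X with hT
  set M := ∑ a, ∑ b, w a * w b * B.Kbar a b with hM
  have hsaT : IsSelfAdjoint T := isSelfAdjoint_lin hw.sa fun a =>
    (IsSelfAdjoint.all _).smul (isSelfAdjoint_sum _ fun r _ => B.sa_q r a)
  have hRr : (0 : ℝ) < R := Nat.cast_pos.2 hR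
  set ρ := (Real.sqrt R)⁻¹ with hρ
  have hρ0 : 0 ≤ ρ := by positivity
  have hρR : ρ * R = Real.sqrt R := Blocks.inv_sqrt_mul R
  refine ⟨?_, fun y δ hy hδ hyz θ => ?_⟩
  · show |sn τ T ^ 2 - (τ M).re| ≤ L / Real.sqrt R
    rw [hτ.sq_sn, hsaT.star_eq, ← Complex.sub_re]
    refine (Complex.abs_re_le_norm _).trans ?_
    have e : τ (T * T) - τ M =
        ∑ r, (ρ : ℂ) * (τ (B.S w r * T) - τ (ρ • Blocks.M B w r)) := by
      have e1 : T * T = ∑ r, ρ • (B.S w r * T) := by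
        nth_rw 1 [hT, B.lin_X]
        rw [smul_sum, sum_mul]
        exact sum_congr rfl fun r _ => smul_mul_assoc _ _ _
      rw [e1, hM, ← B.sum_M, ← Blocks.sum_blocks (R := R), map_sum, map_sum, ← sum_sub_distrib]
      refine sum_congr rfl fun r _ => ?_
      rw [← hρ, ← Complex.coe_smul ρ (B.S w r * T),
        ← Complex.coe_smul ρ (ρ • Blocks.M B w r), map_smul, map_smul, mul_sub]
      rfl
    rw [e]
    refine (norm_sum_le _ _).trans ((sum_le_card_nsmul _ _ (ρ * (L / R)) fun r _ => ?_).trans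
      (le_of_eq ?_))
    · rw [norm_mul, Complex.norm_real, Real.norm_eq_abs, abs_of_nonneg hρ0]
      exact mul_le_mul_of_nonneg_left (B.moment_block hτ hC hD hw r) hρ0
    · rw [card_univ, Fintype.card_fin, nsmul_eq_mul, hρ]
      field_simp
  · show ‖τ (y * NormedSpace.exp ((Complex.I * θ) • T))‖ ≤ Real.exp (-(θ ^ 2) / 2) * ‖τ y‖ +
      |θ| * ((1 + |θ|) * ‖y‖ * sn τ (M - 1) +
        L * (1 + θ ^ 2) * (1 / Real.sqrt R + Real.sqrt R * δ))
    have hy' : ‖y‖ ≤ D := hy.trans (le_max_left _ _)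
    have hd : ∀ t, HasDerivAt (fun t => τ (y * gex T t)) (τ (y * ((Complex.I • T) * gex T t))) t :=
      fun t => hτ.hasDerivAt_tr ((hasDerivAt_gex T t).const_mul y)
    rw [← gex_eq]
    have hzero : τ (y * gex T 0) = τ y := by rw [gex_zero, mul_one]
    refine (gaussian_decay hd (K := (1 + |θ|) * ‖y‖ * sn τ (M - 1) +
      L * (1 + θ ^ 2) * (1 / Real.sqrt R + Real.sqrt R * δ)) fun t ht => ?_).trans
      (le_of_eq (by rw [hzero]))
    set X := gex T t * y with hX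
    have e : τ (y * ((Complex.I • T) * gex T t)) + (t : ℂ) * τ (y * gex T t) =
        Complex.I * (∑ r, (ρ : ℂ) * (τ (B.S w r * X) -
          (Complex.I * t) * τ (ρ • (Blocks.M B w r * X)))) - (t : ℂ) * τ ((M - 1) * X) := by
      have e0 : τ (y * gex T t) = τ X := hτ.comm _ _
      have e1 : τ (y * ((Complex.I • T) * gex T t)) = Complex.I * ∑ r, (ρ : ℂ) * τ (B.S w r * X) := by
        rw [hτ.comm, mul_assoc, smul_mul_assoc, map_smul, smul_eq_mul]
        nth_rw 1 [hT]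
        rw [B.lin_X, smul_sum, sum_mul, map_sum, hX]
        congr 1
        refine sum_congr rfl fun r _ => ?_
        rw [smul_mul_assoc, ← hρ, ← Complex.coe_smul, map_smul, smul_eq_mul]
      have e2 : τ (M * X) = ∑ r, (ρ : ℂ) * τ (ρ • (Blocks.M B w r * X)) := by
        rw [hM, ← B.sum_M, ← Blocks.sum_blocks (R := R), sum_mul, map_sum]
        refine sum_congr rfl fun r _ => ?_
        rw [smul_mul_assoc, ← hρ, ← Complex.coe_smul, map_smul, smul_eq_mul, smul_mul_assoc]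
      have e3 : (∑ r, (ρ : ℂ) * (τ (B.S w r * X) -
            (Complex.I * t) * τ (ρ • (Blocks.M B w r * X)))) =
          (∑ r, (ρ : ℂ) * τ (B.S w r * X)) -
            (Complex.I * t) * ∑ r, (ρ : ℂ) * τ (ρ • (Blocks.M B w r * X)) := by
        rw [mul_sum, ← sum_sub_distrib]
        exact sum_congr rfl fun r _ => by ring
      rw [e0, e1, sub_mul, one_mul, map_sub, e3, e2]
      linear_combination ((t : ℂ) * ∑ r, (ρ : ℂ) * τ (ρ • (Blocks.M B w r * X))) * Complex.I_mul_I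
    rw [e]
    refine (norm_sub_le _ _).trans ?_
    rw [add_comm]
    have htθ : |t| ≤ |θ| := by simpa using Set.abs_sub_left_of_mem_uIcc ht
    refine add_le_add ?_ ?_
    · rw [norm_mul, Complex.norm_real, Real.norm_eq_abs, mul_assoc (1 + |θ|)]
      refine mul_le_mul (by linarith [abs_nonneg θ]) ?_ (norm_nonneg _) (by positivity)
      refine (hτ.norm_map_mul_le _ _).trans ?_
      rw [mul_comm]
      refine mul_le_mul_of_nonneg_right ((hτ.sn_mul_le_left _ _).trans ?_) (sn_nonneg _)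
      exact (mul_le_of_le_one_left (sn_nonneg _) (norm_gex_le hsaT t)).trans (hτ.sn_le_norm y)
    · rw [norm_mul, Complex.norm_I, one_mul]
      have hL : 0 ≤ L := by
        unfold L Blocks.bigL
        positivity
      have ht2 : t ^ 2 ≤ θ ^ 2 := by
        rw [← sq_abs t, ← sq_abs θ]
        exact pow_le_pow_left₀ (abs_nonneg t) htθ 2
      refine (norm_sum_le _ _).trans ((sum_le_card_nsmul _ _
        (ρ * (L * (1 + θ ^ 2) * (1 / R + δ))) fun r _ => ?_).trans (le_of_eq ?_))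
      · rw [norm_mul, Complex.norm_real, Real.norm_eq_abs, abs_of_nonneg hρ0]
        refine mul_le_mul_of_nonneg_left ((B.phase_block hτ hC hD hw r hy' hδ hyz t).trans ?_) hρ0
        gcongr
      · rw [card_univ, Fintype.card_fin, nsmul_eq_mul]
        calc (R : ℝ) * (ρ * (L * (1 + θ ^ 2) * (1 / R + δ)))
            = L * (1 + θ ^ 2) * ((ρ * R) * (1 / R) + (ρ * R) * δ) := by ring
          _ = L * (1 + θ ^ 2) * (1 / Real.sqrt R + Real.sqrt R * δ) := by
            rw [hρR]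
            congr 2
            rw [mul_one_div, Real.sqrt_div_self, one_div]

end Vale.Agent.P095
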