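import Vale.Agent.P095.Poly

/-! A commuting matrix over a C*-algebra satisfies what the points of the domain satisfy. -/

noncomputable section

open Filter Topology
open scoped ComplexOrder

namespace Vale.Agent.P095

universe u v

/-- Module Gelfand. -/
theorem gelfand_ok : GelfandStatement.{u, v} := by
  intro A _ ι _ K hc hsa hsym hone hpos hquad p ε hε hp
  set G : Set A := Set.range fun ab : ι × ι => K ab.1 ab.2 with hG
  set S : StarSubalgebra ℂ A := (StarAlgebra.adjoin ℂ G).topologicalClosure with hS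
  have hScl : IsClosed (S : Set A) := StarSubalgebra.isClosed_topologicalClosure _
  have hmin : ∀ U : Set A, G ⊆ StarSubalgebra.centralizer ℂ U → S ≤ StarSubalgebra.centralizer ℂ U :=
    fun U h => StarSubalgebra.topologicalClosure_minimal (StarAlgebra.adjoin_le h)
      (Set.isClosed_centralizer _)
  have h1 : S ≤ StarSubalgebra.centralizer ℂ G := hmin G fun x hx => by
    obtain ⟨⟨a, b⟩, rfl⟩ := hx
    refine (StarSubalgebra.mem_centralizer_iff ℂ).2 ?_
    rintro g ⟨⟨a', b'⟩, rfl⟩
    have h := (hc a' b' a b).eq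
    exact ⟨h, by rw [(hsa a' b').star_eq]; exact h⟩
  have h2 : S ≤ StarSubalgebra.centralizer ℂ (S : Set A) := hmin _ fun x hx => by
    refine (StarSubalgebra.mem_centralizer_iff ℂ).2 fun g hg => ?_
    have e1 := ((StarSubalgebra.mem_centralizer_iff ℂ).1 (h1 hg) x hx).1
    have e2 := ((StarSubalgebra.mem_centralizer_iff ℂ).1 (h1 (star_mem hg)) x hx).1
    exact ⟨e1.symm, e2.symm⟩
  let instC : CommCStarAlgebra S :=
    { (inferInstance : CStarAlgebra S) with
      mul_comm := fun x y => Subtype.ext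
        ((StarSubalgebra.mem_centralizer_iff ℂ).1 (h2 y.2) x x.2).1 }
  have hKmem : ∀ a b, K a b ∈ S := fun a b =>
    StarSubalgebra.le_topologicalClosure _ (StarAlgebra.subset_adjoin ℂ G ⟨(a, b), rfl⟩)
  set Ks : ι → ι → S := fun a b => ⟨K a b, hKmem a b⟩ with hKs
  have hev : evA K p = ((evA Ks p : S) : A) := (map_evA S.subtype.toAlgHom Ks p).symm
  rw [hev]
  show ‖evA Ks p‖ ≤ ε
  rcases subsingleton_or_nontrivial S with hss | hnt
  · rw [Subsingleton.elim (evA Ks p) 0, norm_zero]; exact hε
  rw [← (gelfandTransform_isometry S).norm_map_of_map_zero (map_zero _) (evA Ks p)]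
  refine (ContinuousMap.norm_le _ hε).2 fun χ => ?_
  let := CStarAlgebra.spectralOrder A
  have := CStarAlgebra.spectralOrderedRing A
  have hreal : ∀ s : S, (∃ B, star B * B = (s : A)) →
      (χ s).im = 0 ∧ 0 ≤ (χ s).re := by
    rintro s ⟨B, hB⟩
    have hmem : χ s ∈ spectrum ℂ (s : A) := by
      rw [← StarSubalgebra.spectrum_eq]
      exact WeakDual.CharacterSpace.apply_mem_spectrum χ s
    have h0 : (0 : A) ≤ (s : A) := by rw [← hB]; exact star_mul_self_nonneg B
    have h3 := spectrum_nonneg_of_nonneg h0 hmem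
    rw [Complex.le_def] at h3
    exact ⟨by simpa using h3.2.symm, by simpa using h3.1⟩
  set x : ι → ι → ℝ := fun a b => (χ (Ks a b)).re with hx
  have hxC : ∀ a b, χ (Ks a b) = (x a b : ℂ) := fun a b =>
    Complex.ext (by simp [hx]) (by simp [(hreal (Ks a b) (hpos a b)).1])
  have hdom : x ∈ Dom ι := by
    refine ⟨fun a b => ?_, fun a b => (hreal _ (hpos a b)).2, fun a => ?_, fun t => ?_⟩
    · simp only [hx, hKs, hsym a b]
    · have : Ks a a = 1 := Subtype.ext (hone a)
      simp only [hx, this, map_one, Complex.one_re]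
    · obtain ⟨B, hB⟩ := hquad t
      have h4 := (hreal (∑ a, ∑ b, ((t a * t b : ℝ) : ℂ) • Ks a b) ⟨B, by
        rw [hB]; simp [hKs, ← Complex.coe_smul]⟩).2
      simpa [hxC] using h4
  have hev2 : χ (evA Ks p) = ((evR x p : ℝ) : ℂ) := by
    have h := AlgHom.congr_fun (show ((WeakDual.CharacterSpace.toAlgHom χ).restrictScalars ℝ).comp
        (evA Ks) = Complex.ofRealAm.comp (evR x) from FreeAlgebra.hom_ext (funext fun ab => by
      obtain ⟨a, b⟩ := ab
      simp [evA_ι, evR_ι, hxC])) p
    simpa using h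
  show ‖χ (evA Ks p)‖ ≤ ε
  rw [hev2, Complex.norm_real, Real.norm_eq_abs]
  exact hp x hdom

end Vale.Agent.P095
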