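import Mathlib
import Vale.Agent.P095.Stage2.Moments

/-!
Module Stage2: almost invariant anticommuting symmetries from odd pairs, polynomial weights and
the asymptotic evaluation of polynomials at the covariance.
-/

noncomputable section

open Filter Topology Finset

namespace Vale.Agent.P095

universe u v

namespace Stage2

section

variable {A : Type u} [CStarAlgebra A] {T : Set (A →ₗ[ℂ] ℂ)}

lemma tendsSmall_of {w : ℕ → A} (C : ℝ)
    (h : ∀ τ ∈ T, ∀ i : ℕ, sn τ (w i) ≤ C / Real.sqrt ((i + 1 : ℕ) : ℝ)) : TendsSmall T w := by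
  intro η hη
  have ht : Tendsto (fun i : ℕ => C / Real.sqrt ((i + 1 : ℕ) : ℝ)) atTop (𝓝 0) :=
    tendsto_const_nhds.div_atTop (Real.tendsto_sqrt_atTop.comp
      (tendsto_natCast_atTop_atTop.comp (tendsto_add_atTop_nat 1)))
  filter_upwards [ht.eventually_le_const hη] with i hi τ hτ using (h τ hτ i).trans hi

lemma anti_lin {ι : Type*} [Fintype ι] {z : A} {w X : ι → A} (hw : ∀ a, Commute z (w a))
    (hX : ∀ a, z * X a = -(X a * z)) : z * lin w X = -(lin w X * z) := by
  rw [lin, mul_smul_comm, smul_mul_assoc, ← smul_neg, mul_sum, sum_mul, ← sum_neg_distrib]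
  congr 1
  refine sum_congr rfl fun a _ => ?_
  rw [mul_add, add_mul, neg_add, anti_mul_right (hw a) (hX a), anti_mul_left (hX a) (hw a)]

end

variable {G : Type v} [Group G] {A : Type u} [CStarAlgebra A] {c : Cfg G A} {S : Set A}
  (W : Units c S)

/-- The covariance used at step i: N = i+1 units in each of R = N^8 blocks. -/
def KK {ι : Type v} (j : ι → G) (i : ℕ) (a b : ι) : A :=
  W.Kbar (i + 1) ((i + 1) ^ 8) (j a) (j b)

/-- The signed sums used at step i. -/
def SS {ι : Type v} (j : ι → G) (i : ℕ) (a : ι) : A := W.Sg (i + 1) ((i + 1) ^ 8) (j a)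

variable {ι : Type v} [Fintype ι] (j : ι → G)

lemma sqrt_pow_eight (i : ℕ) :
    Real.sqrt (((i + 1) ^ 8 : ℕ) : ℝ) = ((i + 1 : ℕ) : ℝ) ^ 4 := by
  rw [Nat.cast_pow, show ((i + 1 : ℕ) : ℝ) ^ 8 = (((i + 1 : ℕ) : ℝ) ^ 4) ^ 2 by ring,
    Real.sqrt_sq (by positivity)]

lemma sqrt_le_pow (i : ℕ) {k : ℕ} (hk : 1 ≤ k) :
    Real.sqrt ((i + 1 : ℕ) : ℝ) ≤ ((i + 1 : ℕ) : ℝ) ^ k := by
  have h1 : (1 : ℝ) ≤ ((i + 1 : ℕ) : ℝ) := by exact_mod_cast Nat.succ_pos i
  refine le_trans (Real.sqrt_le_iff.2 ⟨by positivity, ?_⟩) (le_self_pow₀ h1 (by omega))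
  nlinarith

/-- The asymptotic evaluation applies to the covariance. -/
lemma eventually_small (hA : AsympStatement.{u, v}) (p : Poly ι) {ε η : ℝ} (hε : 0 ≤ ε)
    (hp : ∀ x ∈ Dom ι, |evR x p| ≤ ε) (hη : 0 < η) :
    ∀ᶠ i in atTop, Small c.T (evA (KK W j i) p) (ε + η) := by
  refine hA A c.T c.tr ι (KK W j) 256 (fun i a b => W.norm_Kbar _ _)
    (fun i a b => W.star_Kbar _ _) (fun a b a' b' => ?_) (fun a b => ?_) (fun a => ?_)
    (fun a b => ?_) (fun i t => W.exists_psd j t) p ε hε hp η hη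
  · refine tendsSmall_of 131072 fun τ hτ i => ?_
    refine ((c.tr τ hτ).sn_le_norm _).trans ((W.norm_br_Kbar _ _ _ _).trans ?_)
    refine div_le_div_of_nonneg_left (by norm_num) (by positivity) ?_
    rw [Nat.cast_pow]
    exact sqrt_le_pow i (by norm_num)
  · exact tendsSmall_of 1000 fun τ hτ i => W.sn_Kbar_symm hτ _ _
  · exact tendsSmall_of 1000 fun τ hτ i => W.sn_Kbar_diag hτ i.succ_pos (by positivity) _
  · choose B hB1 hB2 using fun i : ℕ =>
      W.exists_near_positive (N := i + 1) (R := (i + 1) ^ 8) (j a) (j b)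
    exact ⟨B, fun i => (hB1 i).trans (by norm_num),
      tendsSmall_of 1000 fun τ hτ i => hB2 i τ hτ⟩

/-- Squares of linear combinations are evaluations of the quadratic polynomial. -/
lemma lin_sq_approx (w : ι → Poly ι) :
    TendsSmall c.T fun i => lin (fun a => evA (KK W j i) (w a)) (SS W j i) *
      lin (fun a => evA (KK W j i) (w a)) (SS W j i) - evA (KK W j i) (quadP w) := by
  choose L hL0 hL using fun a => exists_evA_bound.{u} (w a) 256
  set M : ℝ := 1 + ∑ a, L a with hM
  have hM1 : 1 ≤ M := by have := sum_nonneg fun a (_ : a ∈ univ) => hL0 a; linarith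
  have hLM : ∀ a, L a ≤ M := fun a => by
    have := single_le_sum (fun b _ => hL0 b) (mem_univ a); linarith
  refine tendsSmall_of ((Fintype.card ι : ℝ) ^ 2 *
    (M ^ 2 * 1012 + (M * 8192 + M * M * 131072) * (32 * M + 256))) fun τ hτ i => ?_
  set N : ℝ := ((i + 1 : ℕ) : ℝ) with hN
  have hN1 : (1 : ℝ) ≤ N := by rw [hN]; exact_mod_cast i.succ_pos
  have hR : ((((i + 1) ^ 8 : ℕ)) : ℝ) = N ^ 8 := by rw [Nat.cast_pow]
  have hRs : Real.sqrt (((i + 1) ^ 8 : ℕ) : ℝ) = N ^ 4 := sqrt_pow_eight i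
  set δ : ℝ := (M * 8192 + M * M * 131072) / N ^ 3 with hδ
  have hδ0 : 0 ≤ δ := by positivity
  have hK : ∀ a b, ‖KK W j i a b‖ ≤ 256 := fun a b => W.norm_Kbar _ _
  have hwX : ∀ a b, ‖br (evA (KK W j i) (w a)) (SS W j i b)‖ ≤ δ := by
    intro a b
    rw [show br (evA (KK W j i) (w a)) (SS W j i b)
      = -br (SS W j i b) (evA (KK W j i) (w a)) from (neg_sub _ _).symm, norm_neg]
    refine ((hL a A (KK W j i) hK).2 _ (8192 * N / N ^ 4) (by positivity) fun s t => ?_).trans ?_
    · rw [← hRs]; exact W.norm_br_Sg_Kbar _ _ _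
    · rw [hδ, show 8192 * N / N ^ 4 = 8192 / N ^ 3 by field_simp, ← mul_div_assoc]
      refine div_le_div_of_nonneg_right ?_ (by positivity)
      nlinarith [mul_le_mul_of_nonneg_right (hLM a) (show (0 : ℝ) ≤ 8192 by norm_num)]
  have hww : ∀ a b, ‖br (evA (KK W j i) (w a)) (evA (KK W j i) (w b))‖ ≤ δ := by
    intro a b
    refine ((hL b A (KK W j i) hK).2 _ (L a * (131072 / N ^ 8))
      (mul_nonneg (hL0 a) (by positivity)) fun s t => ?_).trans ?_
    · rw [show br (evA (KK W j i) (w a)) (KK W j i s t)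
        = -br (KK W j i s t) (evA (KK W j i) (w a)) from (neg_sub _ _).symm, norm_neg]
      refine (hL a A (KK W j i) hK).2 _ _ (by positivity) fun s' t' => ?_
      rw [← hR]; exact W.norm_br_Kbar _ _ _ _
    · have h1 : L b * (L a * (131072 / N ^ 8)) ≤ M * M * 131072 / N ^ 3 := by
        rw [show L b * (L a * (131072 / N ^ 8)) = L b * L a * 131072 / N ^ 8 by ring]
        exact div_le_div₀ (by positivity) (mul_le_mul_of_nonneg_right
          (mul_le_mul (hLM b) (hLM a) (hL0 a) (by linarith)) (by norm_num)) (by positivity)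
          (pow_le_pow_right₀ hN1 (by norm_num))
      refine h1.trans (div_le_div_of_nonneg_right ?_ (by positivity))
      nlinarith
  have hη : ∀ a b, sn τ ((2 : ℝ)⁻¹ • (SS W j i a * SS W j i b + SS W j i b * SS W j i a)
      - KK W j i a b) ≤ 1012 / Real.sqrt N := by
    intro a b
    refine (W.sn_anticomm_sub hτ i.succ_pos _ _).trans ?_
    rw [hRs, ← hN]
    have h1 : 512 * N ^ 2 / N ^ 4 ≤ 512 / Real.sqrt N := by
      rw [show 512 * N ^ 2 / N ^ 4 = 512 / N ^ 2 by field_simp]
      exact div_le_div_of_nonneg_left (by norm_num) (Real.sqrt_pos.2 (by linarith))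
        (sqrt_le_pow i (by norm_num))
    calc 512 * N ^ 2 / N ^ 4 + 500 / Real.sqrt N ≤ 512 / Real.sqrt N + 500 / Real.sqrt N := by
          linarith
      _ = 1012 / Real.sqrt N := by ring
  rw [evA_quadP]
  refine (sn_lin_sq (c.tr τ hτ) (L := M) (s := 16 * N) (by linarith) (by positivity) hδ0
    (fun a => ((hL a A (KK W j i) hK).1).trans (hLM a)) (fun a => W.norm_Sg _) hwX hww hη).trans ?_
  rw [mul_div_assoc]
  refine mul_le_mul_of_nonneg_left ?_ (by positivity)
  have hs : δ * (2 * M * (16 * N) + 16 * N * (16 * N))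
      ≤ (M * 8192 + M * M * 131072) * (32 * M + 256) / Real.sqrt N := by
    calc δ * (2 * M * (16 * N) + 16 * N * (16 * N))
        ≤ δ * ((32 * M + 256) * N ^ 2) := by
          refine mul_le_mul_of_nonneg_left ?_ hδ0
          nlinarith [mul_le_mul_of_nonneg_left hN1 (show 0 ≤ M * N by positivity)]
      _ = (M * 8192 + M * M * 131072) * (32 * M + 256) / N := by
          rw [hδ]; field_simp
      _ ≤ _ := div_le_div_of_nonneg_left (by positivity) (Real.sqrt_pos.2 (by linarith))
          ((sqrt_le_pow i le_rfl).trans (pow_one N).le)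
  calc M ^ 2 * (1012 / Real.sqrt N) + δ * (2 * M * (16 * N) + 16 * N * (16 * N))
      ≤ M ^ 2 * (1012 / Real.sqrt N)
        + (M * 8192 + M * M * 131072) * (32 * M + 256) / Real.sqrt N := by linarith
    _ = _ := by ring

omit [Fintype ι] in
lemma sum_push [Fintype ι] [DecidableEq ι] {P : Type v} [Fintype P] (f : P → ι) (t : P → ℝ)
    (F : ι → ℝ) : ∑ k, push f t k * F k = ∑ a, t a * F (f a) := by
  simp only [push, sum_mul]
  rw [sum_comm]
  exact sum_congr rfl fun a _ => by simp [ite_mul]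

omit [Fintype ι] in
lemma quad_push [Fintype ι] [DecidableEq ι] {P : Type v} [Fintype P] (f : P → ι) (t : P → ℝ)
    (x : ι → ι → ℝ) : quad x (push f t) = quad (fun a b => x (f a) (f b)) t := by
  simp only [quad, mul_assoc, ← mul_sum]
  simp only [sum_push f t]

lemma ncard_symmDiff_le {α : Type*} [DecidableEq α] (P Q : Finset α) (h : P.card = Q.card) :
    Set.ncard (symmDiff (Q : Set α) (P : Set α)) ≤ 2 * Set.ncard ((Q : Set α) \ (P : Set α)) := by
  rw [Set.symmDiff_def]
  refine (Set.ncard_union_le _ _).trans ?_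
  rw [← Finset.coe_sdiff, ← Finset.coe_sdiff, Set.ncard_coe_finset, Set.ncard_coe_finset]
  have h1 := Finset.card_sdiff_add_card_inter P Q
  have h2 := Finset.card_sdiff_add_card_inter Q P
  rw [Finset.inter_comm Q P] at h2
  omega

end Stage2

open Stage2 in
theorem stage2_ok (hW : WeightsStatement.{v}) (hA : AsympStatement.{u, v}) :
    Stage2Statement.{u, v} := by
  intro G _ _ A _ c hG hO S hS E ε hε
  classical
  obtain ⟨W⟩ := exists_units c hO hS
  set e : ℝ := min (ε / 6) (ε ^ 2 / 45) with he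
  have he0 : 0 < e := lt_min (by positivity) (by positivity)
  obtain ⟨P, hPne, hP⟩ := hG E (e / 2) (by positivity)
  have : Nonempty P := hPne.to_subtype
  obtain ⟨p, hp1, hp2⟩ := hW P e he0
  choose q hq1 hq2 using fun a => exists_sa_evA.{u} (p a)
  set Is : Finset G := P ∪ E.biUnion fun h => P.image (h * ·) with hIs
  let j : Is → G := Subtype.val
  let j0 : P → Is := fun a => ⟨a, mem_union_left _ a.2⟩
  have hj0 : Function.Injective j0 := fun a b hab => Subtype.ext (congrArg (Subtype.val) hab :)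
  let jh : {h // h ∈ E} → P → Is := fun h a => ⟨h * a, mem_union_right _
    (mem_biUnion.2 ⟨h, h.2, mem_image_of_mem _ a.2⟩)⟩
  have hjh : ∀ h, Function.Injective (jh h) := fun h a b hab =>
    Subtype.ext (mul_left_cancel (congrArg (Subtype.val) hab :))
  -- weights as polynomials over the index set
  let w : (P → Is) → Is → Poly Is := fun f => pushP f fun a => ren f (q a)
  have hwA : ∀ (f : P → Is) i, lin (fun k => evA (KK W j i) (w f k)) (SS W j i)
      = lin (fun a => evA (fun s t => KK W j i (f s) (f t)) (q a)) fun a => SS W j i (f a) := by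
    intro f i
    have h1 : (fun k => evA (KK W j i) (w f k))
        = pushP f fun a => evA (fun s t => KK W j i (f s) (f t)) (q a) := by
      funext k
      rw [map_pushP]
      simp only [evA_ren]
    rw [h1, lin_pushP]
  have hwR : ∀ (f : P → Is) (x : Is → Is → ℝ), (∀ a b, x a b = x b a) → ∀ k,
      evR x (w f k) = push f (fun a => evR (fun s t => x (f s) (f t)) (p a)) k := by
    intro f x hx k
    rw [map_pushP, pushP_real]
    simp only [evR_ren, hq2 _ _ fun a b => hx (f a) (f b)]
  have hquad0 : ∀ x ∈ Dom Is, |evR x (quadP (w j0) - 1)| ≤ e := by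
    intro x hx
    obtain ⟨hs, hn, hd, hp⟩ := hx
    have hdom : (fun a b => x (j0 a) (j0 b)) ∈ Dom P := by
      refine ⟨fun a b => hs _ _, fun a b => hn _ _, fun a => hd _, fun t => ?_⟩
      exact (hp (push j0 t)).trans_eq (quad_push j0 t x)
    have hq : quad x (fun k => evR x (w j0 k))
        = quad (fun a b => x (j0 a) (j0 b)) fun a => evR (fun s t => x (j0 s) (j0 t)) (p a) := by
      rw [funext (hwR j0 x hs), quad_push]
    rw [map_sub, map_one, evR_quadP, hq]
    exact hp1 _ hdom
  have hquadh : ∀ h, ∀ x ∈ Dom Is, |evR x (quadP fun k => w (jh h) k - w j0 k)| ≤ 2 * e := by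
    intro h x hx
    rw [evR_quadP, abs_of_nonneg (by exact hx.2.2.2 _)]
    simp only [map_sub, hwR _ x hx.1]
    refine (hp2 Is (jh h) j0 (hjh h) hj0 x hx).trans ?_
    have hc : (Set.ncard (symmDiff (Set.range (jh h)) (Set.range j0)) : ℝ) ≤ e * P.card := by
      have hi : Set.ncard (symmDiff (Set.range (jh h)) (Set.range j0))
          = Set.ncard (symmDiff ((P.image ((h : G) * ·) : Finset G) : Set G) (P : Set G)) := by
        rw [← Set.ncard_image_of_injective _ (Subtype.val_injective (p := (· ∈ Is))),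
          Set.image_symmDiff Subtype.val_injective, ← Set.range_comp, ← Set.range_comp]
        congr 2
        · ext g
          simp only [jh, Set.mem_range, Function.comp_apply, Finset.mem_coe, mem_image]
          exact ⟨fun ⟨a, ha⟩ => ⟨a, a.2, ha⟩, fun ⟨a, ha, e⟩ => ⟨⟨a, ha⟩, e⟩⟩
        · ext g; simp [j0]
      rw [hi]
      have := ncard_symmDiff_le P (P.image ((h : G) * ·))
        (card_image_of_injective _ (mul_right_injective _)).symm
      have h2 := hP h h.2
      rw [← Finset.coe_image] at h2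
      have h3 : (Set.ncard (symmDiff ((P.image ((h : G) * ·) : Finset G) : Set G) (P : Set G)) : ℝ)
          ≤ 2 * Set.ncard (((P.image ((h : G) * ·) : Finset G) : Set G) \ (P : Set G)) := by
        exact_mod_cast this
      linarith
    have hcard : (0 : ℝ) < P.card := by exact_mod_cast hPne.card_pos
    rw [Fintype.card_coe]
    have := (div_le_iff₀ hcard).2 hc
    linarith
  -- a good step
  have hev := (eventually_small W j hA _ he0.le hquad0 he0).and
    ((lin_sq_approx W j (w j0) e he0).and (eventually_all.2 fun h =>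
      (eventually_small W j hA _ (by positivity) (hquadh h) he0).and
        (lin_sq_approx W j (fun k => w (jh h) k - w j0 k) e he0)))
  obtain ⟨i, h1, h2, h3⟩ := hev.exists
  have hKsa : ∀ (f : P → Is) a b, star (KK W j i (f a) (f b)) = KK W j i (f b) (f a) :=
    fun f a b => W.star_Kbar _ _
  set T0 := lin (fun k => evA (KK W j i) (w j0 k)) (SS W j i) with hT0
  have hTsa : ∀ f, IsSelfAdjoint (lin (fun k => evA (KK W j i) (w f k)) (SS W j i)) := by
    intro f
    rw [hwA]
    exact isSelfAdjoint_lin (fun a => hq1 a A _ (hKsa f)) fun a => W.Sg_sa _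
  have hact : ∀ h : {h // h ∈ E}, c.act (h : G) T0
      = lin (fun k => evA (KK W j i) (w (jh h) k)) (SS W j i) := by
    intro h
    rw [hT0, hwA, hwA]
    have := map_lin (c.act (h : G) : A →ₐ[ℂ] A)
      (fun a => evA (fun s t => KK W j i (j0 s) (j0 t)) (q a)) fun a => SS W j i (j0 a)
    simp only [map_evA] at this
    refine Eq.trans this ?_
    congr 1
    · funext a; congr 2; funext s t; exact W.act_Kbar _ _ _
    · funext a; exact W.act_Sg _ _
  set n := (i + 1) ^ 8 * (i + 1)
  have hcomm : ∀ a, Commute (W.Q n) (evA (KK W j i) (w j0 a)) := fun a =>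
    commute_evA (fun s t => W.commute_Q_Kbar _ _ _) _
  have hanti : W.Q n * clip T0 = -(clip T0 * W.Q n) :=
    anti_clip (hTsa j0) (anti_lin hcomm fun a => W.Q_top_Sg _)
  refine ⟨W.Q n, clip T0, W.Q_sa n, clip_sa (hTsa j0), norm_symm_le (W.Q_sa n) (W.Q_sq n),
    norm_clip (hTsa j0), fun s hs => ⟨(W.commute_S_Q hs n).symm,
      (commute_clip (hTsa j0) (commute_lin (fun a => commute_evA (fun _ _ =>
        W.commute_S_Kbar hs _ _) _) fun a => W.commute_S_Sg hs _)).symm⟩,
    fun τ hτ => ?_, fun τ hτ => ?_, fun τ hτ => ?_, fun h hh => ⟨fun τ hτ => ?_, fun τ hτ => ?_⟩⟩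
  · rw [W.Q_sq, sub_self, (c.tr τ hτ).sn_zero]; exact hε.le
  · have ht := c.tr τ hτ
    refine (sn_clip_sq ht (hTsa j0)).trans ?_
    have h4 := ht.sn_add_le (T0 * T0 - evA (KK W j i) (quadP (w j0)))
      (evA (KK W j i) (quadP (w j0) - 1))
    rw [map_sub (evA (KK W j i)), map_one, sub_add_sub_cancel] at h4
    have h5 := h1 τ hτ
    rw [map_sub, map_one] at h5
    have h6 : sn τ (T0 * T0 - evA (KK W j i) (quadP (w j0))) ≤ e := h2 τ hτ
    have h7 : e ≤ ε / 6 := min_le_left _ _
    linarith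
  · rw [hanti, neg_add_cancel, (c.tr τ hτ).sn_zero]; exact hε.le
  · rw [W.act_Q, sub_self, (c.tr τ hτ).sn_zero]; exact hε.le
  · have ht := c.tr τ hτ
    obtain ⟨h4, h5⟩ := h3 ⟨h, hh⟩
    set Th := lin (fun k => evA (KK W j i) (w (jh ⟨h, hh⟩) k)) (SS W j i) with hTh
    rw [map_clip _ (hTsa j0), show c.act h T0 = Th from hact ⟨h, hh⟩]
    refine (sn_clip_sub ht (hTsa _) (hTsa _)).trans ?_
    have he2 : Th - T0 = lin (fun k => evA (KK W j i) (w (jh ⟨h, hh⟩) k - w j0 k)) (SS W j i) := by
      simp only [map_sub, lin_sub, hTh, hT0]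
    have h6 := h4 τ hτ
    have h7 := h5 τ hτ
    simp only at h7
    rw [← he2] at h7
    have h8 : sn τ (Th - T0) ^ 2 ≤ 5 * e := by
      have hs : star (Th - T0) = Th - T0 := ((hTsa _).sub (hTsa j0)).star_eq
      rw [ht.sq_sn, hs]
      have h10 := (Complex.re_le_norm _).trans (ht.norm_map_le_sn ((Th - T0) * (Th - T0)))
      have h11 := ht.sn_add_le ((Th - T0) * (Th - T0)
          - evA (KK W j i) (quadP fun k => w (jh ⟨h, hh⟩) k - w j0 k))
        (evA (KK W j i) (quadP fun k => w (jh ⟨h, hh⟩) k - w j0 k))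
      rw [sub_add_cancel] at h11
      linarith
    have h12 : e ≤ ε ^ 2 / 45 := min_le_right _ _
    nlinarith [sn_nonneg (τ := τ) (Th - T0)]

end Vale.Agent.P095
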