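import Mathlib
import Vale.Agent.P095.Defs
import Vale.Agent.P095.Assemble
import Vale.Agent.P095.Unfold
import Vale.Agent.P095.ExpLip
import Vale.Agent.P095.Gauss
import Vale.Agent.P095.Stage2

/-!
P095: every action of a countable amenable group on a uniformly McDuff unital C*-algebra is
equivariantly uniformly McDuff.
-/

noncomputable section

namespace Vale.Agent.P095

universe u v

theorem final_ok : Final.{u, v} :=
  final_of_gauss gauss_ok expLip_ok (stage2_ok weights_ok asymp_ok)

end Vale.Agent.P095
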