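import Mathlib
import Vale.Agent.P101.Stage4.Main

/-!
In a C*-algebra with the relations of `ComparisonN` two anticommuting self-adjoint contractions
square to nearly one in every tracial seminorm.
-/

noncomputable section

open Finset

namespace Vale.Agent.P095.FromCharFree

open Vale.Agent.P101 CombineN Stage4

/-- The real part of a tracial state, as a real functional. -/
structure TrState (A : Type*) [CStarAlgebra A] where
  val : A →ₗ[ℝ] ℝ
  map_one : val 1 = 1
  map_star : ∀ a, val (star a) = val a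
  pos : ∀ a, 0 ≤ val (star a * a)
  comm : ∀ a b, val (a * b) = val (b * a)

variable {A : Type*} [CStarAlgebra A] (τ : TrState A)

lemma exists_sq_of_le {b : A} (hb : IsSelfAdjoint b) {r : ℝ} (h : ‖b‖ ≤ r) :
    ∃ q, star q * q = r • (1 : A) - b := by
  let := CStarAlgebra.spectralOrder A
  have := CStarAlgebra.spectralOrderedRing A
  refine ⟨cfc (fun t => Real.sqrt (r - t)) b, ?_⟩
  rw [(cfc_predicate _ b : IsSelfAdjoint _).star_eq, ← cfc_mul _ _ b (by fun_prop) (by fun_prop)]
  have he : (spectrum ℝ b).EqOn (fun t => Real.sqrt (r - t) * Real.sqrt (r - t)) (fun t => r - t) :=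
    fun t ht => Real.mul_self_sqrt (sub_nonneg.2 (by
      rcases subsingleton_or_nontrivial A with hs | hn
      · simp [spectrum.of_subsingleton] at ht
      · exact ((le_abs_self t).trans (spectrum.norm_le_norm_of_mem ht)).trans h))
  rw [cfc_congr he, cfc_sub (fun _ => r) (fun t => t) b continuousOn_const continuousOn_id, cfc_id' ℝ b, cfc_const r b,
    Algebra.algebraMap_eq_smul_one]

lemma le_norm_of_sa {b : A} (hb : IsSelfAdjoint b) : τ.val b ≤ ‖b‖ := by
  obtain ⟨q, hq⟩ := exists_sq_of_le hb le_rfl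
  have := τ.pos q
  rw [hq, map_sub, map_smul, τ.map_one] at this
  simpa using this

lemma le_norm (a : A) : τ.val a ≤ ‖a‖ := by
  have h := le_norm_of_sa τ (IsSelfAdjoint.add_star_self a)
  rw [map_add, τ.map_star] at h
  linarith [norm_add_le a (star a), norm_star a]

lemma abs_le_norm (a : A) : |τ.val a| ≤ ‖a‖ := by
  refine abs_le.2 ⟨?_, le_norm τ a⟩
  have := le_norm τ (-a)
  rw [map_neg, norm_neg] at this
  linarith

/-- Conjugation costs at most the squared norm. -/
lemma val_conj_le (a b : A) : τ.val (star (a * b) * (a * b)) ≤ ‖a‖ ^ 2 * τ.val (star b * b) := by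
  obtain ⟨q, hq⟩ := exists_sq_of_le (IsSelfAdjoint.star_mul_self a)
    (show ‖star a * a‖ ≤ ‖a‖ ^ 2 by rw [CStarRing.norm_star_mul_self, sq])
  have := τ.pos (q * b)
  rw [star_mul, mul_assoc, ← mul_assoc (star q), hq, sub_mul, mul_sub, smul_mul_assoc, one_mul,
    mul_smul_comm, map_sub, map_smul, smul_eq_mul] at this
  rw [star_mul, mul_assoc, ← mul_assoc (star a) a b]
  linarith

lemma val_sq_le (a : A) : τ.val (star a * a) ≤ ‖a‖ ^ 2 := by
  simpa [τ.map_one] using val_conj_le τ a 1

variable {n : ℕ}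

/-- A fixed-point-free involution with signs. -/
structure Flip (n : ℕ) where
  σ : Fin n → Fin n
  sgn : Fin n → ℝ
  invol : ∀ i, σ (σ i) = i
  ne : ∀ i, σ i ≠ i
  sq : ∀ i, sgn i * sgn i = 1
  anti : ∀ i, sgn (σ i) = -sgn i

/-- The relations give two anticommuting self-adjoint contractions of tracially nearly full square,
chosen before the trace. -/
lemma exists_pair {z : Fin n} (F : Flip n) (h : ComparisonN n z A) :
    ∃ x y : A, IsSelfAdjoint x ∧ IsSelfAdjoint y ∧ ‖x‖ ≤ 1 ∧ ‖y‖ ≤ 1 ∧ x * y + y * x = 0 ∧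
      ∀ τ : TrState A, τ.val (star (1 - x * x) * (1 - x * x)) ≤ 4 / n ∧
        τ.val (star (1 - y * y) * (1 - y * y)) ≤ 4 / n := by
  obtain ⟨G, v, hG, hs, hr, hv, hfix⟩ := h
  let := CStarAlgebra.spectralOrder A
  have := CStarAlgebra.spectralOrderedRing A
  set S := supp G with hS
  have hS0 : 0 ≤ S := Finset.sum_nonneg fun i _ => by
    obtain ⟨r, hr⟩ := hr i
    exact hr ▸ star_mul_self_nonneg r
  have hS1 : S ≤ 1 := sub_nonneg.1 (hv ▸ star_mul_self_nonneg v)
  have hSn : ‖S‖ ≤ 1 := (CStarAlgebra.norm_le_one_iff_of_nonneg S hS0).2 hS1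
  have hvn : ‖v‖ ≤ 1 := by
    have : ‖star v * v‖ ≤ 1 := by
      rw [CStarAlgebra.norm_le_one_iff_of_nonneg _ (star_mul_self_nonneg v), hv]
      exact sub_le_self _ hS0
    rw [CStarRing.norm_star_mul_self] at this
    nlinarith [norm_nonneg v]
  have hSsa : star S = S := by rw [hS, supp, star_sum]; simp [hs]
  set x := ∑ i, G i (F.σ i)
  set y := ∑ i, F.sgn i • G i i
  have hxsa : IsSelfAdjoint x := by
    rw [IsSelfAdjoint, star_sum]
    simp only [hs]
    refine Fintype.sum_bijective F.σ (Function.Involutive.bijective F.invol) _ _ fun i => ?_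
    rw [F.invol]
  have hysa : IsSelfAdjoint y := by
    rw [IsSelfAdjoint, star_sum]
    exact Finset.sum_congr rfl fun i _ => by simp [star_smul, hs]
  have hxx : x * x = S * S := by
    rw [Finset.sum_mul, show S * S = ∑ i, S * G i i from Finset.mul_sum _ _ _]
    refine Finset.sum_congr rfl fun i _ => ?_
    rw [Finset.mul_sum]
    simp only [hG.mul_eq, Finset.sum_ite_eq, Finset.mem_univ, if_true, F.invol]
    rfl
  have hyy : y * y = S * S := by
    rw [Finset.sum_mul, show S * S = ∑ i, S * G i i from Finset.mul_sum _ _ _]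
    refine Finset.sum_congr rfl fun i _ => ?_
    rw [Finset.mul_sum]
    simp only [smul_mul_assoc, mul_smul_comm, hG.mul_eq, smul_ite, smul_zero, Finset.sum_ite_eq,
      Finset.mem_univ, if_true, smul_smul, F.sq, one_smul]
    rfl
  have hxy : x * y + y * x = 0 := by
    have e1 : x * y = ∑ i, F.sgn (F.σ i) • (S * G i (F.σ i)) := by
      rw [Finset.sum_mul]
      refine Finset.sum_congr rfl fun i _ => ?_
      rw [Finset.mul_sum]
      simp only [mul_smul_comm, hG.mul_eq, smul_ite, smul_zero, Finset.sum_ite_eq, Finset.mem_univ,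
        if_true]
      rfl
    have e2 : y * x = ∑ i, F.sgn i • (S * G i (F.σ i)) := by
      rw [Finset.sum_mul]
      refine Finset.sum_congr rfl fun i _ => ?_
      rw [Finset.mul_sum]
      simp only [smul_mul_assoc, hG.mul_eq, smul_ite, smul_zero, Finset.sum_ite_eq, Finset.mem_univ,
        if_true]
      rfl
    rw [e1, e2, ← Finset.sum_add_distrib]
    refine Finset.sum_eq_zero fun i _ => ?_
    rw [← add_smul, F.anti i, neg_add_cancel, zero_smul]
  have hnorm : ∀ w : A, IsSelfAdjoint w → w * w = S * S → ‖w‖ ≤ 1 := fun w hw hww => by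
    have h1 : ‖w * w‖ = ‖w‖ * ‖w‖ := by
      conv_lhs => arg 1; arg 1; rw [← hw.star_eq]
      exact CStarRing.norm_star_mul_self
    have h2 : ‖S * S‖ ≤ 1 := (norm_mul_le _ _).trans (mul_le_one₀ hSn (norm_nonneg _) hSn)
    rw [← hww, h1] at h2
    nlinarith [norm_nonneg w]
  refine ⟨x, y, hxsa, hysa, hnorm x hxsa hxx, hnorm y hysa hyy, hxy, fun τ => ?_⟩
  rw [hxx, hyy]
  suffices h : τ.val (star (1 - S * S) * (1 - S * S)) ≤ 4 / n from ⟨h, h⟩
  have hw : 1 - S * S = (1 + S) * star v * v := by
    rw [mul_assoc, hv, add_mul, one_mul, mul_sub, mul_one]; abel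
  have hcoef : ‖(1 + S) * star v‖ ^ 2 ≤ 4 := by
    rcases subsingleton_or_nontrivial A with hA | hA
    · rw [norm_of_subsingleton]; norm_num
    · have : ‖(1 + S) * star v‖ ≤ 2 := (norm_mul_le _ _).trans (by
        rw [norm_star]
        nlinarith [norm_add_le (1 : A) S, norm_one (α := A), norm_nonneg (1 + S), norm_nonneg v])
      nlinarith [norm_nonneg ((1 + S) * star v)]
  have hvv : τ.val (star v * v) ≤ τ.val (G z z * G z z) := by
    calc τ.val (star v * v) = τ.val (star (star v * G z z) * (star v * G z z)) := by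
          rw [star_mul, star_star, hs, mul_assoc, ← mul_assoc v, τ.comm (G z z),
            mul_assoc (v * star v), hG.mul_eq, if_pos rfl]
          conv_lhs => rw [show star v * v = star (G z z * v) * (G z z * v) by rw [hfix]]
          rw [star_mul, hs, mul_assoc, ← mul_assoc (G z z), hG.mul_eq, if_pos rfl, τ.comm (star v)]
          rw [mul_assoc, τ.comm (supp G * G z z), mul_assoc]
      _ ≤ ‖star v‖ ^ 2 * τ.val (star (G z z) * G z z) := val_conj_le τ _ _
      _ ≤ _ := by
          rw [hs]
          refine mul_le_of_le_one_left (by simpa [hs] using τ.pos (G z z)) ?_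
          rw [norm_star]
          exact pow_le_one₀ (norm_nonneg _) hvn
  have hdiag : ∀ i, τ.val (G i i * G i i) = τ.val (G z z * G z z) := fun i => by
    rw [hG.mul_eq i i i i, if_pos rfl, hG.mul_eq z z z z, if_pos rfl]
    -- both are the trace of the corresponding off-diagonal product
    have e1 := hG.mul_eq i z z i
    have e2 := hG.mul_eq z i i z
    simp only [if_true] at e1 e2
    rw [← e1, ← e2, τ.comm]
  have hsum : (n : ℝ) * τ.val (G z z * G z z) ≤ 1 := by
    calc (n : ℝ) * τ.val (G z z * G z z) = ∑ i, τ.val (G i i * G i i) := by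
          simp [hdiag]
      _ = τ.val (star S * S) := by
          rw [← map_sum, hSsa]; congr 1
          rw [show S * S = ∑ i, S * G i i from Finset.mul_sum _ _ _]
          exact Finset.sum_congr rfl fun i _ => by rw [hG.mul_eq, if_pos rfl]
      _ ≤ ‖S‖ ^ 2 := val_sq_le τ S
      _ ≤ 1 := pow_le_one₀ (norm_nonneg _) hSn
  have hn : (0 : ℝ) < n := by exact_mod_cast Nat.lt_of_le_of_lt (Nat.zero_le _) z.2
  rw [hw]
  refine (val_conj_le τ _ v).trans ?_
  rw [le_div_iff₀ hn]
  nlinarith [mul_le_mul hcoef hvv (τ.pos v) (by norm_num : (0 : ℝ) ≤ 4), τ.pos v]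

end Vale.Agent.P095.FromCharFree
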